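import Vale.Agent.P244.ST.L.Ell

/-!
# P244-ST block L : the elliptic equation with drift
-/

open Set Filter Topology
open scoped ContDiff

namespace Vale.Agent.P244.ST.L

/-- Primitive of a jet (vanishing at `0`). -/
noncomputable def prim (q : ℕ → ℝ → ℝ) : ℕ → ℝ → ℝ
  | 0 => fun x => ∫ y in (0 : ℝ)..x, q 0 (max (-1) (min 1 y))
  | j + 1 => q j

theorem clamp_mem (y : ℝ) : max (-1) (min 1 y) ∈ II :=
  ⟨le_max_left _ _, max_le (by norm_num) (min_le_left _ _)⟩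

theorem clamp_eq {y : ℝ} (hy : y ∈ II) : max (-1) (min 1 y) = y := by
  rw [min_eq_right hy.2, max_eq_right hy.1]

theorem jet_prim {q : ℕ → ℝ → ℝ} (hq : Jet q) : Jet (prim q) := by
  intro j x hx
  cases j with
  | succ j => exact hq j x hx
  | zero =>
    have hc : Continuous fun y : ℝ => q 0 (max (-1) (min 1 y)) :=
      (hq.continuousOn 0).comp_continuous (by fun_prop) clamp_mem
    have h1 : HasDerivAt (fun x => ∫ y in (0 : ℝ)..x, q 0 (max (-1) (min 1 y)))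
        (q 0 (max (-1) (min 1 x))) x :=
      intervalIntegral.integral_hasDerivAt_right (hc.intervalIntegrable _ _)
        (hc.stronglyMeasurableAtFilter _ _) hc.continuousAt
    rw [clamp_eq hx] at h1
    exact h1.hasDerivWithinAt

/-- Uniqueness through the maximum principle: sup bound with drift. -/
theorem drift_bound {d h : ℝ} (hd : 0 ≤ d) (hh : 0 ≤ h) {a b u g : ℕ → ℝ → ℝ}
    (hpos : ∀ x ∈ II, 0 ≤ a 0 x) (hu : Jet u)
    (he : ∀ x ∈ II, u 0 x - h * (a 0 x * lapJ d u 0 x + (1 - x ^ 2) * b 0 x * u 1 x) = g 0 x)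
    {K : ℝ} (hK : ∀ x ∈ II, |g 0 x| ≤ K) : ∀ x ∈ II, |u 0 x| ≤ K := by
  refine abs_le_of_max (fun x hx => hu 0 x hx) (fun x hx => hu 1 x hx) ?_ ?_
  · intro x0 hx0 _ h1 h2
    have e1 := he x0 hx0
    have e2 := h2 d hd
    have e3 := (abs_le.1 (hK x0 hx0)).2
    have e4 : lapJ d u 0 x0 = (1 - x0 ^ 2) * u 2 x0 - d * x0 * u 1 x0 := by
      unfold lapJ; simp
    have e5 : a 0 x0 * lapJ d u 0 x0 ≤ 0 := by
      rw [e4]; exact mul_nonpos_of_nonneg_of_nonpos (hpos x0 hx0) e2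
    have e6 : (1 - x0 ^ 2) * b 0 x0 * u 1 x0 = 0 := by
      rw [mul_right_comm, h1, zero_mul]
    rw [e6, add_zero] at e1
    have e7 : h * (a 0 x0 * lapJ d u 0 x0) ≤ 0 := mul_nonpos_of_nonneg_of_nonpos hh e5
    linarith only [e1, e3, e7]
  · intro x0 hx0 _ h1 h2
    have e1 := he x0 hx0
    have e2 := h2 d hd
    have e3 := (abs_le.1 (hK x0 hx0)).1
    have e4 : lapJ d u 0 x0 = (1 - x0 ^ 2) * u 2 x0 - d * x0 * u 1 x0 := by
      unfold lapJ; simp
    have e5 : 0 ≤ a 0 x0 * lapJ d u 0 x0 := by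
      rw [e4]; exact mul_nonneg (hpos x0 hx0) e2
    have e6 : (1 - x0 ^ 2) * b 0 x0 * u 1 x0 = 0 := by
      rw [mul_right_comm, h1, zero_mul]
    rw [e6, add_zero] at e1
    have e7 : 0 ≤ h * (a 0 x0 * lapJ d u 0 x0) := mul_nonneg hh e5
    linarith only [e1, e3, e7]

/-- The elliptic equation with drift. -/
theorem ell_drift {d K : ℝ} (hd : 0 ≤ d) (hK : 1 ≤ K) : ∃ h0 > 0, ∀ a b g : ℕ → ℝ → ℝ,
    Jet a → Jet b → Jet g →
    (∀ x ∈ II, K⁻¹ ≤ a 0 x ∧ a 0 x ≤ K ∧ |a 1 x| ≤ K ∧ |b 0 x| ≤ K ∧ |b 1 x| ≤ K) →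
    ∀ h, 0 ≤ h → h ≤ h0 → ∃ u, Jet u ∧ ∀ x ∈ II,
      u 0 x - h * (a 0 x * lapJ d u 0 x + (1 - x ^ 2) * b 0 x * u 1 x) = g 0 x := by
  set C : ℝ := K * ((K ^ 2 + K ^ 4) / 2 + K ^ 4 / 4 + d * K ^ 2 / 2) + K ^ 3 / 2 with hC
  have hC0 : 0 ≤ C := by positivity
  refine ⟨1 / (2 * (C + 1)), by positivity, ?_⟩
  intro a b g ha hb hg hab h hh hh0
  have hapos : ∀ x ∈ II, 0 < a 0 x := fun x hx =>
    lt_of_lt_of_le (by positivity) (hab x hx).1
  -- q = - b / (2a)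
  obtain ⟨q, hq, hq0⟩ := exists_jet_of_contDiffOn (f := fun x => -(b 0 x) / (2 * a 0 x))
    (hb.contDiffOn.neg.div (contDiffOn_const.mul ha.contDiffOn)
      (fun x hx => by have := hapos x hx; positivity))
  have hq1 : ∀ x ∈ II, q 1 x = -(b 1 x) / (2 * a 0 x) + b 0 x * a 1 x / (2 * a 0 x ^ 2) := by
    intro x hx
    have hax := hapos x hx
    have h1 : HasDerivWithinAt (fun x => -(b 0 x) / (2 * a 0 x)) (q 1 x) II x :=
      (hq 0 x hx).congr (fun y hy => (hq0 y hy).symm) (hq0 x hx).symm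
    have h2 := ((hb 0 x hx).neg).div ((ha 0 x hx).const_mul 2) (by positivity)
    have h3 := (uniqueDiffOn_II x hx).eq_deriv _ h1 h2
    rw [h3, Pi.neg_apply]
    field_simp
    ring
  -- sigma = exp (prim q)
  obtain ⟨sg, hsg, hsg0⟩ := exists_jet_of_contDiffOn (f := fun x => Real.exp (prim q 0 x))
    ((jet_prim hq).contDiffOn.exp)
  have hsgpos : ∀ x ∈ II, 0 < sg 0 x := fun x hx => by rw [hsg0 x hx]; exact Real.exp_pos _
  have hsg1 : ∀ x ∈ II, sg 1 x = sg 0 x * q 0 x := by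
    intro x hx
    have h1 : HasDerivWithinAt (fun x => Real.exp (prim q 0 x)) (sg 1 x) II x :=
      (hsg 0 x hx).congr (fun y hy => (hsg0 y hy).symm) (hsg0 x hx).symm
    have h2 := ((jet_prim hq) 0 x hx).exp
    have h3 := (uniqueDiffOn_II x hx).eq_deriv _ h1 h2
    rw [h3, hsg0 x hx]
    rfl
  have hsg2 : ∀ x ∈ II, sg 2 x = sg 0 x * (q 1 x + q 0 x ^ 2) := by
    intro x hx
    have h1 : HasDerivWithinAt (fun x => sg 0 x * q 0 x) (sg 2 x) II x :=
      (hsg 1 x hx).congr (fun y hy => (hsg1 y hy).symm) (hsg1 x hx).symm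
    have h2 := (hsg 0 x hx).mul (hq 0 x hx)
    have h3 := (uniqueDiffOn_II x hx).eq_deriv _ h1 h2
    rw [h3, hsg1 x hx]
    ring
  -- kappa
  set ka : ℝ → ℝ := fun x => a 0 x * ((1 - x ^ 2) * (q 1 x + q 0 x ^ 2) - d * x * q 0 x)
    + (1 - x ^ 2) * b 0 x * q 0 x with hka
  have hq1s : ContDiffOn ℝ ∞ (q 1) II := (hq.shift 1).contDiffOn
  have hkas : ContDiffOn ℝ ∞ ka II := by
    have hx1 : ContDiffOn ℝ ∞ (fun x : ℝ => x) II := contDiffOn_id
    exact (ha.contDiffOn.mul (((contDiffOn_const.sub (hx1.pow 2)).mul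
      (hq1s.add (hq.contDiffOn.pow 2))).sub ((contDiffOn_const.mul hx1).mul hq.contDiffOn))).add
      (((contDiffOn_const.sub (hx1.pow 2)).mul hb.contDiffOn).mul hq.contDiffOn)
  have hkab : ∀ x ∈ II, |ka x| ≤ C := by
    intro x hx
    obtain ⟨c1, c2, c3, c4, c5⟩ := hab x hx
    have hax := hapos x hx
    have hKp : 0 < K := by linarith only [hK]
    have hinv : (a 0 x)⁻¹ ≤ K := by
      rw [inv_le_comm₀ hax hKp]; exact c1
    have hinv0 : 0 < (a 0 x)⁻¹ := inv_pos.2 hax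
    have hx2 : |1 - x ^ 2| ≤ 1 := by
      rw [abs_le]
      constructor <;> nlinarith only [hx, hx.1, hx.2, sq_nonneg x]
    have hxa : |x| ≤ 1 := abs_le.2 ⟨hx.1, hx.2⟩
    have hqb : |q 0 x| ≤ K ^ 2 / 2 := by
      rw [hq0 x hx, show -(b 0 x) / (2 * a 0 x) = -(b 0 x) * (a 0 x)⁻¹ / 2 by field_simp,
        abs_div, abs_mul, abs_neg, abs_of_pos hinv0, abs_two]
      have := mul_le_mul c4 hinv hinv0.le hKp.le
      nlinarith only [this]
    have hq1b : |q 1 x| ≤ (K ^ 2 + K ^ 4) / 2 := by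
      rw [hq1 x hx]
      have t1 : |-(b 1 x) / (2 * a 0 x)| ≤ K ^ 2 / 2 := by
        rw [show -(b 1 x) / (2 * a 0 x) = -(b 1 x) * (a 0 x)⁻¹ / 2 by field_simp,
          abs_div, abs_mul, abs_neg, abs_of_pos hinv0, abs_two]
        have := mul_le_mul c5 hinv hinv0.le hKp.le
        nlinarith only [this]
      have t2 : |b 0 x * a 1 x / (2 * a 0 x ^ 2)| ≤ K ^ 4 / 2 := by
        rw [show b 0 x * a 1 x / (2 * a 0 x ^ 2) = (b 0 x * a 1 x) * ((a 0 x)⁻¹ * (a 0 x)⁻¹) / 2 by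
          field_simp, abs_div, abs_mul, abs_mul, abs_mul, abs_of_pos hinv0, abs_two]
        have s1 := mul_le_mul c4 c3 (abs_nonneg _) hKp.le
        have s2 := mul_le_mul hinv hinv hinv0.le hKp.le
        have s3 := mul_le_mul s1 s2 (by positivity) (by positivity)
        nlinarith only [s3]
      refine (abs_add_le _ _).trans ?_
      linarith only [t1, t2]
    have hqq : |q 0 x ^ 2| ≤ K ^ 4 / 4 := by
      rw [abs_pow]
      have := mul_le_mul hqb hqb (abs_nonneg _) (by positivity)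
      nlinarith only [this]
    have s1 : |(1 - x ^ 2) * (q 1 x + q 0 x ^ 2)| ≤ (K ^ 2 + K ^ 4) / 2 + K ^ 4 / 4 := by
      rw [abs_mul]
      have t := (abs_add_le (q 1 x) (q 0 x ^ 2)).trans (add_le_add hq1b hqq)
      have := mul_le_mul hx2 t (abs_nonneg _) zero_le_one
      linarith only [this]
    have s2 : |d * x * q 0 x| ≤ d * K ^ 2 / 2 := by
      rw [abs_mul, abs_mul, abs_of_nonneg hd]
      have t := mul_le_mul hxa hqb (abs_nonneg _) zero_le_one
      have := mul_le_mul_of_nonneg_left t hd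
      nlinarith only [this]
    have s3 : |(1 - x ^ 2) * b 0 x * q 0 x| ≤ K ^ 3 / 2 := by
      rw [abs_mul, abs_mul]
      have t1 := mul_le_mul hx2 c4 (abs_nonneg _) zero_le_one
      have t2 := mul_le_mul t1 hqb (abs_nonneg _) (by positivity)
      nlinarith only [t2]
    have s4 : |(1 - x ^ 2) * (q 1 x + q 0 x ^ 2) - d * x * q 0 x|
        ≤ (K ^ 2 + K ^ 4) / 2 + K ^ 4 / 4 + d * K ^ 2 / 2 :=
      (abs_sub _ _).trans (add_le_add s1 s2)
    refine (abs_add_le _ _).trans (add_le_add ?_ s3)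
    rw [abs_mul, abs_of_pos hax]
    exact mul_le_mul c2 s4 (abs_nonneg _) hKp.le
  have hfac : ∀ x ∈ II, 1 / 2 ≤ 1 - h * ka x := by
    intro x hx
    have e1 : h * ka x ≤ h * C := mul_le_mul_of_nonneg_left ((le_abs_self _).trans (hkab x hx)) hh
    have e2 : h * C ≤ 1 / (2 * (C + 1)) * C := mul_le_mul_of_nonneg_right hh0 hC0
    have e3 : 1 / (2 * (C + 1)) * C ≤ 1 / 2 := by
      rw [div_mul_eq_mul_div, one_mul, div_le_iff₀ (by positivity)]
      linarith only []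
    linarith only [e1, e2, e3]
  have hfacs : ContDiffOn ℝ ∞ (fun x => 1 - h * ka x) II :=
    contDiffOn_const.sub (contDiffOn_const.mul hkas)
  obtain ⟨A, hA, hA0⟩ := exists_jet_of_contDiffOn (f := fun x => a 0 x / (1 - h * ka x))
    (ha.contDiffOn.div hfacs (fun x hx => by have := hfac x hx; linarith only [this]))
  obtain ⟨G, hG, hG0⟩ := exists_jet_of_contDiffOn
    (f := fun x => g 0 x / (sg 0 x * (1 - h * ka x)))
    (hg.contDiffOn.div (hsg.contDiffOn.mul hfacs) (fun x hx => by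
      have h1 := hfac x hx
      have h2 := hsgpos x hx
      have : 0 < sg 0 x * (1 - h * ka x) := mul_pos h2 (by linarith only [h1])
      exact this.ne'))
  obtain ⟨Y, hY, hYe⟩ := ell (h := h) hd hh hA (fun x hx => by
    rw [hA0 x hx]
    exact div_pos (hapos x hx) (by have := hfac x hx; linarith only [this])) hG
  refine ⟨jmul sg Y, hsg.mul hY, fun x hx => ?_⟩
  have e0 := hYe x hx
  have hf := hfac x hx
  have hfpos : 0 < 1 - h * ka x := by linarith only [hf]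
  have hs := hsgpos x hx
  have hax := hapos x hx
  rw [hA0 x hx, hG0 x hx] at e0
  have m1 : jmul sg Y 1 x = sg 1 x * Y 0 x + sg 0 x * Y 1 x := by
    simp [jmul, Finset.sum_range_succ]; ring
  have m2 : jmul sg Y 2 x = sg 2 x * Y 0 x + 2 * (sg 1 x * Y 1 x) + sg 0 x * Y 2 x := by
    simp [jmul, Finset.sum_range_succ]; ring
  have l1 : lapJ d (jmul sg Y) 0 x
      = (1 - x ^ 2) * jmul sg Y 2 x - d * x * jmul sg Y 1 x := by
    unfold lapJ; simp
  have l2 : lapJ d Y 0 x = (1 - x ^ 2) * Y 2 x - d * x * Y 1 x := by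
    unfold lapJ; simp
  rw [l1, m1, m2, jmul_zero, hsg1 x hx, hsg2 x hx]
  rw [l2] at e0
  have e1 : (Y 0 x - h * (a 0 x / (1 - h * ka x)) * ((1 - x ^ 2) * Y 2 x - d * x * Y 1 x))
      * (sg 0 x * (1 - h * ka x)) = g 0 x := by
    rw [e0]
    field_simp
  have e2 : (Y 0 x - h * (a 0 x / (1 - h * ka x)) * ((1 - x ^ 2) * Y 2 x - d * x * Y 1 x))
      * (sg 0 x * (1 - h * ka x)) = sg 0 x * ((1 - h * ka x) * Y 0 x
        - h * a 0 x * ((1 - x ^ 2) * Y 2 x - d * x * Y 1 x)) := by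
    field_simp
  rw [e2] at e1
  have hqr : 2 * a 0 x * q 0 x + b 0 x = 0 := by
    rw [hq0 x hx]; field_simp; ring
  rw [← e1]
  simp only [hka]
  have : b 0 x = -(2 * a 0 x * q 0 x) := by linarith only [hqr]
  rw [this]
  ring

/-! ### Evenness -/

/-- Reflection of a jet. -/
def refl (u : ℕ → ℝ → ℝ) (j : ℕ) (x : ℝ) : ℝ := (-1) ^ j * u j (-x)

theorem neg_mem_II {x : ℝ} (hx : x ∈ II) : -x ∈ II := ⟨by linarith only [hx, hx.2], by linarith only [hx, hx.1]⟩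

theorem Jet.refl {u : ℕ → ℝ → ℝ} (hu : Jet u) : Jet (refl u) := by
  intro j x hx
  have h1 := hu j (-x) (neg_mem_II hx)
  have h2 : HasDerivWithinAt (fun y : ℝ => -y) (-1) II x := (hasDerivWithinAt_id _ _).neg
  have h3 : HasDerivWithinAt (fun y => u j (-y)) (u (j + 1) (-x) * (-1)) II x :=
    HasDerivWithinAt.comp (h := fun y : ℝ => -y) x h1 h2 (fun y hy => neg_mem_II hy)
  have h4 := h3.const_mul ((-1) ^ j)
  unfold L.refl
  refine h4.congr_deriv ?_
  rw [pow_succ]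
  ring

theorem drift_unique {d h : ℝ} (hd : 0 ≤ d) (hh : 0 ≤ h) {a b u v g : ℕ → ℝ → ℝ}
    (hpos : ∀ x ∈ II, 0 ≤ a 0 x) (hu : Jet u) (hv : Jet v)
    (he : ∀ x ∈ II, u 0 x - h * (a 0 x * lapJ d u 0 x + (1 - x ^ 2) * b 0 x * u 1 x) = g 0 x)
    (he' : ∀ x ∈ II, v 0 x - h * (a 0 x * lapJ d v 0 x + (1 - x ^ 2) * b 0 x * v 1 x) = g 0 x) :
    ∀ x ∈ II, u 0 x = v 0 x := by
  intro x hx
  have := drift_bound (u := fun j x => u j x - v j x) (g := cst 0) (K := 0) (b := b) hd hh hpos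
    (hu.sub hv) (fun y hy => by
      have e1 := he y hy
      have e2 := he' y hy
      rw [lapJ_sub]
      show u 0 y - v 0 y - h * (a 0 y * (lapJ d u 0 y - lapJ d v 0 y)
        + (1 - y ^ 2) * b 0 y * (u 1 y - v 1 y)) = 0
      linarith only [e1, e2]) (fun y _ => by simp [cst]) x hx
  have h2 := abs_nonpos_iff.1 this
  linarith only [h2]

theorem drift_even {d h : ℝ} (hd : 0 ≤ d) (hh : 0 ≤ h) {a b u g : ℕ → ℝ → ℝ}
    (hpos : ∀ x ∈ II, 0 ≤ a 0 x) (hu : Jet u)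
    (he : ∀ x ∈ II, u 0 x - h * (a 0 x * lapJ d u 0 x + (1 - x ^ 2) * b 0 x * u 1 x) = g 0 x)
    (ha : ∀ x ∈ II, a 0 (-x) = a 0 x) (hb : ∀ x ∈ II, b 0 (-x) = - b 0 x)
    (hg : ∀ x ∈ II, g 0 (-x) = g 0 x) : ∀ x ∈ II, u 0 (-x) = u 0 x := by
  have h1 := drift_unique (u := refl u) (v := u) (b := b) hd hh hpos hu.refl hu (g := g) (fun x hx => by
    have e := he (-x) (neg_mem_II hx)
    rw [ha x hx, hb x hx, hg x hx] at e
    rw [← e]
    unfold lapJ L.refl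
    simp only [Nat.cast_zero, pow_zero, pow_one, zero_add]
    ring) he
  intro x hx
  have := h1 x hx
  simpa [L.refl] using this

end Vale.Agent.P244.ST.L
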