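import Vale.Agent.P244.ST.L.Disc2

/-!
# P244-ST block L-C : the implicit step, its existence and its estimates
-/

open Set Filter Topology
open scoped ContDiff

namespace Vale.Agent.P244.ST.L

/-- One step of the implicit scheme (time step `h`) from `(w,f)` to `(W,F)`. -/
structure Step (p : ℕ) (h : ℝ) (w f W F : ℕ → ℝ → ℝ) : Prop where
  jetW : Jet W
  jetF : Jet F
  eqW : ∀ x ∈ II, W 0 x - h * (Real.exp (-2 * w 0 x) * lapJ ((p : ℝ) + 1) W 0 x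
      + (1 - x ^ 2) * (-Jint p w f x) * W 1 x)
    = w 0 x + h * (-(p : ℝ) * Real.exp (-2 * w 0 x) + x * Jint p w f x)
  eqF : ∀ x ∈ II, F 0 x - h * (Real.exp (-2 * w 0 x) * lapJ ((p : ℝ) + 1) F 0 x
      + (1 - x ^ 2) * (-Jint p w f x) * F 1 x)
    = f 0 x + h * (-((p : ℝ) - 1) * Real.exp (-2 * f 0 x))

theorem exists_exp_jet {w : ℕ → ℝ → ℝ} (hw : Jet w) (c : ℝ) :
    ∃ E, Jet E ∧ ∀ x ∈ II, E 0 x = Real.exp (c * w 0 x) :=
  exists_jet_of_contDiffOn (f := fun x => Real.exp (c * w 0 x))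
    ((contDiffOn_const.mul hw.contDiffOn).exp)

theorem idj_le (k : ℕ) {x : ℝ} (hx : x ∈ II) : |idj k x| ≤ 1 := by
  match k with
  | 0 => exact abs_le.2 hx
  | 1 => simp [idj]
  | k + 2 => simp [idj]

/-- Existence of the step. -/
theorem exists_step (p : ℕ) {A : ℝ} (hA : 1 ≤ A) : ∃ h0 > 0, ∀ w f : ℕ → ℝ → ℝ, Jet w → Jet f →
    Ub 2 A w → Ub 2 A f → ∀ h, 0 ≤ h → h ≤ h0 → ∃ W F, Step p h w f W F := by
  obtain ⟨B, hB1, hB⟩ := coef_lev p (le_refl 2) hA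
  obtain ⟨h0, hh0, H⟩ := ell_drift (d := (p : ℝ) + 1) (K := B) (by positivity) hB1
  refine ⟨h0, hh0, fun w f hw hf hubw hubf h hh hhh => ?_⟩
  obtain ⟨a, ha, ha0⟩ := exists_exp_jet hw (-2)
  obtain ⟨e, he, he0⟩ := exists_exp_jet hf (-2)
  obtain ⟨c1, c2, c3, c4⟩ := hB w f a e hw hf ha he ha0 he0 0 le_rfl
    (lev_zero_iff.2 hubw) (lev_zero_iff.2 hubf)
  rw [lev_zero_iff] at c1 c2 c3
  have hJ := jet_prim (jet_Jdj (p := p) ha hw hf)
  have hJ0 : ∀ x ∈ II, prim (Jdj p a w f) 0 x = Jint p w f x := fun x hx => prim_Jdj_zero ha0 hx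
  have hcond : ∀ x ∈ II, B⁻¹ ≤ a 0 x ∧ a 0 x ≤ B ∧ |a 1 x| ≤ B ∧
      |(fun i x => - prim (Jdj p a w f) i x) 0 x| ≤ B ∧
      |(fun i x => - prim (Jdj p a w f) i x) 1 x| ≤ B := by
    intro x hx
    refine ⟨c4 x hx, (abs_le.1 (c1 0 (by norm_num) x hx)).2, c1 1 (by norm_num) x hx, ?_, ?_⟩
    · simp only [abs_neg]; exact c3 0 (by norm_num) x hx
    · simp only [abs_neg]; exact c3 1 (by norm_num) x hx
  obtain ⟨W, hW, hWe⟩ := H a (fun i x => - prim (Jdj p a w f) i x)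
    (fun i x => w i x + h * (-(p : ℝ) * a i x + jmul idj (prim (Jdj p a w f)) i x)) ha hJ.neg
    (hw.add (((ha.smul _).add (jet_idj.mul hJ)).smul h)) hcond h hh hhh
  obtain ⟨F, hF, hFe⟩ := H a (fun i x => - prim (Jdj p a w f) i x)
    (fun i x => f i x + h * (-((p : ℝ) - 1) * e i x)) ha hJ.neg
    (hf.add ((he.smul _).smul h)) hcond h hh hhh
  refine ⟨W, F, hW, hF, fun x hx => ?_, fun x hx => ?_⟩
  · have := hWe x hx
    simp only [jmul_zero] at this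
    rw [hJ0 x hx, ha0 x hx] at this
    exact this
  · have := hFe x hx
    rw [hJ0 x hx, ha0 x hx, he0 x hx] at this
    exact this

theorem step_lin {p : ℕ} {h B M P : ℝ} (hh : 0 ≤ h) (i : ℕ) {w f W F a e : ℕ → ℝ → ℝ}
    (hw : Jet w) (hf : Jet f) (ha : Jet a) (he : Jet e)
    (ha0 : ∀ x ∈ II, a 0 x = Real.exp (-2 * w 0 x))
    (he0 : ∀ x ∈ II, e 0 x = Real.exp (-2 * f 0 x)) (S : Step p h w f W F)
    (hB : ∀ k ≤ i, ∀ x ∈ II, |a k x| ≤ B ∧ |e k x| ≤ B ∧ |prim (Jdj p a w f) k x| ≤ B)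
    (hM0 : 0 ≤ M)
    (hA : ∀ k, 1 ≤ k → k ≤ i → ∀ l ≤ i, l + k ≤ i + 2 → ∀ x ∈ II,
      |a k x| * |W l x| ≤ M ∧ |a k x| * |F l x| ≤ M)
    (hJ : ∀ k ≤ i, ∀ l ≤ i, l + k ≤ i + 1 → ∀ x ∈ II,
      |prim (Jdj p a w f) k x| * |W l x| ≤ M ∧ |prim (Jdj p a w f) k x| * |F l x| ≤ M)
    (hP : ∀ x ∈ II, |w i x| ≤ P ∧ |f i x| ≤ P) :
    ∀ x ∈ II, |W i x| ≤ P + h * (((p : ℝ) + 1 + 2 ^ i) * B + cL ((p : ℝ) + 1) i * M) ∧
      |F i x| ≤ P + h * (((p : ℝ) + 1 + 2 ^ i) * B + cL ((p : ℝ) + 1) i * M) := by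
  have hJt := jet_prim (jet_Jdj (p := p) ha hw hf)
  have hJ0 : ∀ x ∈ II, prim (Jdj p a w f) 0 x = Jint p w f x := fun x hx => prim_Jdj_zero ha0 hx
  have hB0 : 0 ≤ B := (abs_nonneg _).trans (hB i le_rfl 0 zero_mem_II).1
  have hpos : ∀ x ∈ II, 0 ≤ a 0 x := fun x hx => by rw [ha0 x hx]; exact (Real.exp_pos _).le
  have hp0 : (0 : ℝ) ≤ p := Nat.cast_nonneg _
  have h2i : (0 : ℝ) ≤ 2 ^ i := by positivity
  have g1 := lin_bound (d := (p : ℝ) + 1) (h := h) (M := M)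
    (G := P + h * (((p : ℝ) + 1 + 2 ^ i) * B)) (by positivity) hh i
    (a := a) (b := fun i x => - prim (Jdj p a w f) i x)
    (g := fun i x => w i x + h * (-(p : ℝ) * a i x + jmul idj (prim (Jdj p a w f)) i x))
    (W := W) ha hJt.neg (hw.add (((ha.smul _).add (jet_idj.mul hJt)).smul h)) S.jetW hpos
    (by
      intro x hx
      simp only [jmul_zero]
      rw [hJ0 x hx, ha0 x hx]
      exact S.eqW x hx)
    (by
      intro x hx
      have h1 : |jmul idj (prim (Jdj p a w f)) i x| ≤ 2 ^ i * (1 * B) :=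
        abs_jmul_le i zero_le_one (fun k _ => idj_le k hx) (fun k hk => (hB k hk x hx).2.2)
      have h2 : |(-(p : ℝ) * a i x)| ≤ p * B := by
        rw [abs_mul, abs_neg, abs_of_nonneg hp0]
        exact mul_le_mul_of_nonneg_left (hB i le_rfl x hx).1 hp0
      refine (abs_add_le _ _).trans (add_le_add (hP x hx).1 ?_)
      rw [abs_mul, abs_of_nonneg hh]
      refine mul_le_mul_of_nonneg_left ((abs_add_le _ _).trans ?_) hh
      nlinarith only [hB0, h1, h2])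
    hM0 (fun k k1 k2 l l1 l2 x hx => (hA k k1 k2 l l1 l2 x hx).1)
    (fun k k2 l l1 l2 x hx => by rw [abs_neg]; exact (hJ k k2 l l1 l2 x hx).1)
  have g2 := lin_bound (d := (p : ℝ) + 1) (h := h) (M := M)
    (G := P + h * (((p : ℝ) + 1 + 2 ^ i) * B)) (by positivity) hh i
    (a := a) (b := fun i x => - prim (Jdj p a w f) i x)
    (g := fun i x => f i x + h * (-((p : ℝ) - 1) * e i x))
    (W := F) ha hJt.neg (hf.add ((he.smul _).smul h)) S.jetF hpos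
    (by
      intro x hx
      rw [hJ0 x hx, ha0 x hx, he0 x hx]
      exact S.eqF x hx)
    (by
      intro x hx
      have h2 : |(-((p : ℝ) - 1) * e i x)| ≤ (p + 1) * B := by
        rw [abs_mul, abs_neg]
        refine mul_le_mul ?_ (hB i le_rfl x hx).2.1 (abs_nonneg _) (by positivity)
        rw [abs_le]; constructor <;> linarith only []
      refine (abs_add_le _ _).trans (add_le_add (hP x hx).2 ?_)
      rw [abs_mul, abs_of_nonneg hh]
      refine mul_le_mul_of_nonneg_left ?_ hh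
      nlinarith only [hB0, h2i, h2])
    hM0 (fun k k1 k2 l l1 l2 x hx => (hA k k1 k2 l l1 l2 x hx).2)
    (fun k k2 l l1 l2 x hx => by rw [abs_neg]; exact (hJ k k2 l l1 l2 x hx).2)
  intro x hx
  refine ⟨(g1 x hx).trans (le_of_eq ?_), (g2 x hx).trans (le_of_eq ?_)⟩ <;> ring

/-- Crude estimate at all orders `i ≤ m`. -/
theorem step_crude (p : ℕ) {m : ℕ} (hm : 2 ≤ m) {A : ℝ} (hA : 1 ≤ A) : ∃ C : ℝ, 0 ≤ C ∧
    ∀ w f W F : ℕ → ℝ → ℝ, Jet w → Jet f → ∀ h, 0 ≤ h → Step p h w f W F →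
    Ub m A w → Ub m A f → ∀ K, 0 ≤ K → Ub m K W → Ub m K F →
    ∀ i ≤ m, ∀ P, (∀ x ∈ II, |w i x| ≤ P ∧ |f i x| ≤ P) →
    ∀ x ∈ II, |W i x| ≤ P + h * (C * (1 + K)) ∧ |F i x| ≤ P + h * (C * (1 + K)) := by
  obtain ⟨B, hB1, hB⟩ := coef_lev p hm hA
  have hB0 : 0 ≤ B := by linarith only [hB1]
  refine ⟨∑ i ∈ Finset.range (m + 1), (((p : ℝ) + 1 + 2 ^ i) * B + cL ((p : ℝ) + 1) i * B), ?_, ?_⟩
  · exact Finset.sum_nonneg fun i _ => by
      have := cL_nonneg (d := (p : ℝ) + 1) (by positivity) i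
      positivity
  intro w f W F hw hf h hh S hubw hubf K hK hubW hubF i hi P hP
  obtain ⟨a, ha, ha0⟩ := exists_exp_jet hw (-2)
  obtain ⟨e, he, he0⟩ := exists_exp_jet hf (-2)
  obtain ⟨c1, c2, c3, c4⟩ := hB w f a e hw hf ha he ha0 he0 0 le_rfl
    (lev_zero_iff.2 hubw) (lev_zero_iff.2 hubf)
  rw [lev_zero_iff] at c1 c2 c3
  have hs := step_lin (p := p) (B := B) (M := B * K) hh i hw hf ha he ha0 he0 S
    (fun k hk x hx => ⟨c1 k (hk.trans hi) x hx, c2 k (hk.trans hi) x hx, c3 k (hk.trans hi) x hx⟩)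
    (by positivity)
    (fun k k1 k2 l l1 l2 x hx =>
      ⟨mul_le_mul (c1 k (k2.trans hi) x hx) (hubW l (l1.trans hi) x hx) (abs_nonneg _) hB0,
       mul_le_mul (c1 k (k2.trans hi) x hx) (hubF l (l1.trans hi) x hx) (abs_nonneg _) hB0⟩)
    (fun k k2 l l1 l2 x hx =>
      ⟨mul_le_mul (c3 k (k2.trans hi) x hx) (hubW l (l1.trans hi) x hx) (abs_nonneg _) hB0,
       mul_le_mul (c3 k (k2.trans hi) x hx) (hubF l (l1.trans hi) x hx) (abs_nonneg _) hB0⟩) hP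
  have hcl := cL_nonneg (d := (p : ℝ) + 1) (by positivity) i
  have hle : ((p : ℝ) + 1 + 2 ^ i) * B + cL ((p : ℝ) + 1) i * (B * K)
      ≤ (∑ i ∈ Finset.range (m + 1), (((p : ℝ) + 1 + 2 ^ i) * B + cL ((p : ℝ) + 1) i * B))
        * (1 + K) := by
    have h1 : ((p : ℝ) + 1 + 2 ^ i) * B + cL ((p : ℝ) + 1) i * B ≤
        ∑ i ∈ Finset.range (m + 1), (((p : ℝ) + 1 + 2 ^ i) * B + cL ((p : ℝ) + 1) i * B) :=
      Finset.single_le_sum (f := fun i => ((p : ℝ) + 1 + 2 ^ i) * B + cL ((p : ℝ) + 1) i * B)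
        (fun i _ => by
          have := cL_nonneg (d := (p : ℝ) + 1) (by positivity) i
          positivity) (Finset.mem_range.2 (by omega))
    refine le_trans ?_ (mul_le_mul_of_nonneg_right h1 (by linarith only [hK]))
    have h2 : 0 ≤ ((p : ℝ) + 1 + 2 ^ i) * B := by positivity
    have h3 : 0 ≤ cL ((p : ℝ) + 1) i * B := by positivity
    nlinarith only [hK, h2, h3]
  intro x hx
  obtain ⟨s1, s2⟩ := hs x hx
  have h5 := mul_le_mul_of_nonneg_left hle hh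
  exact ⟨s1.trans (by linarith only [h5]), s2.trans (by linarith only [h5])⟩

/-- Refined estimate, linear in the top order, for `j ≥ 3`. -/
theorem step_refined (p : ℕ) {j : ℕ} (hj : 3 ≤ j) {A : ℝ} (hA : 1 ≤ A) : ∃ C : ℝ, 0 ≤ C ∧
    ∀ w f W F : ℕ → ℝ → ℝ, Jet w → Jet f → ∀ h, 0 ≤ h → Step p h w f W F →
    ∀ th, 0 ≤ th → Lev j th A w → Lev j th A f → Lev j th A W → Lev j th A F →
    ∀ P, (∀ x ∈ II, |w j x| ≤ P ∧ |f j x| ≤ P) →
    ∀ x ∈ II, |W j x| ≤ P + h * (C * (1 + th)) ∧ |F j x| ≤ P + h * (C * (1 + th)) := by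
  obtain ⟨B, hB1, hB⟩ := coef_lev p (show 2 ≤ j by omega) hA
  have hB0 : 0 ≤ B := by linarith only [hB1]
  have hA0 : 0 ≤ A := by linarith only [hA]
  have hcl := cL_nonneg (d := (p : ℝ) + 1) (by positivity) j
  refine ⟨((p : ℝ) + 1 + 2 ^ j) * B + cL ((p : ℝ) + 1) j * (B * A), by positivity, ?_⟩
  intro w f W F hw hf h hh S th hth lw lf lW lF P hP
  obtain ⟨a, ha, ha0⟩ := exists_exp_jet hw (-2)
  obtain ⟨e, he, he0⟩ := exists_exp_jet hf (-2)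
  obtain ⟨c1, c2, c3, c4⟩ := hB w f a e hw hf ha he ha0 he0 th hth lw lf
  have key : ∀ {u U : ℕ → ℝ → ℝ}, Lev j th B u → Lev j th A U → ∀ k ≤ j, ∀ l ≤ j, l + k ≤ j + 2 →
      ∀ x ∈ II, |u k x| * |U l x| ≤ B * A * (1 + th) := by
    intro u U hu hU k hk l hl hlk x hx
    rcases Nat.lt_or_ge k j with h1 | h1
    · calc |u k x| * |U l x| ≤ B * (A * (1 + th)) :=
            mul_le_mul (hu.1 k h1 x hx) (hU.le hA0 hth hl hx) (abs_nonneg _) hB0
        _ = B * A * (1 + th) := by ring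
    · obtain rfl : k = j := le_antisymm hk h1
      calc |u k x| * |U l x| ≤ (B * (1 + th)) * A :=
            mul_le_mul (hu.2 x hx) (hU.1 l (by omega) x hx) (abs_nonneg _) (by positivity)
        _ = B * A * (1 + th) := by ring
  have hs := step_lin (p := p) (B := B * (1 + th)) (M := B * A * (1 + th)) hh j hw hf ha he ha0 he0 S
    (fun k hk x hx => ⟨c1.le hB0 hth hk hx, c2.le hB0 hth hk hx, c3.le hB0 hth hk hx⟩)
    (by positivity)
    (fun k k1 k2 l l1 l2 x hx => ⟨key c1 lW k k2 l l1 l2 x hx, key c1 lF k k2 l l1 l2 x hx⟩)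
    (fun k k2 l l1 l2 x hx => ⟨key c3 lW k k2 l l1 (by omega) x hx,
      key c3 lF k k2 l l1 (by omega) x hx⟩) hP
  intro x hx
  obtain ⟨s1, s2⟩ := hs x hx
  exact ⟨s1.trans (le_of_eq (by ring)), s2.trans (le_of_eq (by ring))⟩

end Vale.Agent.P244.ST.L
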