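import Vale.Agent.P244.ST.L.AprMax

/-!
# P244-ST block L, a priori estimates: the algebra of differential polynomials
-/

open Set Filter
open scoped ContDiff Topology

namespace Vale.Agent.P244.ST.Apr

noncomputable section

def gX : ℝ → ℝ → ℝ := fun _ x => x
def gA (w : ℝ → ℝ → ℝ) : ℝ → ℝ → ℝ := fun t x => Real.exp (-2 * w t x)
def gJ (p : ℕ) (w f : ℝ → ℝ → ℝ) : ℝ → ℝ → ℝ := fun t x => Jf p (w t) (f t) x
def U (h : ℝ → ℝ → ℝ) (j : ℕ) : ℝ → ℝ → ℝ := fun t x => Dn j (h t) x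
def cst (c : ℝ) : ℝ → ℝ → ℝ := fun _ _ => c

/-- generators -/
def gens (p : ℕ) (w f : ℝ → ℝ → ℝ) (j : ℕ) : Set (ℝ → ℝ → ℝ) :=
  {q | q = gX ∨ q = gA w ∨ q = gA f ∨ q = gJ p w f ∨ ∃ i, i ≤ j ∧ (q = U w i ∨ q = U f i)}

/-- differential polynomials of order at most `j`. -/
def PP (p : ℕ) (w f : ℝ → ℝ → ℝ) (j : ℕ) : Subalgebra ℝ (ℝ → ℝ → ℝ) :=
  Algebra.adjoin ℝ (gens p w f j)

section mem
variable {p : ℕ} {w f : ℝ → ℝ → ℝ} {j : ℕ}

lemma mX : gX ∈ PP p w f j := Algebra.subset_adjoin (Or.inl rfl)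
lemma mA : gA w ∈ PP p w f j := Algebra.subset_adjoin (Or.inr (Or.inl rfl))
lemma mE : gA f ∈ PP p w f j := Algebra.subset_adjoin (Or.inr (Or.inr (Or.inl rfl)))
lemma mJ : gJ p w f ∈ PP p w f j :=
  Algebra.subset_adjoin (Or.inr (Or.inr (Or.inr (Or.inl rfl))))
lemma mW {i : ℕ} (hi : i ≤ j) : U w i ∈ PP p w f j :=
  Algebra.subset_adjoin (Or.inr (Or.inr (Or.inr (Or.inr ⟨i, hi, Or.inl rfl⟩))))
lemma mF {i : ℕ} (hi : i ≤ j) : U f i ∈ PP p w f j :=
  Algebra.subset_adjoin (Or.inr (Or.inr (Or.inr (Or.inr ⟨i, hi, Or.inr rfl⟩))))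
lemma mc (c : ℝ) : cst c ∈ PP p w f j := (PP p w f j).algebraMap_mem c

lemma PP_mono {j k : ℕ} (h : j ≤ k) : PP p w f j ≤ PP p w f k := by
  apply Algebra.adjoin_mono
  rintro q (h1 | h1 | h1 | h1 | ⟨i, hi, h1⟩)
  · exact Or.inl h1
  · exact Or.inr (Or.inl h1)
  · exact Or.inr (Or.inr (Or.inl h1))
  · exact Or.inr (Or.inr (Or.inr (Or.inl h1)))
  · exact Or.inr (Or.inr (Or.inr (Or.inr ⟨i, hi.trans h, h1⟩)))

/-- the integrand of `J`. -/
def gJd (p : ℕ) (w f : ℝ → ℝ → ℝ) : ℝ → ℝ → ℝ :=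
  gA w * (cst ((p : ℝ) - 1) * (U w 1 * U w 1) + cst (p : ℝ) * (U f 1 * U f 1))

lemma gJd_eq (t x : ℝ) : gJd p w f t x = Jd p (w t) (f t) x := by
  simp only [gJd, Jd, gA, cst, U, Pi.mul_apply, Pi.add_apply, Dn_succ, Dn_zero]
  ring

lemma mJd (hj : 1 ≤ j) : gJd p w f ∈ PP p w f j :=
  mul_mem mA (add_mem (mul_mem (mc _) (mul_mem (mW hj) (mW hj)))
    (mul_mem (mc _) (mul_mem (mF hj) (mF hj))))

end mem

/-! ### derivatives of the generators at fixed time -/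

lemma hd_J {p : ℕ} {w f : ℝ → ℝ} (hw : Sx w) (hf : Sx f) {x : ℝ} (hx : x ∈ Icc (-1 : ℝ) 1) :
    HasDerivWithinAt (Jf p w f) (Jd p w f x) (Icc (-1) 1) x := by
  have hJ : ContinuousOn (Jd p w f) (Icc (-1) 1) := by
    have h1 : Sx (Jd p w f) := by
      have e1 : Sx (fun y => -2 * w y) := (Sx.const (-2)).mul hw
      exact e1.exp.mul (((Sx.const _).mul (ContDiffOn.pow hw.dx 2)).add
        ((Sx.const _).mul (ContDiffOn.pow hf.dx 2)))
    exact h1.cont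
  have hle : (-1 : ℝ) ≤ 1 := by norm_num
  set g : ℝ → ℝ := IccExtend hle ((Icc (-1 : ℝ) 1).domRestrict (Jd p w f)) with hg
  have hgc : Continuous g := (continuousOn_iff_continuous_domRestrict.1 hJ).Icc_extend'
  have hge : ∀ y ∈ Icc (-1 : ℝ) 1, g y = Jd p w f y := fun y hy => by
    rw [hg, IccExtend_of_mem hle _ hy]; rfl
  have h2 : ∀ y ∈ Icc (-1 : ℝ) 1, Jf p w f y = ∫ s in (0 : ℝ)..y, g s := by
    intro y hy
    unfold Jf
    apply intervalIntegral.integral_congr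
    intro s hs
    have : s ∈ Icc (-1 : ℝ) 1 := (uIcc_subset_Icc (by norm_num) hy) hs
    exact (hge s this).symm
  have h3 : HasDerivWithinAt (fun y => ∫ s in (0 : ℝ)..y, g s) (g x) (Icc (-1) 1) x :=
    (hgc.integral_hasStrictDerivAt 0 x).hasDerivAt.hasDerivWithinAt
  rw [hge x hx] at h3
  exact h3.congr h2 (h2 x hx)

lemma sx_Jd {p : ℕ} {w f : ℝ → ℝ} (hw : Sx w) (hf : Sx f) : Sx (Jd p w f) := by
  have e1 : Sx (fun y => -2 * w y) := (Sx.const (-2)).mul hw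
  exact e1.exp.mul (((Sx.const _).mul (ContDiffOn.pow hw.dx 2)).add
    ((Sx.const _).mul (ContDiffOn.pow hf.dx 2)))

lemma sx_J {p : ℕ} {w f : ℝ → ℝ} (hw : Sx w) (hf : Sx f) : Sx (Jf p w f) := by
  unfold Sx
  rw [contDiffOn_infty_iff_derivWithin uI]
  refine ⟨fun x hx => (hd_J hw hf hx).differentiableWithinAt, ?_⟩
  exact (sx_Jd hw hf).congr (fun x hx => (hd_J hw hf hx).derivWithin (uI x hx))

lemma hd_A {w : ℝ → ℝ} (hw : Sx w) {x : ℝ} (hx : x ∈ Icc (-1 : ℝ) 1) :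
    HasDerivWithinAt (fun y => Real.exp (-2 * w y)) (Real.exp (-2 * w x) * (-2 * dx w x))
      (Icc (-1) 1) x :=
  ((hw.hasDeriv hx).const_mul (-2)).exp

/-- everything about the `x`-derivative of a differential polynomial -/
def Good (p : ℕ) (w f : ℝ → ℝ → ℝ) (T : ℝ) (j : ℕ) (q : ℝ → ℝ → ℝ) : Prop :=
  (∀ t ∈ Ico 0 T, Sx (q t)) ∧ ∃ α ∈ PP p w f j, ∃ β ∈ PP p w f j, ∃ γ ∈ PP p w f j,
    ∀ t ∈ Ico 0 T, ∀ x ∈ Icc (-1 : ℝ) 1,
      dx (q t) x = α t x * U w (j + 1) t x + β t x * U f (j + 1) t x + γ t x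

theorem good {p : ℕ} {w f : ℝ → ℝ → ℝ} {T : ℝ} (hw : Sm T w) (hf : Sm T f) {j : ℕ} (hj : 1 ≤ j)
    {q : ℝ → ℝ → ℝ} (hq : q ∈ PP p w f j) : Good p w f T j q := by
  unfold PP at hq
  induction hq using Algebra.adjoin_induction with
  | mem q hq =>
    rcases hq with h1 | h1 | h1 | h1 | ⟨i, hi, h1⟩
    · subst h1
      refine ⟨fun t _ => Sx.id, 0, zero_mem _, 0, zero_mem _, 1, one_mem _, ?_⟩
      intro t _ x hx
      rw [show dx (gX t) x = 1 from dx_of hx (hasDerivWithinAt_id x _)]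
      simp
    · subst h1
      refine ⟨fun t ht => ((Sx.const (-2)).mul (slice hw ht)).exp, 0, zero_mem _, 0, zero_mem _,
        gA w * (cst (-2) * U w 1), mul_mem mA (mul_mem (mc _) (mW hj)), ?_⟩
      intro t ht x hx
      rw [show dx (gA w t) x = _ from dx_of hx (hd_A (slice hw ht) hx)]
      simp [gA, cst, U, Dn_succ]
    · subst h1
      refine ⟨fun t ht => ((Sx.const (-2)).mul (slice hf ht)).exp, 0, zero_mem _, 0, zero_mem _,
        gA f * (cst (-2) * U f 1), mul_mem mE (mul_mem (mc _) (mF hj)), ?_⟩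
      intro t ht x hx
      rw [show dx (gA f t) x = _ from dx_of hx (hd_A (slice hf ht) hx)]
      simp [gA, cst, U, Dn_succ]
    · subst h1
      refine ⟨fun t ht => sx_J (slice hw ht) (slice hf ht), 0, zero_mem _, 0, zero_mem _,
        gJd p w f, mJd hj, ?_⟩
      intro t ht x hx
      rw [show dx (gJ p w f t) x = _ from dx_of hx (hd_J (slice hw ht) (slice hf ht) hx)]
      simp [gJd_eq]
    · rcases eq_or_lt_of_le hi with hij | hij
      · subst hij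
        rcases h1 with h1 | h1
        · subst h1
          refine ⟨fun t ht => (slice hw ht).Dn i, 1, one_mem _, 0, zero_mem _, 0, zero_mem _, ?_⟩
          intro t ht x hx
          simp only [U, Dn_succ, Pi.one_apply, Pi.zero_apply, one_mul, zero_mul, add_zero]
          rfl
        · subst h1
          refine ⟨fun t ht => (slice hf ht).Dn i, 0, zero_mem _, 1, one_mem _, 0, zero_mem _, ?_⟩
          intro t ht x hx
          simp only [U, Dn_succ, Pi.one_apply, Pi.zero_apply, one_mul, zero_mul, add_zero,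
            zero_add]
          rfl
      · rcases h1 with h1 | h1
        · subst h1
          refine ⟨fun t ht => (slice hw ht).Dn i, 0, zero_mem _, 0, zero_mem _, U w (i + 1),
            mW hij, ?_⟩
          intro t ht x hx
          simp only [U, Dn_succ, Pi.zero_apply, zero_mul, zero_add]
          rfl
        · subst h1
          refine ⟨fun t ht => (slice hf ht).Dn i, 0, zero_mem _, 0, zero_mem _, U f (i + 1),
            mF hij, ?_⟩
          intro t ht x hx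
          simp only [U, Dn_succ, Pi.zero_apply, zero_mul, zero_add]
          rfl
  | algebraMap c =>
    refine ⟨fun t _ => Sx.const c, 0, zero_mem _, 0, zero_mem _, 0, zero_mem _, ?_⟩
    intro t _ x hx
    rw [show dx ((algebraMap ℝ (ℝ → ℝ → ℝ) c) t) x = 0 from
      dx_of hx (hasDerivWithinAt_const x _ c)]
    simp
  | add q₁ q₂ h₁ h₂ ih₁ ih₂ =>
    obtain ⟨s1, α₁, a1, β₁, b1, γ₁, c1, e1⟩ := ih₁
    obtain ⟨s2, α₂, a2, β₂, b2, γ₂, c2, e2⟩ := ih₂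
    refine ⟨fun t ht => (s1 t ht).add (s2 t ht), α₁ + α₂, add_mem a1 a2, β₁ + β₂, add_mem b1 b2,
      γ₁ + γ₂, add_mem c1 c2, ?_⟩
    intro t ht x hx
    rw [show dx ((q₁ + q₂) t) x = _ from
      dx_of hx (((s1 t ht).hasDeriv hx).add ((s2 t ht).hasDeriv hx)), e1 t ht x hx, e2 t ht x hx]
    simp only [Pi.add_apply]
    ring
  | mul q₁ q₂ h₁ h₂ ih₁ ih₂ =>
    obtain ⟨s1, α₁, a1, β₁, b1, γ₁, c1, e1⟩ := ih₁
    obtain ⟨s2, α₂, a2, β₂, b2, γ₂, c2, e2⟩ := ih₂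
    refine ⟨fun t ht => (s1 t ht).mul (s2 t ht), α₁ * q₂ + q₁ * α₂,
      add_mem (mul_mem a1 h₂) (mul_mem h₁ a2), β₁ * q₂ + q₁ * β₂,
      add_mem (mul_mem b1 h₂) (mul_mem h₁ b2), γ₁ * q₂ + q₁ * γ₂,
      add_mem (mul_mem c1 h₂) (mul_mem h₁ c2), ?_⟩
    intro t ht x hx
    rw [show dx ((q₁ * q₂) t) x = _ from
      dx_of hx (((s1 t ht).hasDeriv hx).mul ((s2 t ht).hasDeriv hx)), e1 t ht x hx, e2 t ht x hx]
    simp only [Pi.add_apply, Pi.mul_apply]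
    ring

/-- bounded on the strip -/
def Bd (T : ℝ) (q : ℝ → ℝ → ℝ) : Prop :=
  ∃ C : ℝ, 0 ≤ C ∧ ∀ t ∈ Ico 0 T, ∀ x ∈ Icc (-1 : ℝ) 1, |q t x| ≤ C

lemma Bd.add {T : ℝ} {q r : ℝ → ℝ → ℝ} (hq : Bd T q) (hr : Bd T r) : Bd T (q + r) := by
  obtain ⟨C, h0, h1⟩ := hq
  obtain ⟨D, k0, k1⟩ := hr
  exact ⟨C + D, by positivity, fun t ht x hx =>
    (abs_add_le _ _).trans (add_le_add (h1 t ht x hx) (k1 t ht x hx))⟩

lemma Bd.mul {T : ℝ} {q r : ℝ → ℝ → ℝ} (hq : Bd T q) (hr : Bd T r) : Bd T (q * r) := by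
  obtain ⟨C, h0, h1⟩ := hq
  obtain ⟨D, k0, k1⟩ := hr
  refine ⟨C * D, by positivity, fun t ht x hx => ?_⟩
  rw [Pi.mul_apply, Pi.mul_apply, abs_mul]
  exact mul_le_mul (h1 t ht x hx) (k1 t ht x hx) (abs_nonneg _) h0

theorem bounded {p : ℕ} {w f : ℝ → ℝ → ℝ} {T : ℝ} {j : ℕ} (hJ : Bd T (gJ p w f))
    (hW : ∀ i ≤ j, Bd T (U w i)) (hF : ∀ i ≤ j, Bd T (U f i))
    {q : ℝ → ℝ → ℝ} (hq : q ∈ PP p w f j) : Bd T q := by
  have key : ∀ g : ℝ → ℝ → ℝ, Bd T (U g 0) → Bd T (gA g) := by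
    rintro g ⟨C, h0, h1⟩
    refine ⟨Real.exp (2 * C), (Real.exp_pos _).le, fun t ht x hx => ?_⟩
    have h2 := h1 t ht x hx
    simp only [U, Dn_zero] at h2
    simp only [gA]
    rw [abs_of_pos (Real.exp_pos _)]
    apply Real.exp_le_exp.2
    linarith only [h2, (abs_le.1 h2).1]
  unfold PP at hq
  induction hq using Algebra.adjoin_induction with
  | mem q hq =>
    rcases hq with h1 | h1 | h1 | h1 | ⟨i, hi, h1⟩
    · subst h1
      exact ⟨1, zero_le_one, fun t _ x hx => abs_le.2 hx⟩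
    · subst h1; exact key w (hW 0 (Nat.zero_le _))
    · subst h1; exact key f (hF 0 (Nat.zero_le _))
    · subst h1; exact hJ
    · rcases h1 with h1 | h1
      · subst h1; exact hW i hi
      · subst h1; exact hF i hi
  | algebraMap c =>
    exact ⟨|c|, abs_nonneg _, fun t _ x _ => le_rfl⟩
  | add q₁ q₂ _ _ ih₁ ih₂ => exact ih₁.add ih₂
  | mul q₁ q₂ _ _ ih₁ ih₂ => exact ih₁.mul ih₂

end

end Vale.Agent.P244.ST.Apr
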