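import Vale.Agent.P244.ST.Conf

/-!
# P244-ST block L, a priori estimates: calculus on `[0,T) × [-1,1]`
-/

open Set
open scoped ContDiff Topology

namespace Vale.Agent.P244.ST.Apr

/-- Jointly smooth functions on `[0,T) × [-1,1]`. -/
def Sm (T : ℝ) (h : ℝ → ℝ → ℝ) : Prop :=
  ContDiffOn ℝ ∞ (fun z : ℝ × ℝ => h z.1 z.2) (Ico 0 T ×ˢ Icc (-1) 1)

/-- Smooth functions on `[-1,1]`. -/
def Sx (h : ℝ → ℝ) : Prop := ContDiffOn ℝ ∞ h (Icc (-1) 1)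

lemma uI : UniqueDiffOn ℝ (Icc (-1 : ℝ) 1) := uniqueDiffOn_Icc (by norm_num)

lemma uS (T : ℝ) : UniqueDiffOn ℝ (Ico 0 T ×ˢ Icc (-1 : ℝ) 1) :=
  (uniqueDiffOn_Ico 0 T).prod uI

lemma Sx.dx {h : ℝ → ℝ} (hh : Sx h) : Sx (dx h) :=
  hh.derivWithin uI (by norm_cast)

lemma Sx.cont {h : ℝ → ℝ} (hh : Sx h) : ContinuousOn h (Icc (-1) 1) := hh.continuousOn

lemma Sx.hasDeriv {h : ℝ → ℝ} (hh : Sx h) {x : ℝ} (hx : x ∈ Icc (-1 : ℝ) 1) :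
    HasDerivWithinAt h (ST.dx h x) (Icc (-1) 1) x :=
  ((hh.differentiableOn (by norm_cast)) x hx).hasDerivWithinAt

lemma Sx.add {f g : ℝ → ℝ} (hf : Sx f) (hg : Sx g) : Sx (fun x => f x + g x) :=
  ContDiffOn.add hf hg
lemma Sx.sub {f g : ℝ → ℝ} (hf : Sx f) (hg : Sx g) : Sx (fun x => f x - g x) :=
  ContDiffOn.sub hf hg
lemma Sx.mul {f g : ℝ → ℝ} (hf : Sx f) (hg : Sx g) : Sx (fun x => f x * g x) :=
  ContDiffOn.mul hf hg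
lemma Sx.const (c : ℝ) : Sx (fun _ => c) := contDiffOn_const
lemma Sx.id : Sx (fun x => x) := contDiffOn_id
lemma Sx.exp {f : ℝ → ℝ} (hf : Sx f) : Sx (fun x => Real.exp (f x)) :=
  ContDiffOn.exp hf
lemma Sx.congr {f g : ℝ → ℝ} (hf : Sx f) (h : ∀ x ∈ Icc (-1 : ℝ) 1, g x = f x) : Sx g :=
  ContDiffOn.congr hf h

lemma dx_of {h : ℝ → ℝ} {h' x : ℝ} (hx : x ∈ Icc (-1 : ℝ) 1)
    (H : HasDerivWithinAt h h' (Icc (-1) 1) x) : ST.dx h x = h' := H.derivWithin (uI x hx)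

lemma dx_congr {f g : ℝ → ℝ} (h : ∀ x ∈ Icc (-1 : ℝ) 1, f x = g x) {x : ℝ}
    (hx : x ∈ Icc (-1 : ℝ) 1) : ST.dx f x = ST.dx g x :=
  derivWithin_congr h (h x hx)

lemma slice {T : ℝ} {h : ℝ → ℝ → ℝ} (hh : Sm T h) {t : ℝ} (ht : t ∈ Ico 0 T) : Sx (h t) := by
  have h1 : ContDiffOn ℝ ∞ (fun y : ℝ => ((t, y) : ℝ × ℝ)) (Icc (-1) 1) :=
    contDiffOn_const.prodMk contDiffOn_id
  have := ContDiffOn.comp (g := fun z : ℝ × ℝ => h z.1 z.2) hh h1 (fun y hy => ⟨ht, hy⟩)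
  exact this

section
variable {T : ℝ} {h : ℝ → ℝ → ℝ}

lemma sm_fd (hh : Sm T h) {t x : ℝ} (ht : t ∈ Ico 0 T) (hx : x ∈ Icc (-1 : ℝ) 1) :
    HasFDerivWithinAt (fun z : ℝ × ℝ => h z.1 z.2)
      (fderivWithin ℝ (fun z : ℝ × ℝ => h z.1 z.2) (Ico 0 T ×ˢ Icc (-1) 1) (t, x))
      (Ico 0 T ×ˢ Icc (-1) 1) (t, x) :=
  ((ContDiffOn.differentiableOn hh (by norm_cast)) (t, x) ⟨ht, hx⟩).hasFDerivWithinAt

/-- `x`-slice derivative of a vector valued function differentiable on the strip. -/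
lemma fd_x {E : Type*} [NormedAddCommGroup E] [NormedSpace ℝ E] {H : ℝ × ℝ → E}
    {H' : ℝ × ℝ →L[ℝ] E} {t x : ℝ} (ht : t ∈ Ico 0 T)
    (hH : HasFDerivWithinAt H H' (Ico 0 T ×ˢ Icc (-1) 1) (t, x)) :
    HasDerivWithinAt (fun y => H (t, y)) (H' (0, 1)) (Icc (-1) 1) x := by
  have h1 : HasDerivWithinAt (fun y : ℝ => ((t, y) : ℝ × ℝ)) (0, 1) (Icc (-1) 1) x :=
    (hasDerivWithinAt_const x _ t).prodMk (hasDerivWithinAt_id x _)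
  have h2 : MapsTo (fun y : ℝ => ((t, y) : ℝ × ℝ)) (Icc (-1) 1) (Ico 0 T ×ˢ Icc (-1) 1) :=
    fun y hy => ⟨ht, hy⟩
  exact hH.comp_hasDerivWithinAt x h1 h2

lemma fd_t {E : Type*} [NormedAddCommGroup E] [NormedSpace ℝ E] {H : ℝ × ℝ → E}
    {H' : ℝ × ℝ →L[ℝ] E} {t x : ℝ} (hx : x ∈ Icc (-1 : ℝ) 1)
    (hH : HasFDerivWithinAt H H' (Ico 0 T ×ˢ Icc (-1) 1) (t, x)) :
    HasDerivWithinAt (fun s => H (s, x)) (H' (1, 0)) (Ico 0 T) t := by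
  have h1 : HasDerivWithinAt (fun s : ℝ => ((s, x) : ℝ × ℝ)) (1, 0) (Ico 0 T) t :=
    (hasDerivWithinAt_id t _).prodMk (hasDerivWithinAt_const t _ x)
  have h2 : MapsTo (fun s : ℝ => ((s, x) : ℝ × ℝ)) (Ico 0 T) (Ico 0 T ×ˢ Icc (-1) 1) :=
    fun y hy => ⟨hy, hx⟩
  exact hH.comp_hasDerivWithinAt t h1 h2

lemma sm_dx_eq (hh : Sm T h) {t x : ℝ} (ht : t ∈ Ico 0 T) (hx : x ∈ Icc (-1 : ℝ) 1) :
    dx (h t) x =
      fderivWithin ℝ (fun z : ℝ × ℝ => h z.1 z.2) (Ico 0 T ×ˢ Icc (-1) 1) (t, x) (0, 1) :=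
  dx_of hx (fd_x ht (sm_fd hh ht hx))

lemma sm_dt (hh : Sm T h) {t x : ℝ} (ht : t ∈ Ico 0 T) (hx : x ∈ Icc (-1 : ℝ) 1) :
    HasDerivWithinAt (fun s => h s x)
      (fderivWithin ℝ (fun z : ℝ × ℝ => h z.1 z.2) (Ico 0 T ×ˢ Icc (-1) 1) (t, x) (1, 0))
      (Ico 0 T) t :=
  fd_t hx (sm_fd hh ht hx)

lemma sm_fderiv (hh : Sm T h) :
    ContDiffOn ℝ ∞ (fderivWithin ℝ (fun z : ℝ × ℝ => h z.1 z.2) (Ico 0 T ×ˢ Icc (-1) 1))
      (Ico 0 T ×ˢ Icc (-1) 1) :=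
  ContDiffOn.fderivWithin hh (uS T) (by norm_cast)

lemma sm_dx (hh : Sm T h) : Sm T (fun t x => dx (h t) x) := by
  have h1 : ContDiffOn ℝ ∞ (fun z : ℝ × ℝ =>
      fderivWithin ℝ (fun z : ℝ × ℝ => h z.1 z.2) (Ico 0 T ×ˢ Icc (-1) 1) z (0, 1))
      (Ico 0 T ×ˢ Icc (-1) 1) := (sm_fderiv hh).clm_apply contDiffOn_const
  exact h1.congr (fun z hz => sm_dx_eq hh hz.1 hz.2)

lemma sm_congr {k : ℝ → ℝ → ℝ} (hh : Sm T h)
    (hk : ∀ t ∈ Ico 0 T, ∀ x ∈ Icc (-1 : ℝ) 1, k t x = h t x) : Sm T k :=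
  ContDiffOn.congr hh (fun z hz => hk z.1 hz.1 z.2 hz.2)

/-- the time derivative of a smooth function is smooth -/
lemma sm_time {k : ℝ → ℝ → ℝ} (hh : Sm T h)
    (hk : ∀ t ∈ Ico 0 T, ∀ x ∈ Icc (-1 : ℝ) 1,
      HasDerivWithinAt (fun s => h s x) (k t x) (Ico 0 T) t) : Sm T k := by
  have h1 : ContDiffOn ℝ ∞ (fun z : ℝ × ℝ =>
      fderivWithin ℝ (fun z : ℝ × ℝ => h z.1 z.2) (Ico 0 T ×ˢ Icc (-1) 1) z (1, 0))
      (Ico 0 T ×ˢ Icc (-1) 1) := (sm_fderiv hh).clm_apply contDiffOn_const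
  exact h1.congr (fun z hz =>
    (uniqueDiffOn_Ico 0 T z.1 hz.1).eq_deriv _ (hk z.1 hz.1 z.2 hz.2) (sm_dt hh hz.1 hz.2))

lemma mem_cl_int {z : ℝ × ℝ} (hz : z ∈ Ico 0 T ×ˢ Icc (-1 : ℝ) 1) :
    z ∈ closure (interior (Ico 0 T ×ˢ Icc (-1 : ℝ) 1)) := by
  have hT : (0 : ℝ) ≠ T := (lt_of_le_of_lt hz.1.1 hz.1.2).ne
  rw [interior_prod_eq, interior_Ico, interior_Icc, closure_prod_eq, closure_Ioo hT,
    closure_Ioo (by norm_num)]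
  exact ⟨⟨hz.1.1, hz.1.2.le⟩, hz.2⟩

/-- commutation of the derivatives -/
lemma comm {k : ℝ → ℝ → ℝ} (hh : Sm T h)
    (hk : ∀ t ∈ Ico 0 T, ∀ x ∈ Icc (-1 : ℝ) 1,
      HasDerivWithinAt (fun s => h s x) (k t x) (Ico 0 T) t) {t x : ℝ} (ht : t ∈ Ico 0 T)
    (hx : x ∈ Icc (-1 : ℝ) 1) :
    HasDerivWithinAt (fun s => dx (h s) x) (dx (k t) x) (Ico 0 T) t := by
  set S : Set (ℝ × ℝ) := Ico 0 T ×ˢ Icc (-1) 1 with hS
  set H : ℝ × ℝ → ℝ := fun z => h z.1 z.2 with hH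
  have hz : ((t, x) : ℝ × ℝ) ∈ S := ⟨ht, hx⟩
  have h2 : HasFDerivWithinAt (fderivWithin ℝ H S) (fderivWithin ℝ (fderivWithin ℝ H S) S (t, x))
      S (t, x) := ((sm_fderiv hh).differentiableOn (by norm_cast) (t, x) hz).hasFDerivWithinAt
  have hsym : IsSymmSndFDerivWithinAt ℝ H S (t, x) :=
    ContDiffWithinAt.isSymmSndFDerivWithinAt (n := ∞) (hh (t, x) hz) (by simp; norm_cast)
      (uS T) (mem_cl_int hz) hz
  have e1 : dx (k t) x = fderivWithin ℝ (fderivWithin ℝ H S) S (t, x) (0, 1) (1, 0) := by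
    have h3 : HasDerivWithinAt (fun y => fderivWithin ℝ H S (t, y) (1, 0))
        (fderivWithin ℝ (fderivWithin ℝ H S) S (t, x) (0, 1) (1, 0)) (Icc (-1) 1) x := by
      have := (fd_x ht h2)
      have h4 := this.clm_apply (hasDerivWithinAt_const x (Icc (-1 : ℝ) 1) ((1, 0) : ℝ × ℝ))
      simpa using h4
    rw [← dx_of hx h3]
    exact dx_congr (fun y hy => (uniqueDiffOn_Ico 0 T t ht).eq_deriv _ (hk t ht y hy)
      (sm_dt hh ht hy)) hx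
  have h5 : HasDerivWithinAt (fun s => fderivWithin ℝ H S (s, x) (0, 1))
      (fderivWithin ℝ (fderivWithin ℝ H S) S (t, x) (1, 0) (0, 1)) (Ico 0 T) t := by
    have := (fd_t hx h2)
    have h4 := this.clm_apply (hasDerivWithinAt_const t (Ico 0 T) ((0, 1) : ℝ × ℝ))
    simpa using h4
  rw [e1, hsym (0, 1) (1, 0)]
  exact h5.congr (fun s hs => sm_dx_eq hh hs hx) (sm_dx_eq hh ht hx)

end

/-- iterated `x`-derivative -/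
noncomputable def Dn (j : ℕ) (h : ℝ → ℝ) : ℝ → ℝ := dx^[j] h

@[simp] lemma Dn_zero (h : ℝ → ℝ) : Dn 0 h = h := rfl

lemma Dn_succ (j : ℕ) (h : ℝ → ℝ) : Dn (j + 1) h = dx (Dn j h) := by
  unfold Dn; exact Function.iterate_succ_apply' _ _ _

lemma sm_Dn {T : ℝ} {h : ℝ → ℝ → ℝ} (hh : Sm T h) (j : ℕ) : Sm T (fun t x => Dn j (h t) x) := by
  induction j with
  | zero => exact hh
  | succ j ih =>
    have := sm_dx ih
    exact sm_congr this (fun t _ x _ => by rw [Dn_succ])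

lemma Sx.Dn {h : ℝ → ℝ} (hh : Sx h) (j : ℕ) : Sx (Dn j h) := by
  induction j with
  | zero => exact hh
  | succ j ih => rw [Dn_succ]; exact ih.dx

lemma comm_Dn {T : ℝ} {h k : ℝ → ℝ → ℝ} (hh : Sm T h)
    (hk : ∀ t ∈ Ico 0 T, ∀ x ∈ Icc (-1 : ℝ) 1,
      HasDerivWithinAt (fun s => h s x) (k t x) (Ico 0 T) t) (j : ℕ) :
    ∀ t ∈ Ico 0 T, ∀ x ∈ Icc (-1 : ℝ) 1,
      HasDerivWithinAt (fun s => Dn j (h s) x) (Dn j (k t) x) (Ico 0 T) t := by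
  induction j with
  | zero => exact hk
  | succ j ih =>
    intro t ht x hx
    have := comm (sm_Dn hh j) (k := fun t x => Dn j (k t) x) ih ht hx
    simp only [Dn_succ]
    exact this

end Vale.Agent.P244.ST.Apr
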