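import Vale.Agent.P244.ST.L.AprAlg

/-!
# P244-ST block L, a priori estimates: expansion of the differentiated equations
-/

open Set Filter
open scoped ContDiff Topology

namespace Vale.Agent.P244.ST.Apr

noncomputable section

lemma U_eq (h : ℝ → ℝ → ℝ) (j : ℕ) (t : ℝ) : U h j t = Dn j (h t) := rfl

/-- one differentiation at fixed time -/
theorem step_fix {p : ℕ} {w f u g R : ℝ → ℝ} (hw : Sx w) (hf : Sx f) (hu : Sx u) (hR : Sx R)
    (e m : ℝ)
    (H : ∀ x ∈ Icc (-1 : ℝ) 1, g x = Real.exp (-2 * w x) * lapR e u x +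
      (-2 * m * Real.exp (-2 * w x) * dx w x - Jf p w f x) * (1 - x ^ 2) * dx u x + R x) :
    ∀ x ∈ Icc (-1 : ℝ) 1, dx g x = Real.exp (-2 * w x) * lapR (e + 2) (dx u) x +
      (-2 * (m + 1) * Real.exp (-2 * w x) * dx w x - Jf p w f x) * (1 - x ^ 2) * dx (dx u) x +
      (dx R x + (2 * e * x * Real.exp (-2 * w x) * dx w x - e * Real.exp (-2 * w x)
        + ((4 * m * Real.exp (-2 * w x) * dx w x * dx w x - Jd p w f x) * (1 - x ^ 2)
          + (4 * m * x * Real.exp (-2 * w x) * dx w x + 2 * x * Jf p w f x))) * dx u x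
        + (-2 * m) * (Real.exp (-2 * w x) * (1 - x ^ 2) * dx (dx w) x * dx u x)) := by
  intro x hx
  have hA := hd_A hw hx
  have hw1 := hw.dx.hasDeriv hx
  have hu1 := hu.dx.hasDeriv hx
  have hu2 := hu.dx.dx.hasDeriv hx
  have hJ := hd_J (p := p) hw hf hx
  have hRx := hR.hasDeriv hx
  have hid := hasDerivWithinAt_id x (Icc (-1 : ℝ) 1)
  have hρ : HasDerivWithinAt (fun y : ℝ => 1 - y ^ 2) (-(2 * x)) (Icc (-1) 1) x := by
    have := (hid.pow 2).const_sub 1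
    simpa using this
  have hlap : HasDerivWithinAt (fun y => lapR e u y)
      ((-(2 * x)) * dx (dx u) x + (1 - x ^ 2) * dx (dx (dx u)) x
        - (e * dx u x + e * x * dx (dx u) x)) (Icc (-1) 1) x := by
    have h1 := hρ.mul hu2
    have h2 : HasDerivWithinAt (fun y : ℝ => e * y * dx u y) (e * dx u x + e * x * dx (dx u) x)
        (Icc (-1) 1) x := by
      have h3 : HasDerivWithinAt (fun y : ℝ => e * y) e (Icc (-1) 1) x := by
        simpa using hid.const_mul e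
      exact h3.mul hu1
    exact h1.sub h2
  have h1 := hA.mul hlap
  have h2 : HasDerivWithinAt
      (fun y => -2 * m * Real.exp (-2 * w y) * dx w y - Jf p w f y)
      (-2 * m * (Real.exp (-2 * w x) * (-2 * dx w x)) * dx w x
        + -2 * m * Real.exp (-2 * w x) * dx (dx w) x - Jd p w f x) (Icc (-1) 1) x :=
    ((hA.const_mul (-2 * m)).mul hw1).sub hJ
  have h3 := (h2.mul hρ).mul hu1
  have h4 := (h1.add h3).add hRx
  have h5 : HasDerivWithinAt g _ (Icc (-1) 1) x := h4.congr H (H x hx)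
  rw [dx_of hx h5]
  simp only [lapR, Pi.mul_apply]
  ring

/-- the expansion of the `j` times differentiated right-hand side -/
def Exp (p : ℕ) (w f : ℝ → ℝ → ℝ) (T : ℝ) (h G : ℝ → ℝ → ℝ) (j : ℕ) (R : ℝ → ℝ → ℝ) : Prop :=
  ∀ t ∈ Ico 0 T, ∀ x ∈ Icc (-1 : ℝ) 1,
    Dn j (G t) x = gA w t x * lapR ((p : ℝ) + 1 + 2 * j) (U h j t) x +
      (-2 * j * gA w t x * U w 1 t x - gJ p w f t x) * (1 - x ^ 2) * U h (j + 1) t x + R t x

/-- the linear coefficient produced by one differentiation -/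
def coef (p : ℕ) (w f : ℝ → ℝ → ℝ) (j : ℕ) : ℝ → ℝ → ℝ :=
  cst (2 * ((p : ℝ) + 1 + 2 * j)) * (gX * (gA w * U w 1)) - cst ((p : ℝ) + 1 + 2 * j) * gA w
    + ((cst (4 * (j : ℝ)) * (gA w * (U w 1 * U w 1)) - gJd p w f) * (1 - gX * gX)
      + (cst (4 * (j : ℝ)) * (gX * (gA w * U w 1)) + cst 2 * (gX * gJ p w f)))

lemma coef_mem {p : ℕ} {w f : ℝ → ℝ → ℝ} {j k : ℕ} (hk : 1 ≤ k) :
    coef p w f j ∈ PP p w f k := by
  unfold coef
  refine add_mem (sub_mem (mul_mem (mc _) (mul_mem mX (mul_mem mA (mW hk)))) (mul_mem (mc _) mA))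
    (add_mem (mul_mem (sub_mem (mul_mem (mc _) (mul_mem mA (mul_mem (mW hk) (mW hk)))) (mJd hk))
      (sub_mem (one_mem _) (mul_mem mX mX)))
      (add_mem (mul_mem (mc _) (mul_mem mX (mul_mem mA (mW hk))))
        (mul_mem (mc _) (mul_mem mX mJ))))

/-- the quadratic term -/
def quad (w : ℝ → ℝ → ℝ) (j : ℕ) (h : ℝ → ℝ → ℝ) : ℝ → ℝ → ℝ :=
  cst (-2 * (j : ℝ)) * (gA w * ((1 - gX * gX) * (U w 2 * U h (j + 1))))

theorem step_gen {p : ℕ} {w f : ℝ → ℝ → ℝ} {T : ℝ} (hw : Sm T w) (hf : Sm T f)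
    {h G : ℝ → ℝ → ℝ} (hh : Sm T h) {j : ℕ} {R R' : ℝ → ℝ → ℝ} (hR : ∀ t ∈ Ico 0 T, Sx (R t))
    (hR' : ∀ t ∈ Ico 0 T, ∀ x ∈ Icc (-1 : ℝ) 1, dx (R t) x = R' t x)
    (H : Exp p w f T h G j R) :
    Exp p w f T h G (j + 1) (R' + coef p w f j * U h (j + 1) + quad w j h) := by
  intro t ht x hx
  have h1 := step_fix (p := p) (w := w t) (f := f t) (u := U h j t) (g := Dn j (G t)) (R := R t)
    (slice hw ht) (slice hf ht) ((slice hh ht).Dn j) (hR t ht) ((p : ℝ) + 1 + 2 * j) (j : ℝ)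
    (by
      intro y hy
      have := H t ht y hy
      simp only [U, gA, gJ, Dn_succ, Dn_zero] at this ⊢
      exact this) x hx
  rw [Dn_succ, h1, hR' t ht x hx]
  have e1 : dx (U h j t) = U h (j + 1) t := by
    rw [U_eq, U_eq, Dn_succ]
  have e2 : ((j + 1 : ℕ) : ℝ) = (j : ℝ) + 1 := by push_cast; ring
  have e3 : (p : ℝ) + 1 + 2 * ((j : ℝ) + 1) = (p : ℝ) + 1 + 2 * j + 2 := by ring
  have e4 : dx (w t) = U w 1 t := by simp only [U_eq, Dn_succ, Dn_zero]
  have e5 : dx (dx (w t)) = U w 2 t := by simp only [U_eq, Dn_succ, Dn_zero]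
  have e6 : dx (U h (j + 1) t) = U h (j + 1 + 1) t := by
    rw [U_eq, U_eq, Dn_succ (j + 1)]
  rw [e2, e3, e1, e5, e4, e6]
  simp only [Pi.add_apply, Pi.mul_apply, Pi.sub_apply, Pi.one_apply, coef, quad, cst, gX, gA, gJ,
    gJd_eq]
  ring

/-- `h` is one of the two unknowns -/
def Mem (w f h : ℝ → ℝ → ℝ) : Prop := h = w ∨ h = f

lemma mH {p : ℕ} {w f h : ℝ → ℝ → ℝ} (hm : Mem w f h) {i k : ℕ} (hi : i ≤ k) :
    U h i ∈ PP p w f k := by
  rcases hm with h1 | h1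
  · subst h1; exact mW hi
  · subst h1; exact mF hi

lemma quad_mem {p : ℕ} {w f h : ℝ → ℝ → ℝ} (hm : Mem w f h) {j : ℕ} (hj : 1 ≤ j) :
    quad w j h ∈ PP p w f (j + 1) :=
  mul_mem (mc _) (mul_mem mA (mul_mem (sub_mem (one_mem _) (mul_mem mX mX))
    (mul_mem (mW (by omega)) (mH hm le_rfl))))

theorem expand {p : ℕ} {w f : ℝ → ℝ → ℝ} {T : ℝ} (hw : Sm T w) (hf : Sm T f)
    {h G : ℝ → ℝ → ℝ} (hh : Sm T h) (hm : Mem w f h) {R : ℝ → ℝ → ℝ} (hR : R ∈ PP p w f 1)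
    (H : Exp p w f T h G 1 R) (j : ℕ) (hj : 1 ≤ j) :
    ∃ R ∈ PP p w f j, Exp p w f T h G j R := by
  induction j, hj using Nat.le_induction with
  | base => exact ⟨R, hR, H⟩
  | succ j hj ih =>
    obtain ⟨R, hR, H⟩ := ih
    obtain ⟨s, α, ha, β, hb, γ, hc, he⟩ := good hw hf hj hR
    have := step_gen hw hf hh (R' := α * U w (j + 1) + β * U f (j + 1) + γ) s
      (fun t ht x hx => by
        simp only [Pi.add_apply, Pi.mul_apply]; exact he t ht x hx) H
    refine ⟨_, ?_, this⟩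
    have hle : PP p w f j ≤ PP p w f (j + 1) := PP_mono (by omega)
    exact add_mem (add_mem (add_mem (add_mem (mul_mem (hle ha) (mW le_rfl))
      (mul_mem (hle hb) (mF le_rfl))) (hle hc)) (mul_mem (coef_mem (by omega)) (mH hm le_rfl)))
      (quad_mem hm hj)

/-- the expansion with the structure of the remainder made explicit -/
theorem expand' {p : ℕ} {w f : ℝ → ℝ → ℝ} {T : ℝ} (hw : Sm T w) (hf : Sm T f)
    {h G : ℝ → ℝ → ℝ} (hh : Sm T h) (hm : Mem w f h) {R : ℝ → ℝ → ℝ} (hR : R ∈ PP p w f 1)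
    (H : Exp p w f T h G 1 R) (j : ℕ) (hj : 1 ≤ j) :
    ∃ α ∈ PP p w f j, ∃ β ∈ PP p w f j, ∃ γ ∈ PP p w f j, ∃ δ ∈ PP p w f j,
      Exp p w f T h G (j + 1) (α * U w (j + 1) + β * U f (j + 1) + γ + δ * U h (j + 1)
        + quad w j h) := by
  obtain ⟨R, hR, H⟩ := expand hw hf hh hm hR H j hj
  obtain ⟨s, α, ha, β, hb, γ, hc, he⟩ := good hw hf hj hR
  have := step_gen hw hf hh (R' := α * U w (j + 1) + β * U f (j + 1) + γ) s
    (fun t ht x hx => by
      simp only [Pi.add_apply, Pi.mul_apply]; exact he t ht x hx) H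
  exact ⟨α, ha, β, hb, γ, hc, coef p w f j, coef_mem hj, this⟩

/-- base case for `w` -/
theorem base_w {p : ℕ} {w f : ℝ → ℝ → ℝ} {T : ℝ} (hw : Sm T w) (hf : Sm T f) :
    ∃ R ∈ PP p w f 1, Exp p w f T w (fun t x => rhsW p (w t) (f t) x) 1 R := by
  have h0 : Exp p w f T w (fun t x => rhsW p (w t) (f t) x) 0
      (cst (-(p : ℝ)) * gA w + gX * gJ p w f) := by
    intro t ht x hx
    simp only [Dn_zero, rhsW, lap, lapR, U_eq, gA, gJ, gX, cst, Pi.add_apply, Pi.mul_apply, Dn_succ,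
      Nat.cast_zero]
    ring
  have hs : ∀ t ∈ Ico 0 T, Sx ((cst (-(p : ℝ)) * gA w + gX * gJ p w f) t) := fun t ht =>
    ((Sx.const _).mul (((Sx.const (-2)).mul (slice hw ht)).exp)).add
      (Sx.id.mul (sx_J (slice hw ht) (slice hf ht)))
  have h1 := step_gen hw hf hw (R' := cst (2 * (p : ℝ)) * (gA w * U w 1) + gJ p w f
    + gX * gJd p w f) hs (fun t ht x hx => by
      have e1 := (hd_A (slice hw ht) hx).const_mul (-(p : ℝ))
      have e2 := (hasDerivWithinAt_id x (Icc (-1 : ℝ) 1)).mul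
        (hd_J (p := p) (slice hw ht) (slice hf ht) hx)
      have e3 := dx_of hx (e1.add e2)
      rw [show dx ((cst (-(p : ℝ)) * gA w + gX * gJ p w f) t) x = _ from e3]
      simp only [gJd_eq, gA, gJ, gX, cst, U, Pi.add_apply, Pi.mul_apply, Dn_succ, Dn_zero, id]
      ring) h0
  refine ⟨_, ?_, h1⟩
  have hq : quad w 0 w = 0 := by
    unfold quad
    have : cst (-2 * ((0 : ℕ) : ℝ)) = 0 := by
      funext t x; simp [cst]
    rw [this, zero_mul]
  rw [hq, add_zero]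
  exact add_mem (add_mem (add_mem (mul_mem (mc _) (mul_mem mA (mW le_rfl))) mJ)
    (mul_mem mX (mJd le_rfl))) (mul_mem (coef_mem le_rfl) (mW le_rfl))

/-- base case for `f` -/
theorem base_f {p : ℕ} {w f : ℝ → ℝ → ℝ} {T : ℝ} (hw : Sm T w) (hf : Sm T f) :
    ∃ R ∈ PP p w f 1, Exp p w f T f (fun t x => rhsF p (w t) (f t) x) 1 R := by
  have h0 : Exp p w f T f (fun t x => rhsF p (w t) (f t) x) 0
      (cst (-((p : ℝ) - 1)) * gA f) := by
    intro t ht x hx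
    simp only [Dn_zero, rhsF, lap, lapR, U_eq, gA, gJ, cst, Pi.mul_apply, Dn_succ,
      Nat.cast_zero]
    ring
  have hs : ∀ t ∈ Ico 0 T, Sx ((cst (-((p : ℝ) - 1)) * gA f) t) := fun t ht =>
    ((Sx.const _).mul (((Sx.const (-2)).mul (slice hf ht)).exp))
  have h1 := step_gen hw hf hf (R' := cst (2 * ((p : ℝ) - 1)) * (gA f * U f 1)) hs
    (fun t ht x hx => by
      have e1 := (hd_A (slice hf ht) hx).const_mul (-((p : ℝ) - 1))
      have e3 := dx_of hx e1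
      rw [show dx ((cst (-((p : ℝ) - 1)) * gA f) t) x = _ from e3]
      simp only [gA, cst, U, Pi.mul_apply, Dn_succ, Dn_zero]
      ring) h0
  refine ⟨_, ?_, h1⟩
  have hq : quad w 0 f = 0 := by
    unfold quad
    have : cst (-2 * ((0 : ℕ) : ℝ)) = 0 := by
      funext t x; simp [cst]
    rw [this, zero_mul]
  rw [hq, add_zero]
  exact add_mem (mul_mem (mc _) (mul_mem mE (mF le_rfl))) (mul_mem (coef_mem le_rfl) (mF le_rfl))

end

end Vale.Agent.P244.ST.Apr
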