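import Vale.Agent.P244.ST.L.AprMain

/-!
# P244-ST block L, a priori estimates: `C^1` bounds imply `C^j` bounds (final)
-/

open Set Filter
open scoped ContDiff Topology

namespace Vale.Agent.P244.ST.Apr

noncomputable section

variable {p : ℕ} {w f : ℝ → ℝ → ℝ} {T : ℝ}

lemma sg_cases (b : Bool) : sg b = 1 ∨ sg b = -1 := by cases b <;> simp [sg]

/-- common bound -/
lemma Bd.max' {q r : ℝ → ℝ → ℝ} (hq : Bd T q) (hr : Bd T r) :
    ∃ C, ∀ t ∈ Ico 0 T, ∀ x ∈ Icc (-1 : ℝ) 1, |q t x| ≤ C ∧ |r t x| ≤ C := by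
  obtain ⟨C, _, h1⟩ := hq
  obtain ⟨D, _, k1⟩ := hr
  exact ⟨max C D, fun t ht x hx => ⟨(h1 t ht x hx).trans (le_max_left _ _),
    (k1 t ht x hx).trans (le_max_right _ _)⟩⟩

lemma exists_common {n : ℕ} (q : Fin n → ℝ → ℝ → ℝ) (hq : ∀ i, Bd T (q i)) :
    ∃ C, ∀ i, ∀ t ∈ Ico 0 T, ∀ x ∈ Icc (-1 : ℝ) 1, |q i t x| ≤ C := by
  choose C _ h1 using hq
  obtain ⟨M, hM⟩ := Finite.exists_le C
  exact ⟨M, fun i t ht x hx => (h1 i t ht x hx).trans (hM i)⟩

lemma sp_of {Q : ℝ → ℝ} (hQ : Sx Q) {x : ℝ} (hx : x ∈ Icc (-1 : ℝ) 1)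
    (hmax : ∀ y ∈ Icc (-1 : ℝ) 1, Q y ≤ Q x) {e : ℝ} (he : 0 ≤ e) {a b : ℝ}
    (ha : dx Q x = a) (hb : dx (dx Q) x = b) :
    (1 - x ^ 2) * b - e * x * a ≤ 0 ∧ (1 - x ^ 2) * a = 0 := by
  have := spatial hQ hx hmax he
  rw [lapR, ha, hb] at this
  exact this

/-- THE `C^2` STEP. -/
theorem step2 (hs : ConfSol p w f T) (hT : 0 < T)
    (b0 : Bd T (U w 0)) (b0' : Bd T (U f 0)) (b1 : Bd T (U w 1)) (b1' : Bd T (U f 1)) :
    Bd T (U w 2) ∧ Bd T (U f 2) := by
  have hJ := bdJ (p := p) b0 b1 b1'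
  have hW : ∀ i ≤ 1, Bd T (U w i) := by
    intro i hi; interval_cases i <;> assumption
  have hF : ∀ i ≤ 1, Bd T (U f i) := by
    intro i hi; interval_cases i <;> assumption
  have bdd : ∀ {q}, q ∈ PP p w f 1 → Bd T q := fun hq => bounded hJ hW hF hq
  obtain ⟨R1, mR1, E1⟩ := base hs true
  obtain ⟨S1, mS1, F1⟩ := base hs false
  have hwt : hh w f true = w := rfl
  have hft : hh w f false = f := rfl
  rw [hwt] at E1
  rw [hft] at F1
  obtain ⟨α, mα, β, mβ, γ, mγ, δ, mδ, E2⟩ := expand' (smw hs) (smf hs) (smw hs) (Or.inl rfl) mR1 E1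
    1 le_rfl
  obtain ⟨α', mα', β', mβ', γ', mγ', δ', mδ', F2⟩ := expand' (smw hs) (smf hs) (smf hs)
    (Or.inr rfl) mS1 F1 1 le_rfl
  obtain ⟨B, hB⟩ := exists_common (T := T)
    ![gA w, U w 1, U f 1, R1, S1, α, β, γ, δ, α', β', γ', δ'] (by
      intro i
      fin_cases i
      · exact bdd mA
      · exact b1
      · exact b1'
      · exact bdd mR1
      · exact bdd mS1
      · exact bdd mα
      · exact bdd mβ
      · exact bdd mγ
      · exact bdd mδ
      · exact bdd mα'
      · exact bdd mβ'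
      · exact bdd mγ'
      · exact bdd mδ')
  -- the family
  set E : ℝ → ℝ → ℝ := fun t x => U w 1 t x * U w 1 t x + U f 1 t x * U f 1 t x with hE
  set Q : Bool × Bool → ℝ → ℝ → ℝ :=
    fun i t x => sg i.1 * U (hh w f i.2) 2 t x + E t x with hQ
  set Qt : Bool × Bool → ℝ → ℝ → ℝ := fun i t x => sg i.1 * Dn 2 (GG p w f i.2 t) x +
    (2 * U w 1 t x * Dn 1 (GG p w f true t) x + 2 * U f 1 t x * Dn 1 (GG p w f false t) x) with hQt
  have smU : ∀ b j, Sm T (U (hh w f b) j) := fun b j => sm_Dn (smh hs b) j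
  have smQ : ∀ i, Sm T (Q i) := by
    intro i
    exact (contDiffOn_const.mul (smU i.2 2)).add (((smU true 1).mul (smU true 1)).add
      ((smU false 1).mul (smU false 1)))
  have hEpos : ∀ t x, 0 ≤ E t x := fun t x => by
    simp only [hE]; nlinarith only [mul_self_nonneg (U w 1 t x), mul_self_nonneg (U f 1 t x)]
  obtain ⟨M, hM0, hM⟩ := concl (T := T) (C := 12 * B ^ 2 + 8 * B ^ 3 + 4 * B) hT (by
      have : 0 ≤ B := (abs_nonneg _).trans (hB 0 0 ⟨le_rfl, hT⟩ 0 (by norm_num))
      positivity) Q Qt smQ (by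
      intro i t ht x hx
      have d1 := (tder hs i.2 2 t ht x hx).const_mul (sg i.1)
      have d2 := tder hs true 1 t ht x hx
      have d3 := tder hs false 1 t ht x hx
      have := d1.add ((d2.mul d2).add (d3.mul d3))
      refine HasDerivWithinAt.congr_deriv this ?_
      simp only [hQt, hwt, hft]
      ring) (by
      intro i t ht x hx hmax hpos
      -- bounds at the maximum
      have hB' := fun k => hB k t ht x hx
      have hA := hB' 0
      have hv := hB' 1
      have hg := hB' 2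
      have hR1 := hB' 3
      have hS1 := hB' 4
      have h5 := hB' 5
      have h6 := hB' 6
      have h7 := hB' 7
      have h8 := hB' 8
      have h9 := hB' 9
      have h10 := hB' 10
      have h11 := hB' 11
      have h12 := hB' 12
      simp only [Matrix.cons_val] at hA hv hg hR1 hS1 h5 h6 h7 h8 h9 h10 h11 h12
      have hQq : |U w 2 t x| ≤ Q i t x := by
        have e1 := hmax (true, true) x hx
        have e2 := hmax (false, true) x hx
        have e3 := hEpos t x
        simp only [hQ, sg, hh, if_true, Bool.false_eq_true, if_false] at e1 e2 ⊢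
        exact abs_le.2 ⟨by linarith only [e3, e2], by linarith only [e3, e1]⟩
      have hQr : |U f 2 t x| ≤ Q i t x := by
        have e1 := hmax (true, false) x hx
        have e2 := hmax (false, false) x hx
        have e3 := hEpos t x
        simp only [hQ, sg, hh, if_true, Bool.false_eq_true, if_false] at e1 e2 ⊢
        exact abs_le.2 ⟨by linarith only [e3, e2], by linarith only [e3, e1]⟩
      obtain ⟨D1, D2⟩ := dxQ (slice (smU i.2 2) ht) (slice (smU true 1) ht)
        (slice (smU false 1) ht) (sg i.1)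
      have hmax' : ∀ y ∈ Icc (-1 : ℝ) 1, Q i t y ≤ Q i t x := fun y hy => hmax i y hy
      obtain ⟨sp1, sp2⟩ := sp_of (slice (smQ i) ht) hx hmax' (e := (p : ℝ) + 5) (by positivity)
        (D1 x hx) (D2 x hx)
      have hxx : |x| ≤ 1 := abs_le.2 hx
      have hρ : 0 ≤ 1 - x ^ 2 := by nlinarith only [hx, hx.1, hx.2]
      have hρ1 : 1 - x ^ 2 ≤ 1 := by nlinarith only [sq_nonneg x]
      have g1 := E1 t ht x hx
      have g2 := F1 t ht x hx
      have s1 : ∀ h j, dx (U h j t) = U h (j + 1) t := fun h j => by rw [U_eq, U_eq, Dn_succ]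
      have hAp : 0 ≤ gA w t x := (Real.exp_pos _).le
      rcases i with ⟨b, c⟩
      cases c
      · -- z = r
        have g3 := F2 t ht x hx
        simp only [hwt, hft] at sp1 sp2
        rw [s1 f 2, s1 w 1, s1 f 1] at sp2
        rw [s1 f 2, s1 w 1, s1 f 1] at sp1
        rw [show dx (U f (2 + 1) t) = U f 4 t from s1 f 3, show dx (U w (1 + 1) t) = U w 3 t
          from s1 w 2, show dx (U f (1 + 1) t) = U f 3 t from s1 f 2] at sp1
        have := alg2 (A := gA w t x) (ρ := 1 - x ^ 2) (x := x) (v := U w 1 t x) (g := U f 1 t x)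
          (q := U w 2 t x) (r := U f 2 t x) (z := U f 2 t x) (z2 := U f 3 t x) (z3 := U f 4 t x)
          (v2 := U w 3 t x) (g2 := U f 3 t x) (J := gJ p w f t x) (α := α' t x) (β := β' t x)
          (γ := γ' t x) (δ := δ' t x) (R1 := R1 t x) (S1 := S1 t x) (σ := sg b) (e := (p : ℝ) + 5)
          (Q := Q (b, false) t x) (B := B)
          (zt := Dn 2 (GG p w f false t) x) (vt := Dn 1 (GG p w f true t) x)
          (gt := Dn 1 (GG p w f false t) x) hAp hρ hρ1 hxx (sg_cases b) (Or.inr rfl)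
          hA hv hg h9 h10 h11 h12 hR1 hS1 hQq hQr
          (by linarith only [sp1]) (by linarith only [sp2])
          (by
            rw [g3]
            simp only [lapR, s1, quad, cst, gX, Pi.add_apply, Pi.mul_apply, Pi.sub_apply,
              Pi.one_apply]
            push_cast
            ring)
          (by
            rw [g1]
            simp only [lapR, s1]
            push_cast
            ring)
          (by
            rw [g2]
            simp only [lapR, s1]
            push_cast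
            ring)
        exact this
      · -- z = q
        have g3 := E2 t ht x hx
        simp only [hwt, hft] at sp1 sp2
        rw [s1 w 2, s1 w 1, s1 f 1] at sp2
        rw [s1 w 2, s1 w 1, s1 f 1] at sp1
        rw [show dx (U w (2 + 1) t) = U w 4 t from s1 w 3, show dx (U w (1 + 1) t) = U w 3 t
          from s1 w 2, show dx (U f (1 + 1) t) = U f 3 t from s1 f 2] at sp1
        have := alg2 (A := gA w t x) (ρ := 1 - x ^ 2) (x := x) (v := U w 1 t x) (g := U f 1 t x)
          (q := U w 2 t x) (r := U f 2 t x) (z := U w 2 t x) (z2 := U w 3 t x) (z3 := U w 4 t x)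
          (v2 := U w 3 t x) (g2 := U f 3 t x) (J := gJ p w f t x) (α := α t x) (β := β t x)
          (γ := γ t x) (δ := δ t x) (R1 := R1 t x) (S1 := S1 t x) (σ := sg b) (e := (p : ℝ) + 5)
          (Q := Q (b, true) t x) (B := B)
          (zt := Dn 2 (GG p w f true t) x) (vt := Dn 1 (GG p w f true t) x)
          (gt := Dn 1 (GG p w f false t) x) hAp hρ hρ1 hxx (sg_cases b) (Or.inl rfl)
          hA hv hg h5 h6 h7 h8 hR1 hS1 hQq hQr
          (by linarith only [sp1]) (by linarith only [sp2])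
          (by
            rw [g3]
            simp only [lapR, s1, quad, cst, gX, Pi.add_apply, Pi.mul_apply, Pi.sub_apply,
              Pi.one_apply]
            push_cast
            ring)
          (by
            rw [g1]
            simp only [lapR, s1]
            push_cast
            ring)
          (by
            rw [g2]
            simp only [lapR, s1]
            push_cast
            ring)
        exact this)
  have fin : ∀ c, Bd T (U (hh w f c) 2) := by
    intro c
    refine ⟨M, hM0, fun t ht x hx => ?_⟩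
    have e1 := hM (true, c) t ht x hx
    have e2 := hM (false, c) t ht x hx
    have e3 := hEpos t x
    simp only [hQ, sg, if_true, Bool.false_eq_true, if_false] at e1 e2
    exact abs_le.2 ⟨by linarith, by linarith⟩
  exact ⟨fin true, fin false⟩

/-- THE STEP `j → j + 1` for `j ≥ 2`. -/
theorem stepj (hs : ConfSol p w f T) (hT : 0 < T) {j : ℕ} (hj : 2 ≤ j)
    (hW : ∀ i ≤ j, Bd T (U w i)) (hF : ∀ i ≤ j, Bd T (U f i)) :
    Bd T (U w (j + 1)) ∧ Bd T (U f (j + 1)) := by
  have hJ := bdJ (p := p) (hW 0 (Nat.zero_le _)) (hW 1 (by omega)) (hF 1 (by omega))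
  have bdd : ∀ {q}, q ∈ PP p w f j → Bd T q := fun hq => bounded hJ hW hF hq
  -- expansions
  have hex : ∀ c, ∃ α ∈ PP p w f j, ∃ β ∈ PP p w f j, ∃ γ ∈ PP p w f j, ∃ δ ∈ PP p w f j,
      Exp p w f T (hh w f c) (GG p w f c) (j + 1)
        (α * U w (j + 1) + β * U f (j + 1) + γ + δ * U (hh w f c) (j + 1)) := by
    intro c
    obtain ⟨R1, mR1, E1⟩ := base hs c
    obtain ⟨α, mα, β, mβ, γ, mγ, δ, mδ, E2⟩ := expand' (smw hs) (smf hs) (smh hs c) (memh c) mR1 E1
      j (by omega)
    refine ⟨α, mα, β, mβ, γ, mγ,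
      δ + cst (-2 * (j : ℝ)) * (gA w * ((1 - gX * gX) * U w 2)), ?_, ?_⟩
    · exact add_mem mδ (mul_mem (mc _) (mul_mem mA (mul_mem (sub_mem (one_mem _) (mul_mem mX mX))
        (mW hj))))
    · intro t ht x hx
      rw [E2 t ht x hx]
      simp only [quad, Pi.add_apply, Pi.mul_apply]
      ring
  choose α mα β mβ γ mγ δ mδ E using hex
  have hcb : ∃ B : ℝ, 0 ≤ B ∧ ∀ c, ∀ t ∈ Ico 0 T, ∀ x ∈ Icc (-1 : ℝ) 1,
      |α c t x| ≤ B ∧ |β c t x| ≤ B ∧ |γ c t x| ≤ B ∧ |δ c t x| ≤ B := by
    choose A1 p1 q1 using fun c => bdd (mα c)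
    choose A2 p2 q2 using fun c => bdd (mβ c)
    choose A3 p3 q3 using fun c => bdd (mγ c)
    choose A4 p4 q4 using fun c => bdd (mδ c)
    refine ⟨A1 true + A1 false + A2 true + A2 false + A3 true + A3 false + A4 true + A4 false,
      by have := p1 true; have := p1 false; have := p2 true; have := p2 false
         have := p3 true; have := p3 false; have := p4 true; have := p4 false
         positivity, fun c t ht x hx => ?_⟩
    have k1 := p1 true; have k2 := p1 false; have k3 := p2 true; have k4 := p2 false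
    have k5 := p3 true; have k6 := p3 false; have k7 := p4 true; have k8 := p4 false
    have e1 := q1 c t ht x hx
    have e2 := q2 c t ht x hx
    have e3 := q3 c t ht x hx
    have e4 := q4 c t ht x hx
    cases c
    · exact ⟨by linarith only [k1, k3, k4, k5, k6, k7, k8, e1], by linarith only [k1, k2, k3, k5, k6, k7, k8, e2], by linarith only [k1, k2, k3, k4, k5, k7, k8, e3], by linarith only [k1, k2, k3, k4, k5, k6, k7, e4]⟩
    · exact ⟨by linarith only [k2, k3, k4, k5, k6, k7, k8, e1], by linarith only [k1, k2, k4, k5, k6, k7, k8, e2], by linarith only [k1, k2, k3, k4, k6, k7, k8, e3], by linarith only [k1, k2, k3, k4, k5, k6, k8, e4]⟩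
  obtain ⟨B, hB0, hB⟩ := hcb
  set Q : Bool × Bool → ℝ → ℝ → ℝ := fun i t x => sg i.1 * U (hh w f i.2) (j + 1) t x with hQ
  set Qt : Bool × Bool → ℝ → ℝ → ℝ := fun i t x => sg i.1 * Dn (j + 1) (GG p w f i.2 t) x with hQt
  have smU : ∀ b j, Sm T (U (hh w f b) j) := fun b j => sm_Dn (smh hs b) j
  have smQ : ∀ i, Sm T (Q i) := fun i => contDiffOn_const.mul (smU i.2 (j + 1))
  obtain ⟨M, hM0, hM⟩ := concl (T := T) (C := 4 * B) hT (by positivity) Q Qt smQ
    (fun i t ht x hx => (tder hs i.2 (j + 1) t ht x hx).const_mul (sg i.1)) (by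
      intro i t ht x hx hmax hpos
      rcases i with ⟨b, c⟩
      have hQq : |U w (j + 1) t x| ≤ Q (b, c) t x := by
        have e1 := hmax (true, true) x hx
        have e2 := hmax (false, true) x hx
        simp only [hQ, sg, hh, if_true, Bool.false_eq_true, if_false] at e1 e2 ⊢
        exact abs_le.2 ⟨by linarith only [e2], by linarith only [e1]⟩
      have hQr : |U f (j + 1) t x| ≤ Q (b, c) t x := by
        have e1 := hmax (true, false) x hx
        have e2 := hmax (false, false) x hx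
        simp only [hQ, sg, hh, if_true, Bool.false_eq_true, if_false] at e1 e2 ⊢
        exact abs_le.2 ⟨by linarith, by linarith only [e1]⟩
      have hQc : |U (hh w f c) (j + 1) t x| ≤ Q (b, c) t x := by
        cases c
        · exact hQr
        · exact hQq
      obtain ⟨m1, m2, m3, m4⟩ := hB c t ht x hx
      have sU := slice (smU c (j + 1)) ht
      have d1 : ∀ y ∈ Icc (-1 : ℝ) 1, dx (Q (b, c) t) y =
          sg b * dx (U (hh w f c) (j + 1) t) y := fun y hy =>
        dx_of hy ((sU.hasDeriv hy).const_mul (sg b))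
      have d2 : dx (dx (Q (b, c) t)) x = sg b * dx (dx (U (hh w f c) (j + 1) t)) x := by
        rw [dx_congr d1 hx]
        exact dx_of hx ((sU.dx.hasDeriv hx).const_mul (sg b))
      have hmax' : ∀ y ∈ Icc (-1 : ℝ) 1, Q (b, c) t y ≤ Q (b, c) t x := fun y hy =>
        hmax (b, c) y hy
      obtain ⟨sp1, sp2⟩ := sp_of (slice (smQ (b, c)) ht) hx hmax'
        (e := (p : ℝ) + 1 + 2 * ((j + 1 : ℕ) : ℝ)) (by positivity) (d1 x hx) d2
      have s1 : ∀ h j, dx (U h j t) = U h (j + 1) t := fun h j => by rw [U_eq, U_eq, Dn_succ]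
      have hAp : 0 ≤ gA w t x := (Real.exp_pos _).le
      have g := E c t ht x hx
      set e : ℝ := (p : ℝ) + 1 + 2 * ((j + 1 : ℕ) : ℝ) with he
      rw [s1] at sp1 sp2
      rw [s1] at sp1
      simp only [lapR] at g
      rw [s1, s1] at g
      set z := U (hh w f c) (j + 1) t x
      set z2 := U (hh w f c) (j + 1 + 1) t x
      set z3 := U (hh w f c) (j + 1 + 1 + 1) t x
      set β2 := -2 * ((j + 1 : ℕ) : ℝ) * gA w t x * U w 1 t x - gJ p w f t x
      simp only [Pi.add_apply, Pi.mul_apply] at g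
      have key : Qt (b, c) t x = gA w t x * ((1 - x ^ 2) * (sg b * z3) - e * x * (sg b * z2))
          + β2 * ((1 - x ^ 2) * (sg b * z2)) + sg b * (α c t x * U w (j + 1) t x +
            β c t x * U f (j + 1) t x + γ c t x + δ c t x * z) := by
        simp only [hQt]
        rw [g]
        ring
      rw [key, sp2, mul_zero, add_zero]
      have t1 : gA w t x * ((1 - x ^ 2) * (sg b * z3) - e * x * (sg b * z2)) ≤ 0 :=
        mul_nonpos_of_nonneg_of_nonpos hAp sp1
      have hσ1 : |sg b| ≤ 1 := by rcases sg_cases b with h | h <;> rw [h] <;> simp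
      have t6 : sg b * (α c t x * U w (j + 1) t x + β c t x * U f (j + 1) t x + γ c t x
          + δ c t x * z) ≤ 1 * (B * Q (b, c) t x + B * Q (b, c) t x + B + B * Q (b, c) t x) := by
        refine (le_abs_self _).trans (mulb hσ1 ?_)
        refine (abs_add_le _ _).trans (add_le_add ((abs_add_le _ _).trans (add_le_add
          ((abs_add_le _ _).trans (add_le_add (mulb m1 hQq) (mulb m2 hQr))) m3)) (mulb m4 hQc))
      have : 0 ≤ B * Q (b, c) t x := mul_nonneg hB0 hpos
      nlinarith only [hB0, t1, t6, this])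
  have fin : ∀ c, Bd T (U (hh w f c) (j + 1)) := by
    intro c
    refine ⟨M, hM0, fun t ht x hx => ?_⟩
    have e1 := hM (true, c) t ht x hx
    have e2 := hM (false, c) t ht x hx
    simp only [hQ, sg, if_true, Bool.false_eq_true, if_false] at e1 e2
    exact abs_le.2 ⟨by linarith, by linarith⟩
  exact ⟨fin true, fin false⟩

/-- A PRIORI ESTIMATE: a `C^1` bound on `[0,T)` implies bounds for all `x`-derivatives. -/
theorem apriori (hs : ConfSol p w f T) (hT : 0 < T) {K : ℝ}
    (hK : ∀ t ∈ Ico 0 T, ∀ x ∈ Icc (-1 : ℝ) 1, size1 (w t) (f t) x ≤ K) (j : ℕ) :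
    ∃ C, ∀ t ∈ Ico 0 T, ∀ x ∈ Icc (-1 : ℝ) 1,
      |(dx^[j]) (w t) x| ≤ C ∧ |(dx^[j]) (f t) x| ≤ C := by
  have hb : ∀ t ∈ Ico 0 T, ∀ x ∈ Icc (-1 : ℝ) 1, |w t x| ≤ K ∧ |f t x| ≤ K ∧
      |dx (w t) x| ≤ K ∧ |dx (f t) x| ≤ K := by
    intro t ht x hx
    have := hK t ht x hx
    unfold size1 at this
    have a1 := abs_nonneg (w t x)
    have a2 := abs_nonneg (f t x)
    have a3 := abs_nonneg (dx (w t) x)
    have a4 := abs_nonneg (dx (f t) x)
    exact ⟨by linarith only [this, a2, a3, a4], by linarith only [this, a1, a3, a4], by linarith only [this, a1, a2, a4], by linarith only [this, a1, a2, a3]⟩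
  have hK0 : 0 ≤ K := (abs_nonneg _).trans (hb 0 ⟨le_rfl, hT⟩ 0 (by norm_num)).1
  have b0 : Bd T (U w 0) := ⟨K, hK0, fun t ht x hx => (hb t ht x hx).1⟩
  have b0' : Bd T (U f 0) := ⟨K, hK0, fun t ht x hx => (hb t ht x hx).2.1⟩
  have b1 : Bd T (U w 1) := ⟨K, hK0, fun t ht x hx => by
    rw [U_eq, Dn_succ, Dn_zero]; exact (hb t ht x hx).2.2.1⟩
  have b1' : Bd T (U f 1) := ⟨K, hK0, fun t ht x hx => by
    rw [U_eq, Dn_succ, Dn_zero]; exact (hb t ht x hx).2.2.2⟩
  obtain ⟨b2, b2'⟩ := step2 hs hT b0 b0' b1 b1'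
  have all : ∀ n : ℕ, ∀ i ≤ n + 2, Bd T (U w i) ∧ Bd T (U f i) := by
    intro n
    induction n with
    | zero =>
      intro i hi
      have : i = 0 ∨ i = 1 ∨ i = 2 := by omega
      rcases this with h | h | h
      · rw [h]; exact ⟨b0, b0'⟩
      · rw [h]; exact ⟨b1, b1'⟩
      · rw [h]; exact ⟨b2, b2'⟩
    | succ n ih =>
      intro i hi
      rcases Nat.lt_or_ge i (n + 3) with h | h
      · exact ih i (by omega)
      · have : i = n + 2 + 1 := by omega
        rw [this]
        exact stepj hs hT (by omega) (fun i hi => (ih i hi).1) (fun i hi => (ih i hi).2)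
  obtain ⟨⟨C, _, h1⟩, ⟨D, _, h2⟩⟩ := all j j (by omega)
  exact ⟨max C D, fun t ht x hx => ⟨(h1 t ht x hx).trans (le_max_left _ _),
    (h2 t ht x hx).trans (le_max_right _ _)⟩⟩

end

end Vale.Agent.P244.ST.Apr
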