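import Vale.Agent.P244.ST.L.AprExp

/-!
# P244-ST block L, a priori estimates: `C^1` bounds imply `C^j` bounds
-/

open Set Filter
open scoped ContDiff Topology

namespace Vale.Agent.P244.ST.Apr

noncomputable section

lemma mulb {a b A B : ℝ} (ha : |a| ≤ A) (hb : |b| ≤ B) : |a * b| ≤ A * B := by
  rw [abs_mul]
  exact mul_le_mul ha hb (abs_nonneg _) ((abs_nonneg _).trans ha)

lemma sm_cont {T : ℝ} {h : ℝ → ℝ → ℝ} (hh : Sm T h) :
    ContinuousOn (fun z : ℝ × ℝ => h z.1 z.2) (Ico 0 T ×ˢ Icc (-1) 1) :=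
  ContDiffOn.continuousOn hh

/-- `J` is bounded if the first derivatives are. -/
lemma bdJ {p : ℕ} {w f : ℝ → ℝ → ℝ} {T : ℝ}
    (h0 : Bd T (U w 0)) (h1 : Bd T (U w 1)) (h2 : Bd T (U f 1)) : Bd T (gJ p w f) := by
  have hA : Bd T (gA w) := by
    obtain ⟨C, k0, k1⟩ := h0
    refine ⟨Real.exp (2 * C), (Real.exp_pos _).le, fun t ht x hx => ?_⟩
    have h2 := k1 t ht x hx
    simp only [U, Dn_zero] at h2
    simp only [gA]
    rw [abs_of_pos (Real.exp_pos _)]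
    apply Real.exp_le_exp.2
    linarith only [h2, (abs_le.1 h2).1]
  have hc : ∀ c : ℝ, Bd T (cst c) := fun c => ⟨|c|, abs_nonneg _, fun _ _ _ _ => le_rfl⟩
  have hd : Bd T (gJd p w f) := hA.mul (((hc _).mul (h1.mul h1)).add ((hc _).mul (h2.mul h2)))
  obtain ⟨C, k0, k1⟩ := hd
  refine ⟨C, k0, fun t ht x hx => ?_⟩
  simp only [gJ, Jf]
  have h3 : ‖∫ y in (0 : ℝ)..x, Jd p (w t) (f t) y‖ ≤ C * |x - 0| := by
    apply intervalIntegral.norm_integral_le_of_norm_le_const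
    intro y hy
    rw [Real.norm_eq_abs, ← gJd_eq]
    apply k1 t ht
    have : y ∈ uIcc 0 x := uIoc_subset_uIcc hy
    exact (uIcc_subset_Icc (by norm_num) hx) this
  rw [Real.norm_eq_abs, sub_zero] at h3
  have : |x| ≤ 1 := abs_le.2 hx
  calc _ ≤ C * |x| := h3
    _ ≤ C * 1 := mul_le_mul_of_nonneg_left this k0
    _ = C := mul_one C

/-- sign and choice of the unknown -/
def sg (b : Bool) : ℝ := if b then 1 else -1
def hh (w f : ℝ → ℝ → ℝ) (b : Bool) : ℝ → ℝ → ℝ := if b then w else f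
def GG (p : ℕ) (w f : ℝ → ℝ → ℝ) (b : Bool) : ℝ → ℝ → ℝ :=
  if b then (fun t x => rhsW p (w t) (f t) x) else (fun t x => rhsF p (w t) (f t) x)

section setup
variable {p : ℕ} {w f : ℝ → ℝ → ℝ} {T : ℝ} (hs : ConfSol p w f T)
include hs

lemma smw : Sm T w := hs.smooth_w
lemma smf : Sm T f := hs.smooth_f
lemma smh (b : Bool) : Sm T (hh w f b) := by
  cases b
  · exact hs.smooth_f
  · exact hs.smooth_w

lemma tder (b : Bool) (j : ℕ) : ∀ t ∈ Ico 0 T, ∀ x ∈ Icc (-1 : ℝ) 1,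
    HasDerivWithinAt (fun s => U (hh w f b) j s x) (Dn j (GG p w f b t) x) (Ico 0 T) t := by
  cases b
  · exact comm_Dn hs.smooth_f (k := fun t x => rhsF p (w t) (f t) x) hs.eq_f j
  · exact comm_Dn hs.smooth_w (k := fun t x => rhsW p (w t) (f t) x) hs.eq_w j

omit hs in
lemma memh (b : Bool) : Mem w f (hh w f b) := by
  cases b
  · exact Or.inr rfl
  · exact Or.inl rfl

lemma base (b : Bool) : ∃ R ∈ PP p w f 1, Exp p w f T (hh w f b) (GG p w f b) 1 R := by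
  cases b
  · exact base_f (smw hs) (smf hs)
  · exact base_w (smw hs) (smf hs)

end setup

/-- conclusion from the maximum principle -/
theorem concl {ι : Type*} [Finite ι] {T C : ℝ} (hT : 0 < T) (hC : 0 ≤ C)
    (h ht : ι → ℝ → ℝ → ℝ) (hsm : ∀ i, Sm T (h i))
    (hder : ∀ i, ∀ t ∈ Ico 0 T, ∀ x ∈ Icc (-1 : ℝ) 1,
      HasDerivWithinAt (fun s => h i s x) (ht i t x) (Ico 0 T) t)
    (hineq : ∀ i, ∀ t ∈ Ico 0 T, ∀ x ∈ Icc (-1 : ℝ) 1,
      (∀ j, ∀ y ∈ Icc (-1 : ℝ) 1, h j t y ≤ h i t x) → 0 ≤ h i t x →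
        ht i t x ≤ C * (1 + h i t x)) :
    ∃ M, 0 ≤ M ∧ ∀ i, ∀ t ∈ Ico 0 T, ∀ x ∈ Icc (-1 : ℝ) 1, h i t x ≤ M := by
  have h0T : (0 : ℝ) ∈ Ico 0 T := ⟨le_rfl, hT⟩
  have hb : ∀ i, ∃ m, ∀ x ∈ Icc (-1 : ℝ) 1, h i 0 x ≤ m := by
    intro i
    obtain ⟨m, hm⟩ := isCompact_Icc.exists_bound_of_continuousOn (slice (hsm i) h0T).cont
    exact ⟨m, fun x hx => (le_abs_self _).trans (hm x hx)⟩
  choose m hm using hb
  obtain ⟨M, hM⟩ := Finite.exists_le m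
  have key := maxp (M₀ := max 0 M) h ht (fun i => sm_cont (hsm i)) hder hC (le_max_left _ _)
    (fun i x hx => (hm i x hx).trans ((hM i).trans (le_max_right _ _))) hineq
  refine ⟨(1 + max 0 M) * Real.exp ((C + 1) * T), by positivity, fun i t ht x hx => ?_⟩
  have h1 := key i t ht x hx
  have h2 : Real.exp ((C + 1) * t) ≤ Real.exp ((C + 1) * T) :=
    Real.exp_le_exp.2 (mul_le_mul_of_nonneg_left ht.2.le (by linarith only [hC]))
  have h3 : (1 + max 0 M) * Real.exp ((C + 1) * t) ≤ (1 + max 0 M) * Real.exp ((C + 1) * T) :=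
    mul_le_mul_of_nonneg_left h2 (by positivity)
  linarith only [h1, h3]

/-- first and second derivatives of `σ z + v² + g²` -/
lemma dxQ {z v g : ℝ → ℝ} (hz : Sx z) (hv : Sx v) (hg : Sx g) (σ : ℝ) :
    (∀ x ∈ Icc (-1 : ℝ) 1, dx (fun y => σ * z y + (v y * v y + g y * g y)) x =
      σ * dx z x + (2 * v x * dx v x + 2 * g x * dx g x)) ∧
    (∀ x ∈ Icc (-1 : ℝ) 1, dx (dx (fun y => σ * z y + (v y * v y + g y * g y))) x =
      σ * dx (dx z) x + (2 * (dx v x) ^ 2 + 2 * v x * dx (dx v) x + 2 * (dx g x) ^ 2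
        + 2 * g x * dx (dx g) x)) := by
  have h1 : ∀ x ∈ Icc (-1 : ℝ) 1, dx (fun y => σ * z y + (v y * v y + g y * g y)) x =
      σ * dx z x + (2 * v x * dx v x + 2 * g x * dx g x) := by
    intro x hx
    have e := ((hz.hasDeriv hx).const_mul σ).add
      (((hv.hasDeriv hx).mul (hv.hasDeriv hx)).add ((hg.hasDeriv hx).mul (hg.hasDeriv hx)))
    rw [show dx (fun y => σ * z y + (v y * v y + g y * g y)) x = _ from dx_of hx e]
    ring
  refine ⟨h1, fun x hx => ?_⟩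
  rw [dx_congr h1 hx]
  have e := ((hz.dx.hasDeriv hx).const_mul σ).add
      ((((hv.hasDeriv hx).const_mul 2).mul (hv.dx.hasDeriv hx)).add
        (((hg.hasDeriv hx).const_mul 2).mul (hg.dx.hasDeriv hx)))
  rw [show dx (fun y => σ * dx z y + (2 * v y * dx v y + 2 * g y * dx g y)) x = _ from dx_of hx e]
  ring

lemma alg_t3 {q r z σ : ℝ} (hσ : σ = 1 ∨ σ = -1) (hz : z = q ∨ z = r) :
    0 ≤ q ^ 2 + r ^ 2 + σ * (q * z) := by
  rcases hz with h | h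
  · subst h
    rcases hσ with h' | h'
    · subst h'; nlinarith only [sq_nonneg z, sq_nonneg r]
    · subst h'; nlinarith only [sq_nonneg r]
  · subst h
    rcases hσ with h' | h'
    · subst h'; nlinarith only [sq_nonneg (q + z), sq_nonneg q, sq_nonneg z]
    · subst h'; nlinarith only [sq_nonneg (q - z), sq_nonneg q, sq_nonneg z]

lemma alg_key {A ρ x v g q r z z2 z3 v2 g2 J α β γ δ R1 S1 σ e zt vt gt : ℝ}
    (hzt : zt = A * (ρ * z3 - e * x * z2) + (-4 * A * v - J) * ρ * z2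
      + (α * q + β * r + γ + δ * z - 2 * A * ρ * q * z))
    (hvt : vt = A * (ρ * v2 - (e - 2) * x * q) + (-2 * A * v - J) * ρ * q + R1)
    (hgt : gt = A * (ρ * g2 - (e - 2) * x * r) + (-2 * A * v - J) * ρ * r + S1) :
    σ * zt + (2 * v * vt + 2 * g * gt) =
      A * (ρ * (σ * z3 + (2 * q ^ 2 + 2 * v * v2 + 2 * r ^ 2 + 2 * g * g2))
        - e * x * (σ * z2 + (2 * v * q + 2 * g * r)))
      + (-4 * A * v - J) * (ρ * (σ * z2 + (2 * v * q + 2 * g * r)))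
      + (-(2 * (A * ρ * (q ^ 2 + r ^ 2 + σ * (q * z)))))
      + 4 * (A * x * (v * q + g * r)) + 4 * (A * v * ρ * (v * q + g * r))
      + σ * (α * q + β * r + γ + δ * z) + 2 * (v * R1 + g * S1) := by
  rw [hzt, hvt, hgt]; ring

/-- the algebraic inequality of the `C^2` step -/
lemma alg2 {A ρ x v g q r z z2 z3 v2 g2 J α β γ δ R1 S1 σ e Q B zt vt gt : ℝ}
    (hA : 0 ≤ A) (hρ : 0 ≤ ρ) (hρ1 : ρ ≤ 1) (hx : |x| ≤ 1) (hσ : σ = 1 ∨ σ = -1)
    (hz : z = q ∨ z = r)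
    (hAB : |A| ≤ B) (hv : |v| ≤ B) (hg : |g| ≤ B) (hα : |α| ≤ B) (hβ : |β| ≤ B) (hγ : |γ| ≤ B)
    (hδ : |δ| ≤ B) (hR : |R1| ≤ B) (hS : |S1| ≤ B)
    (hq : |q| ≤ Q) (hr : |r| ≤ Q)
    (sp1 : ρ * (σ * z3 + (2 * q ^ 2 + 2 * v * v2 + 2 * r ^ 2 + 2 * g * g2))
      - e * x * (σ * z2 + (2 * v * q + 2 * g * r)) ≤ 0)
    (sp2 : ρ * (σ * z2 + (2 * v * q + 2 * g * r)) = 0)
    (hzt : zt = A * (ρ * z3 - e * x * z2) + (-4 * A * v - J) * ρ * z2
      + (α * q + β * r + γ + δ * z - 2 * A * ρ * q * z))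
    (hvt : vt = A * (ρ * v2 - (e - 2) * x * q) + (-2 * A * v - J) * ρ * q + R1)
    (hgt : gt = A * (ρ * g2 - (e - 2) * x * r) + (-2 * A * v - J) * ρ * r + S1) :
    σ * zt + (2 * v * vt + 2 * g * gt) ≤
      (12 * B ^ 2 + 8 * B ^ 3 + 4 * B) * (1 + Q) := by
  have hB : 0 ≤ B := (abs_nonneg _).trans hAB
  have hQ : 0 ≤ Q := (abs_nonneg _).trans hq
  have hzQ : |z| ≤ Q := by rcases hz with h | h <;> rw [h] <;> assumption
  have hσ1 : |σ| ≤ 1 := by rcases hσ with h | h <;> rw [h] <;> simp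
  have hρ' : |ρ| ≤ 1 := by rw [abs_of_nonneg hρ]; exact hρ1
  have key := alg_key (g := g) (σ := σ) hzt hvt hgt
  have t1 : A * (ρ * (σ * z3 + (2 * q ^ 2 + 2 * v * v2 + 2 * r ^ 2 + 2 * g * g2))
        - e * x * (σ * z2 + (2 * v * q + 2 * g * r))) ≤ 0 :=
    mul_nonpos_of_nonneg_of_nonpos hA sp1
  have t3' : 0 ≤ A * ρ * (q ^ 2 + r ^ 2 + σ * (q * z)) :=
    mul_nonneg (mul_nonneg hA hρ) (alg_t3 hσ hz)
  have hvq : |v * q + g * r| ≤ 2 * (B * Q) := by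
    calc |v * q + g * r| ≤ |v * q| + |g * r| := abs_add_le _ _
      _ ≤ B * Q + B * Q := add_le_add (mulb hv hq) (mulb hg hr)
      _ = _ := by ring
  have t4 : A * x * (v * q + g * r) ≤ (B * 1) * (2 * (B * Q)) :=
    (le_abs_self _).trans (mulb (mulb hAB hx) hvq)
  have t5 : A * v * ρ * (v * q + g * r) ≤ (B * B * 1) * (2 * (B * Q)) :=
    (le_abs_self _).trans (mulb (mulb (mulb hAB hv) hρ') hvq)
  have t6 : σ * (α * q + β * r + γ + δ * z) ≤ 1 * (B * Q + B * Q + B + B * Q) := by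
    refine (le_abs_self _).trans (mulb hσ1 ?_)
    refine (abs_add_le _ _).trans (add_le_add ((abs_add_le _ _).trans (add_le_add
      ((abs_add_le _ _).trans (add_le_add (mulb hα hq) (mulb hβ hr))) hγ)) (mulb hδ hzQ))
  have t7 : v * R1 + g * S1 ≤ B * B + B * B :=
    (le_abs_self _).trans ((abs_add_le _ _).trans (add_le_add (mulb hv hR) (mulb hg hS)))
  rw [sp2, mul_zero] at key
  have hBQ : 0 ≤ B * Q := mul_nonneg hB hQ
  have hB2 : 0 ≤ B ^ 2 := by positivity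
  have hB3 : 0 ≤ B ^ 3 := by positivity
  have hB2Q := mul_nonneg hB2 hQ
  have hB3Q := mul_nonneg hB3 hQ
  have e4 : (B * 1) * (2 * (B * Q)) = 2 * (B ^ 2 * Q) := by ring
  have e5 : (B * B * 1) * (2 * (B * Q)) = 2 * (B ^ 3 * Q) := by ring
  have e7 : B * B + B * B = 2 * B ^ 2 := by ring
  have eR : (12 * B ^ 2 + 8 * B ^ 3 + 4 * B) * (1 + Q) = 12 * B ^ 2 + 8 * B ^ 3 + 4 * B
      + 12 * (B ^ 2 * Q) + 8 * (B ^ 3 * Q) + 4 * (B * Q) := by ring
  rw [e4] at t4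
  rw [e5] at t5
  rw [e7] at t7
  rw [eR]
  linarith only [hB, key, t1, t3', t4, t5, t6, t7, hBQ, hB2, hB3, hB2Q]

end

end Vale.Agent.P244.ST.Apr
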