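import Vale.Agent.P244.ST.L.AprBase

/-!
# P244-ST block L, a priori estimates: the maximum principle
-/

open Set Filter
open scoped ContDiff Topology

namespace Vale.Agent.P244.ST.Apr

/-- Laplacian with a real dimension parameter. -/
noncomputable def lapR (e : ℝ) (h : ℝ → ℝ) (x : ℝ) : ℝ :=
  (1 - x ^ 2) * dx (dx h) x - e * x * dx h x

lemma deriv_nonneg_of_max_left {k : ℝ → ℝ} {k' t : ℝ} {s : Set ℝ}
    (hk : HasDerivWithinAt k k' s t) {t0 : ℝ} (h0 : t0 < t) (hs : Ico t0 t ⊆ s)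
    (hmax : ∀ r ∈ Ico t0 t, k r ≤ k t) : 0 ≤ k' := by
  have h1 : HasDerivWithinAt k k' (Ico t0 t) t := hk.mono hs
  rw [hasDerivWithinAt_iff_tendsto_slope' (by simp)] at h1
  have : (𝓝[Ico t0 t] t).NeBot := by
    rw [← mem_closure_iff_nhdsWithin_neBot, closure_Ico h0.ne]
    exact ⟨h0.le, le_rfl⟩
  refine ge_of_tendsto h1 ?_
  filter_upwards [self_mem_nhdsWithin] with r hr
  rw [slope_def_field]
  exact div_nonneg_of_nonpos (by linarith only [hmax, hr, hmax r hr]) (by linarith only [hr, hr.2])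

lemma deriv_nonpos_of_max_right {k : ℝ → ℝ} {k' t : ℝ} {s : Set ℝ}
    (hk : HasDerivWithinAt k k' s t) {t0 : ℝ} (h0 : t < t0) (hs : Ioc t t0 ⊆ s)
    (hmax : ∀ r ∈ Ioc t t0, k r ≤ k t) : k' ≤ 0 := by
  have h1 : HasDerivWithinAt k k' (Ioc t t0) t := hk.mono hs
  rw [hasDerivWithinAt_iff_tendsto_slope' (by simp)] at h1
  have : (𝓝[Ioc t t0] t).NeBot := by
    rw [← mem_closure_iff_nhdsWithin_neBot, closure_Ioc h0.ne]
    exact ⟨le_rfl, h0.le⟩
  refine le_of_tendsto h1 ?_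
  filter_upwards [self_mem_nhdsWithin] with r hr
  rw [slope_def_field]
  exact div_nonpos_of_nonpos_of_nonneg (by linarith only [hmax, hr, hmax r hr]) (by linarith only [hr, hr.1])

/-- spatial maximum on `[-1,1]` -/
theorem spatial {h : ℝ → ℝ} (hh : Sx h) {x : ℝ} (hx : x ∈ Icc (-1 : ℝ) 1)
    (hmax : ∀ y ∈ Icc (-1 : ℝ) 1, h y ≤ h x) {e : ℝ} (he : 0 ≤ e) :
    lapR e h x ≤ 0 ∧ (1 - x ^ 2) * dx h x = 0 := by
  have hd := hh.hasDeriv hx
  rcases eq_or_lt_of_le hx.1 with h1 | h1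
  · -- x = -1
    subst h1
    have hle : dx h (-1) ≤ 0 := deriv_nonpos_of_max_right hd (t0 := 1) (by norm_num)
      (fun r hr => ⟨hr.1.le, hr.2⟩) (fun r hr => hmax r ⟨hr.1.le, hr.2⟩)
    refine ⟨?_, by norm_num⟩
    unfold lapR
    nlinarith only [he, hle]
  rcases eq_or_lt_of_le hx.2 with h2 | h2
  · subst h2
    have hle : 0 ≤ dx h 1 := deriv_nonneg_of_max_left hd (t0 := -1) (by norm_num)
      (fun r hr => ⟨hr.1, hr.2.le⟩) (fun r hr => hmax r ⟨hr.1, hr.2.le⟩)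
    refine ⟨?_, by norm_num⟩
    unfold lapR
    nlinarith only [he, hle]
  · have hle : dx h x ≤ 0 := deriv_nonpos_of_max_right hd (t0 := 1) h2
      (fun r hr => ⟨h1.le.trans hr.1.le, hr.2⟩) (fun r hr => hmax r ⟨h1.le.trans hr.1.le, hr.2⟩)
    have hge : 0 ≤ dx h x := deriv_nonneg_of_max_left hd (t0 := -1) h1
      (fun r hr => ⟨hr.1, hr.2.le.trans h2.le⟩) (fun r hr => hmax r ⟨hr.1, hr.2.le.trans h2.le⟩)
    have h0 : dx h x = 0 := le_antisymm hle hge
    have hsec : dx (dx h) x ≤ 0 := by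
      by_contra hcon
      push Not at hcon
      -- then `dx h > 0` right of `x`, so `h` increases
      have hdd := (hh.dx).hasDeriv hx
      have h3 : HasDerivWithinAt (dx h) (dx (dx h) x) (Ioc x 1) x :=
        hdd.mono (fun r hr => ⟨h1.le.trans hr.1.le, hr.2⟩)
      rw [hasDerivWithinAt_iff_tendsto_slope' (by simp)] at h3
      have h4 : ∀ᶠ r in 𝓝[Ioc x 1] x, 0 < slope (dx h) x r := h3.eventually (lt_mem_nhds hcon)
      rw [eventually_nhdsWithin_iff, Metric.eventually_nhds_iff] at h4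
      obtain ⟨δ, hδ, h4⟩ := h4
      set y := min 1 (x + δ / 2) with hy
      have hxy : x < y := lt_min h2 (by linarith only [hδ])
      have hpos : ∀ r ∈ Ioo x y, 0 < dx h r := by
        intro r hr
        have hr1 : r ≤ 1 := hr.2.le.trans (min_le_left _ _)
        have hr2 : r < x + δ / 2 := hr.2.trans_le (min_le_right _ _)
        have := h4 (y := r) (by rw [Real.dist_eq, abs_of_pos (by linarith only [hr, hr.1])]; linarith only [hδ, hr2])
          ⟨hr.1, hr1⟩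
        rw [slope_def_field, h0, sub_zero] at this
        have hrx : 0 < r - x := by linarith only [hr, hr.1]
        exact (div_pos_iff_of_pos_right hrx).1 this
      have hcont : ContinuousOn h (Icc x y) := hh.cont.mono
        (fun r hr => ⟨h1.le.trans hr.1, hr.2.trans (min_le_left _ _)⟩)
      have hmono : StrictMonoOn h (Icc x y) := by
        apply strictMonoOn_of_deriv_pos (convex_Icc x y) hcont
        intro r hr
        rw [interior_Icc] at hr
        have hr1 : r < 1 := hr.2.trans_le (min_le_left _ _)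
        have hrI : Icc (-1 : ℝ) 1 ∈ 𝓝 r := Icc_mem_nhds (h1.trans hr.1) hr1
        have : deriv h r = dx h r := (derivWithin_of_mem_nhds hrI).symm
        rw [this]
        exact hpos r hr
      have := hmono ⟨le_rfl, hxy.le⟩ ⟨hxy.le, le_rfl⟩ hxy
      have := hmax y ⟨h1.le.trans hxy.le, min_le_left _ _⟩
      linarith
    refine ⟨?_, by rw [h0, mul_zero]⟩
    unfold lapR
    rw [h0, mul_zero, sub_zero]
    have : 0 ≤ 1 - x ^ 2 := by nlinarith only [h1, h2]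
    exact mul_nonpos_of_nonneg_of_nonpos this hsec

/-- MAXIMUM PRINCIPLE for a finite family: if at every common maximum (over the index and `x`)
with nonnegative value the time derivative is at most `C(1+h)`, then `h` is bounded. -/
theorem maxp {ι : Type*} [Finite ι] {T C M₀ : ℝ} (h ht : ι → ℝ → ℝ → ℝ)
    (hcont : ∀ i, ContinuousOn (fun z : ℝ × ℝ => h i z.1 z.2) (Ico 0 T ×ˢ Icc (-1) 1))
    (hder : ∀ i, ∀ t ∈ Ico 0 T, ∀ x ∈ Icc (-1 : ℝ) 1,
      HasDerivWithinAt (fun s => h i s x) (ht i t x) (Ico 0 T) t)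
    (hC : 0 ≤ C) (hM : 0 ≤ M₀) (h0 : ∀ i, ∀ x ∈ Icc (-1 : ℝ) 1, h i 0 x ≤ M₀)
    (hineq : ∀ i, ∀ t ∈ Ico 0 T, ∀ x ∈ Icc (-1 : ℝ) 1,
      (∀ j, ∀ y ∈ Icc (-1 : ℝ) 1, h j t y ≤ h i t x) → 0 ≤ h i t x →
        ht i t x ≤ C * (1 + h i t x)) :
    ∀ i, ∀ t ∈ Ico 0 T, ∀ x ∈ Icc (-1 : ℝ) 1,
      1 + h i t x ≤ (1 + M₀) * Real.exp ((C + 1) * t) := by
  intro i₁ t₁ ht₁ x₁ hx₁
  by_contra hcon
  push Not at hcon
  have hne : (Icc (0 : ℝ) t₁ ×ˢ Icc (-1 : ℝ) 1).Nonempty := ⟨(0, 0), ⟨le_rfl, ht₁.1⟩, by norm_num,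
    by norm_num⟩
  have hcomp : IsCompact (Icc (0 : ℝ) t₁ ×ˢ Icc (-1 : ℝ) 1) := isCompact_Icc.prod isCompact_Icc
  have hsub : Icc (0 : ℝ) t₁ ×ˢ Icc (-1 : ℝ) 1 ⊆ Ico 0 T ×ˢ Icc (-1) 1 :=
    prod_mono (fun s hs => ⟨hs.1, hs.2.trans_lt ht₁.2⟩) subset_rfl
  set k : ι → ℝ × ℝ → ℝ := fun i z => (1 + h i z.1 z.2) * Real.exp (-((C + 1) * z.1)) with hk
  have kcont : ∀ i, ContinuousOn (k i) (Icc (0 : ℝ) t₁ ×ˢ Icc (-1 : ℝ) 1) := by
    intro i
    exact (continuousOn_const.add ((hcont i).mono hsub)).mul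
      (by fun_prop)
  have hex : ∀ i, ∃ z ∈ Icc (0 : ℝ) t₁ ×ˢ Icc (-1 : ℝ) 1,
      IsMaxOn (k i) (Icc (0 : ℝ) t₁ ×ˢ Icc (-1 : ℝ) 1) z :=
    fun i => hcomp.exists_isMaxOn hne (kcont i)
  choose z hz hzm using hex
  have : Nonempty ι := ⟨i₁⟩
  obtain ⟨i, hi⟩ := Finite.exists_max (fun i => k i (z i))
  -- the common maximum
  have hall : ∀ j, ∀ y ∈ Icc (0 : ℝ) t₁ ×ˢ Icc (-1 : ℝ) 1, k j y ≤ k i (z i) :=
    fun j y hy => ((hzm j) hy).trans (hi j)
  obtain ⟨⟨ts, xs⟩, hts⟩ : ∃ q, q = z i := ⟨_, rfl⟩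
  have hzi := hz i
  rw [← hts] at hall hzi
  have hbig : 1 + M₀ < k i (ts, xs) := by
    have h2 := hall i₁ (t₁, x₁) ⟨⟨ht₁.1, le_rfl⟩, hx₁⟩
    have h3 : 1 + M₀ < k i₁ (t₁, x₁) := by
      simp only [hk]
      rw [Real.exp_neg, ← div_eq_mul_inv, lt_div_iff₀ (Real.exp_pos _)]
      exact hcon
    linarith only [h2, h3]
  have htspos : 0 < ts := by
    rcases eq_or_lt_of_le hzi.1.1 with h2 | h2
    · exfalso
      rw [show ts = 0 from h2.symm] at hbig
      simp only [hk, mul_zero, neg_zero, Real.exp_zero, mul_one] at hbig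
      have := h0 i xs hzi.2
      linarith only [hbig, this]
    · exact h2
  have htsT : ts ∈ Ico 0 T := ⟨htspos.le, (hzi.1.2).trans_lt ht₁.2⟩
  have hexp := Real.exp_pos (-((C + 1) * ts))
  have hmaxt : ∀ j, ∀ y ∈ Icc (-1 : ℝ) 1, h j ts y ≤ h i ts xs := by
    intro j y hy
    have h2 := hall j (ts, y) ⟨hzi.1, hy⟩
    simp only [hk] at h2
    have := le_of_mul_le_mul_right h2 hexp
    linarith only [this]
  have hpos : 0 ≤ h i ts xs := by
    have h5 : 1 ≤ Real.exp ((C + 1) * ts) := Real.one_le_exp (by positivity)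
    simp only [hk] at hbig
    rw [Real.exp_neg, ← div_eq_mul_inv, lt_div_iff₀ (Real.exp_pos _)] at hbig
    nlinarith only [hM, h5, hbig]
  have hle := hineq i ts htsT xs hzi.2 hmaxt hpos
  have hd : HasDerivWithinAt (fun s => k i (s, xs))
      (ht i ts xs * Real.exp (-((C + 1) * ts)) +
        (1 + h i ts xs) * (Real.exp (-((C + 1) * ts)) * (-((C + 1) * 1)))) (Ico 0 T) ts := by
    have e1 : HasDerivWithinAt (fun s : ℝ => 1 + h i s xs) (ht i ts xs) (Ico 0 T) ts := by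
      simpa using (hder i ts htsT xs hzi.2).const_add 1
    have e2 : HasDerivWithinAt (fun s : ℝ => Real.exp (-((C + 1) * s)))
        (Real.exp (-((C + 1) * ts)) * (-((C + 1) * 1))) (Ico 0 T) ts :=
      (((hasDerivWithinAt_id ts _).const_mul (C + 1)).neg).exp
    exact e1.mul e2
  have hge := deriv_nonneg_of_max_left hd (t0 := 0) htspos
    (fun r hr => ⟨hr.1, hr.2.trans htsT.2⟩)
    (fun r hr => hall i (r, xs) ⟨⟨hr.1, hr.2.le.trans hzi.1.2⟩, hzi.2⟩)
  have : (ht i ts xs - (C + 1) * (1 + h i ts xs)) * Real.exp (-((C + 1) * ts)) < 0 :=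
    mul_neg_of_neg_of_pos (by linarith only [hpos, hle]) hexp
  nlinarith only [hge, this]

end Vale.Agent.P244.ST.Apr
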