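import Vale.Agent.P244.ST.L.Drift

/-!
# P244-ST block L-C : linear estimate for the implicit step, at every order
-/

open Set Filter Topology

namespace Vale.Agent.P244.ST.L

/-- `|D^i u| ≤ A` on `[-1,1]` for all `i ≤ m`. -/
def Ub (m : ℕ) (A : ℝ) (u : ℕ → ℝ → ℝ) : Prop := ∀ i ≤ m, ∀ x ∈ II, |u i x| ≤ A

theorem Ub.mono {m m' : ℕ} {A A' : ℝ} {u : ℕ → ℝ → ℝ} (h : Ub m A u) (hm : m' ≤ m) (hA : A ≤ A') :
    Ub m' A' u := fun i hi x hx => (h i (hi.trans hm) x hx).trans hA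

/-- `D^m ((1-x²) W')`. -/
def drJ (W : ℕ → ℝ → ℝ) (m : ℕ) (x : ℝ) : ℝ :=
  (1 - x ^ 2) * W (m + 1) x - 2 * m * x * W m x - (m : ℝ) * ((m : ℝ) - 1) * W (m - 1) x

theorem jet_drJ {W : ℕ → ℝ → ℝ} (hW : Jet W) : Jet (drJ W) := by
  intro j x hx
  have hid : HasDerivWithinAt (fun y : ℝ => y) 1 II x := hasDerivWithinAt_id _ _
  have hq : HasDerivWithinAt (fun y : ℝ => 1 - y ^ 2) (-(2 * x)) II x := by
    have := (hid.pow 2).const_sub 1
    simpa using this
  have hl : HasDerivWithinAt (fun y : ℝ => 2 * (j : ℝ) * y) (2 * j) II x := by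
    simpa using hid.const_mul (2 * (j : ℝ))
  have h1 := hW (j + 1) x hx
  have h2 := hW j x hx
  rcases Nat.eq_zero_or_pos j with h0 | h0
  · subst h0
    have := (hq.mul h1).sub (hl.mul h2)
    unfold drJ
    have h3 : HasDerivWithinAt (fun x : ℝ => (((0 : ℕ) : ℝ)) * (((0 : ℕ) : ℝ) - 1) * W (0 - 1) x) 0 II x := by
      simpa using hasDerivWithinAt_const x II (0 : ℝ)
    refine ((this.sub h3).congr_deriv ?_)
    push_cast
    ring
  · obtain ⟨k, rfl⟩ : ∃ k, j = k + 1 := ⟨j - 1, by omega⟩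
    have h3 := (hW k x hx).const_mul (((k + 1 : ℕ) : ℝ) * (((k + 1 : ℕ) : ℝ) - 1))
    have := ((hq.mul h1).sub (hl.mul h2)).sub h3
    refine (this.congr_deriv ?_)
    unfold drJ
    simp only [Nat.add_sub_cancel]
    push_cast
    ring

/-- constants of the linear estimate -/
noncomputable def cL (d : ℝ) (j : ℕ) : ℝ :=
  2 ^ j * ((1 + (d + 2 * j) + (j * d + (j : ℝ) ^ 2)) + (1 + 2 * j + (j : ℝ) ^ 2))

theorem cL_nonneg {d : ℝ} (hd : 0 ≤ d) (j : ℕ) : 0 ≤ cL d j := by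
  unfold cL; positivity

theorem sum_choose_le {j : ℕ} {t : ℕ → ℝ} {c : ℝ} (ht : ∀ i ≤ j, t i ≤ c) :
    ∑ i ∈ Finset.range (j + 1), (j.choose i : ℝ) * t i ≤ 2 ^ j * c := by
  calc ∑ i ∈ Finset.range (j + 1), (j.choose i : ℝ) * t i
      ≤ ∑ i ∈ Finset.range (j + 1), (j.choose i : ℝ) * c :=
        Finset.sum_le_sum fun i hi => mul_le_mul_of_nonneg_left
          (ht i (by have := Finset.mem_range.1 hi; omega)) (Nat.cast_nonneg _)
    _ = 2 ^ j * c := by
        rw [← Finset.sum_mul]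
        congr 1
        exact_mod_cast Nat.sum_range_choose j

theorem mm1 {m j : ℕ} (h : m ≤ j) :
    0 ≤ (m : ℝ) * ((m : ℝ) - 1) ∧ (m : ℝ) * ((m : ℝ) - 1) ≤ (j : ℝ) ^ 2 := by
  have hmj : (m : ℝ) ≤ j := by exact_mod_cast h
  have hm0 : (0 : ℝ) ≤ m := Nat.cast_nonneg _
  refine ⟨?_, by nlinarith only [hmj]⟩
  rcases Nat.eq_zero_or_pos m with h0 | h0
  · subst h0; simp
  · have : (1 : ℝ) ≤ m := by exact_mod_cast h0
    exact mul_nonneg hm0 (by linarith only [this])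

private theorem lin_upper {d h M G : ℝ} (hd : 0 ≤ d) (hh : 0 ≤ h) (j : ℕ) {a b g W : ℕ → ℝ → ℝ}
    (ha : Jet a) (hb : Jet b) (hg : Jet g) (hW : Jet W) (hpos : ∀ x ∈ II, 0 ≤ a 0 x)
    (he : ∀ x ∈ II, W 0 x - h * (a 0 x * lapJ d W 0 x + (1 - x ^ 2) * b 0 x * W 1 x) = g 0 x)
    (hG : ∀ x ∈ II, |g j x| ≤ G) (hM0 : 0 ≤ M)
    (hA : ∀ k, 1 ≤ k → k ≤ j → ∀ l ≤ j, l + k ≤ j + 2 → ∀ x ∈ II, |a k x| * |W l x| ≤ M)
    (hB : ∀ k ≤ j, ∀ l ≤ j, l + k ≤ j + 1 → ∀ x ∈ II, |b k x| * |W l x| ≤ M) :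
    ∀ x ∈ II, W j x ≤ G + h * (cL d j * M) := by
  have hE : Jet (fun j x => W j x - h * (jmul a (lapJ d W) j x + jmul b (drJ W) j x)) :=
    hW.sub (((ha.mul (hW.lap d)).add (hb.mul (jet_drJ hW))).smul h)
  have hEj := hE.unique hg (fun x hx => by
    rw [← he x hx]
    simp only [jmul_zero, drJ]
    push_cast
    ring) j
  have hG0 : 0 ≤ G := (abs_nonneg _).trans (hG 0 zero_mem_II)
  have hc0 := cL_nonneg hd j
  refine le_of_max (fun x hx => hW j x hx) (fun x hx => hW (j + 1) x hx) ?_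
  intro x0 hx0 _ e1 e2
  rcases le_or_gt (W j x0) 0 with hneg | hWpos
  · exact hneg.trans (by positivity)
  have hx1 : |x0| ≤ 1 := abs_le.2 hx0
  have hq0 : 0 ≤ 1 - x0 ^ 2 := by nlinarith only [hx0, hx0.1, hx0.2]
  have hq1 : |1 - x0 ^ 2| ≤ 1 := by rw [abs_of_nonneg hq0]; nlinarith only [sq_nonneg x0]
  have hSa : jmul a (lapJ d W) j x0 ≤ 2 ^ j * ((1 + (d + 2 * j) + (j * d + (j : ℝ) ^ 2)) * M) := by
    have : jmul a (lapJ d W) j x0
        = ∑ i ∈ Finset.range (j + 1), (j.choose i : ℝ) * (a i x0 * lapJ d W (j - i) x0) := by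
      unfold jmul; exact Finset.sum_congr rfl fun i _ => by ring
    rw [this]
    refine sum_choose_le fun i hi => ?_
    rcases Nat.eq_zero_or_pos i with h0 | h0
    · subst h0
      have hl : lapJ d W (j - 0) x0 ≤ 0 := by
        rw [Nat.sub_zero]
        unfold lapJ
        have := e2 (d + 2 * j) (by positivity)
        have h3 : 0 ≤ ((j : ℝ) * d + (j : ℝ) * ((j : ℝ) - 1)) * W j x0 := by
          refine mul_nonneg ?_ hWpos.le
          have h1 : 0 ≤ (j : ℝ) * d := by positivity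
          have h2 := (mm1 (le_refl j)).1
          linarith only [h1, h2]
        linarith only [this, h3]
      exact (mul_nonpos_of_nonneg_of_nonpos (hpos x0 hx0) hl).trans (by positivity)
    · refine (le_abs_self _).trans ?_
      rw [abs_mul]
      have hji : ((j - i : ℕ) : ℝ) ≤ j := by exact_mod_cast Nat.sub_le _ _
      have hji0 : (0 : ℝ) ≤ ((j - i : ℕ) : ℝ) := Nat.cast_nonneg _
      have t1 : |a i x0| * |(1 - x0 ^ 2) * W (j - i + 2) x0| ≤ M := by
        rcases Nat.lt_or_ge 1 i with h1 | h1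
        · rw [abs_mul]
          have := hA i h0 hi (j - i + 2) (by omega) (by omega) x0 hx0
          calc |a i x0| * (|1 - x0 ^ 2| * |W (j - i + 2) x0|)
              = |1 - x0 ^ 2| * (|a i x0| * |W (j - i + 2) x0|) := by ring
            _ ≤ 1 * M := mul_le_mul hq1 this (by positivity) zero_le_one
            _ = M := one_mul _
        · obtain rfl : i = 1 := by omega
          rw [show j - 1 + 2 = j + 1 by omega, e1, abs_zero, mul_zero]
          exact hM0
      have t2 : |a i x0| * |W (j - i + 1) x0| ≤ M :=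
        hA i h0 hi (j - i + 1) (by omega) (by omega) x0 hx0
      have t3 : |a i x0| * |W (j - i) x0| ≤ M :=
        hA i h0 hi (j - i) (by omega) (by omega) x0 hx0
      have hlap : |lapJ d W (j - i) x0| ≤ |(1 - x0 ^ 2) * W (j - i + 2) x0|
          + (d + 2 * j) * |W (j - i + 1) x0| + (j * d + (j : ℝ) ^ 2) * |W (j - i) x0| := by
        unfold lapJ
        refine (abs_sub _ _).trans (add_le_add ((abs_sub _ _).trans (add_le_add le_rfl ?_)) ?_)
        · rw [abs_mul, abs_mul, abs_of_nonneg (show 0 ≤ d + 2 * ((j - i : ℕ) : ℝ) by positivity)]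
          refine mul_le_mul_of_nonneg_right ?_ (abs_nonneg _)
          calc (d + 2 * ((j - i : ℕ) : ℝ)) * |x0| ≤ (d + 2 * ((j - i : ℕ) : ℝ)) * 1 :=
                mul_le_mul_of_nonneg_left hx1 (by positivity)
            _ ≤ d + 2 * j := by linarith only [hji]
        · rw [abs_mul]
          refine mul_le_mul_of_nonneg_right ?_ (abs_nonneg _)
          have hm1 := mm1 (Nat.sub_le j i)
          have hm2 := mul_le_mul_of_nonneg_right hji hd
          have hm3 := mul_nonneg hji0 hd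
          rw [abs_of_nonneg (by linarith only [hm1, hm3, hm1.1])]
          linarith only [hm1, hm2, hm1.2]
      calc |a i x0| * |lapJ d W (j - i) x0|
          ≤ |a i x0| * (|(1 - x0 ^ 2) * W (j - i + 2) x0|
          + (d + 2 * j) * |W (j - i + 1) x0| + (j * d + (j : ℝ) ^ 2) * |W (j - i) x0|) :=
            mul_le_mul_of_nonneg_left hlap (abs_nonneg _)
        _ = |a i x0| * |(1 - x0 ^ 2) * W (j - i + 2) x0|
            + (d + 2 * j) * (|a i x0| * |W (j - i + 1) x0|)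
            + (j * d + (j : ℝ) ^ 2) * (|a i x0| * |W (j - i) x0|) := by ring
        _ ≤ M + (d + 2 * j) * M + (j * d + (j : ℝ) ^ 2) * M := by gcongr
        _ = (1 + (d + 2 * j) + (j * d + (j : ℝ) ^ 2)) * M := by ring
  have hSb : jmul b (drJ W) j x0 ≤ 2 ^ j * ((1 + 2 * j + (j : ℝ) ^ 2) * M) := by
    have : jmul b (drJ W) j x0
        = ∑ i ∈ Finset.range (j + 1), (j.choose i : ℝ) * (b i x0 * drJ W (j - i) x0) := by
      unfold jmul; exact Finset.sum_congr rfl fun i _ => by ring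
    rw [this]
    refine sum_choose_le fun i hi => ?_
    refine (le_abs_self _).trans ?_
    rw [abs_mul]
    have hji : ((j - i : ℕ) : ℝ) ≤ j := by exact_mod_cast Nat.sub_le _ _
    have hji0 : (0 : ℝ) ≤ ((j - i : ℕ) : ℝ) := Nat.cast_nonneg _
    have t1 : |b i x0| * |(1 - x0 ^ 2) * W (j - i + 1) x0| ≤ M := by
      rcases Nat.eq_zero_or_pos i with h1 | h1
      · subst h1
        rw [show j - 0 + 1 = j + 1 by omega, e1, abs_zero, mul_zero]
        exact hM0
      · rw [abs_mul]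
        have := hB i hi (j - i + 1) (by omega) (by omega) x0 hx0
        calc |b i x0| * (|1 - x0 ^ 2| * |W (j - i + 1) x0|)
            = |1 - x0 ^ 2| * (|b i x0| * |W (j - i + 1) x0|) := by ring
          _ ≤ 1 * M := mul_le_mul hq1 this (by positivity) zero_le_one
          _ = M := one_mul _
    have t2 : |b i x0| * |W (j - i) x0| ≤ M := hB i hi (j - i) (by omega) (by omega) x0 hx0
    have t3 : |b i x0| * |W (j - i - 1) x0| ≤ M :=
      hB i hi (j - i - 1) (by omega) (by omega) x0 hx0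
    have hdr : |drJ W (j - i) x0| ≤ |(1 - x0 ^ 2) * W (j - i + 1) x0|
        + 2 * j * |W (j - i) x0| + (j : ℝ) ^ 2 * |W (j - i - 1) x0| := by
      unfold drJ
      refine (abs_sub _ _).trans (add_le_add ((abs_sub _ _).trans (add_le_add le_rfl ?_)) ?_)
      · rw [abs_mul, abs_mul, abs_of_nonneg (show 0 ≤ 2 * ((j - i : ℕ) : ℝ) by positivity)]
        refine mul_le_mul_of_nonneg_right ?_ (abs_nonneg _)
        calc (2 * ((j - i : ℕ) : ℝ)) * |x0| ≤ (2 * ((j - i : ℕ) : ℝ)) * 1 :=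
              mul_le_mul_of_nonneg_left hx1 (by positivity)
          _ ≤ 2 * j := by linarith only [hji]
      · rw [abs_mul]
        refine mul_le_mul_of_nonneg_right ?_ (abs_nonneg _)
        have hm1 := mm1 (Nat.sub_le j i)
        rw [abs_of_nonneg hm1.1]
        exact hm1.2
    calc |b i x0| * |drJ W (j - i) x0|
        ≤ |b i x0| * (|(1 - x0 ^ 2) * W (j - i + 1) x0|
        + 2 * j * |W (j - i) x0| + (j : ℝ) ^ 2 * |W (j - i - 1) x0|) :=
          mul_le_mul_of_nonneg_left hdr (abs_nonneg _)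
      _ = |b i x0| * |(1 - x0 ^ 2) * W (j - i + 1) x0|
          + 2 * j * (|b i x0| * |W (j - i) x0|)
          + (j : ℝ) ^ 2 * (|b i x0| * |W (j - i - 1) x0|) := by ring
      _ ≤ M + 2 * j * M + (j : ℝ) ^ 2 * M := by gcongr
      _ = (1 + 2 * j + (j : ℝ) ^ 2) * M := by ring
  have h1 := hEj x0 hx0
  have h2 := (abs_le.1 (hG x0 hx0)).2
  have h3 : h * (jmul a (lapJ d W) j x0 + jmul b (drJ W) j x0) ≤ h * (cL d j * M) := by
    refine mul_le_mul_of_nonneg_left ?_ hh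
    unfold cL
    nlinarith only [hSa, hSb]
  linarith only [h1, h2, h3]

/-- The linear estimate for the implicit step at order `j`. -/
theorem lin_bound {d h M G : ℝ} (hd : 0 ≤ d) (hh : 0 ≤ h) (j : ℕ) {a b g W : ℕ → ℝ → ℝ}
    (ha : Jet a) (hb : Jet b) (hg : Jet g) (hW : Jet W) (hpos : ∀ x ∈ II, 0 ≤ a 0 x)
    (he : ∀ x ∈ II, W 0 x - h * (a 0 x * lapJ d W 0 x + (1 - x ^ 2) * b 0 x * W 1 x) = g 0 x)
    (hG : ∀ x ∈ II, |g j x| ≤ G) (hM0 : 0 ≤ M)
    (hA : ∀ k, 1 ≤ k → k ≤ j → ∀ l ≤ j, l + k ≤ j + 2 → ∀ x ∈ II, |a k x| * |W l x| ≤ M)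
    (hB : ∀ k ≤ j, ∀ l ≤ j, l + k ≤ j + 1 → ∀ x ∈ II, |b k x| * |W l x| ≤ M) :
    ∀ x ∈ II, |W j x| ≤ G + h * (cL d j * M) := by
  have h1 := lin_upper hd hh j ha hb hg hW hpos he hG hM0 hA hB
  have h2 := lin_upper (M := M) (G := G) hd hh j ha hb hg.neg hW.neg hpos (by
    intro x hx
    have := he x hx
    simp only [lapJ] at this ⊢
    linarith only [this]) (fun x hx => by rw [abs_neg]; exact hG x hx) hM0
    (fun k k1 k2 l l1 l2 x hx => by rw [abs_neg]; exact hA k k1 k2 l l1 l2 x hx)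
    (fun k k2 l l1 l2 x hx => by rw [abs_neg]; exact hB k k2 l l1 l2 x hx)
  intro x hx
  rw [abs_le]
  exact ⟨by have := h2 x hx; linarith only [this], h1 x hx⟩

end Vale.Agent.P244.ST.L
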