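import Vale.Agent.P244.ST.L.Disc1

/-!
# P244-ST block L-C : estimates of the coefficients at order `j`
-/

open Set Filter Topology
open scoped ContDiff

namespace Vale.Agent.P244.ST.L

/-- all orders `< j` bounded by `A`, order `j` bounded by `A (1 + th)`. -/
def Lev (j : ℕ) (th A : ℝ) (u : ℕ → ℝ → ℝ) : Prop :=
  (∀ i < j, ∀ x ∈ II, |u i x| ≤ A) ∧ ∀ x ∈ II, |u j x| ≤ A * (1 + th)

theorem Lev.le {j : ℕ} {th A : ℝ} {u : ℕ → ℝ → ℝ} (h : Lev j th A u) (hA : 0 ≤ A) (hth : 0 ≤ th)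
    {i : ℕ} (hi : i ≤ j) {x : ℝ} (hx : x ∈ II) : |u i x| ≤ A * (1 + th) := by
  rcases Nat.lt_or_ge i j with h1 | h1
  · exact (h.1 i h1 x hx).trans (by nlinarith only [hA, hth])
  · obtain rfl : i = j := le_antisymm hi h1
    exact h.2 x hx

theorem Lev.mono {j : ℕ} {th A B : ℝ} {u : ℕ → ℝ → ℝ} (h : Lev j th A u) (hth : 0 ≤ th)
    (hAB : A ≤ B) : Lev j th B u :=
  ⟨fun i hi x hx => (h.1 i hi x hx).trans hAB, fun x hx => (h.2 x hx).trans
    (mul_le_mul_of_nonneg_right hAB (by linarith only [hth]))⟩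

theorem lev_zero_iff {j : ℕ} {A : ℝ} {u : ℕ → ℝ → ℝ} : Lev j 0 A u ↔ Ub j A u := by
  constructor
  · intro h i hi x hx
    rcases Nat.lt_or_ge i j with h1 | h1
    · exact h.1 i h1 x hx
    · obtain rfl : i = j := le_antisymm hi h1
      simpa using h.2 x hx
  · intro h
    exact ⟨fun i hi x hx => h i hi.le x hx, fun x hx => by simpa using h j le_rfl x hx⟩

theorem Lev.add {j : ℕ} {th A B : ℝ} {u v : ℕ → ℝ → ℝ} (hu : Lev j th A u) (hv : Lev j th B v) :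
    Lev j th (A + B) (fun i x => u i x + v i x) :=
  ⟨fun i hi x hx => (abs_add_le _ _).trans (add_le_add (hu.1 i hi x hx) (hv.1 i hi x hx)),
    fun x hx => (abs_add_le _ _).trans (by rw [add_mul]; exact add_le_add (hu.2 x hx) (hv.2 x hx))⟩

theorem Lev.smul {j : ℕ} {th A : ℝ} {u : ℕ → ℝ → ℝ} (c : ℝ) (hu : Lev j th A u) :
    Lev j th (|c| * A) (fun i x => c * u i x) :=
  ⟨fun i hi x hx => by
      rw [abs_mul]; exact mul_le_mul_of_nonneg_left (hu.1 i hi x hx) (abs_nonneg _),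
    fun x hx => by
      rw [abs_mul, mul_assoc]; exact mul_le_mul_of_nonneg_left (hu.2 x hx) (abs_nonneg _)⟩

theorem Lev.neg {j : ℕ} {th A : ℝ} {u : ℕ → ℝ → ℝ} (hu : Lev j th A u) :
    Lev j th A (fun i x => - u i x) :=
  ⟨fun i hi x hx => by rw [abs_neg]; exact hu.1 i hi x hx,
    fun x hx => by rw [abs_neg]; exact hu.2 x hx⟩

theorem Lev.mul {j : ℕ} (hj : 1 ≤ j) {th A B : ℝ} (hA : 0 ≤ A) (hB : 0 ≤ B) (hth : 0 ≤ th)
    {u v : ℕ → ℝ → ℝ} (hu : Lev j th A u) (hv : Lev j th B v) :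
    Lev j th (2 ^ j * (A * B)) (jmul u v) := by
  refine ⟨fun i hi x hx => ?_, fun x hx => ?_⟩
  · refine (abs_jmul_le i hA (fun k hk => hu.1 k (lt_of_le_of_lt hk hi) x hx)
      (fun k hk => hv.1 k (lt_of_le_of_lt hk hi) x hx)).trans ?_
    exact mul_le_mul_of_nonneg_right (pow_le_pow_right₀ (by norm_num) hi.le) (by positivity)
  · have e : jmul u v j x = ∑ i ∈ Finset.range (j + 1), (j.choose i : ℝ) * (u i x * v (j - i) x) := by
      unfold jmul; exact Finset.sum_congr rfl fun i _ => by ring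
    rw [e, mul_assoc]
    refine (Finset.abs_sum_le_sum_abs _ _).trans ?_
    have : ∀ i ∈ Finset.range (j + 1), |(j.choose i : ℝ) * (u i x * v (j - i) x)|
        = (j.choose i : ℝ) * |u i x * v (j - i) x| := fun i _ => by rw [abs_mul, Nat.abs_cast]
    rw [Finset.sum_congr rfl this]
    refine sum_choose_le fun i hi => ?_
    rw [abs_mul]
    rcases Nat.lt_or_ge i j with h1 | h1
    · calc |u i x| * |v (j - i) x| ≤ A * (B * (1 + th)) :=
            mul_le_mul (hu.1 i h1 x hx) (hv.le hB hth (Nat.sub_le _ _) hx) (abs_nonneg _) hA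
        _ = A * B * (1 + th) := by ring
    · obtain rfl : i = j := le_antisymm hi h1
      rw [Nat.sub_self]
      calc |u i x| * |v 0 x| ≤ (A * (1 + th)) * B :=
            mul_le_mul (hu.2 x hx) (hv.1 0 (by omega) x hx) (abs_nonneg _) (by positivity)
        _ = A * B * (1 + th) := by ring

theorem Lev.shift {j : ℕ} {th A : ℝ} {u : ℕ → ℝ → ℝ} (hu : Lev (j + 1) th A u) :
    Lev j th A (fun i => u (i + 1)) :=
  ⟨fun i hi x hx => hu.1 (i + 1) (by omega) x hx, fun x hx => hu.2 x hx⟩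

theorem Lev.of_prim {j : ℕ} {th A : ℝ} {u v : ℕ → ℝ → ℝ} (hu : Lev j th A u)
    (h0 : ∀ x ∈ II, |v 0 x| ≤ A) (h1 : ∀ i, ∀ x ∈ II, v (i + 1) x = u i x) :
    Lev (j + 1) th A v := by
  refine ⟨fun i hi x hx => ?_, fun x hx => by rw [h1 j x hx]; exact hu.2 x hx⟩
  rcases Nat.eq_zero_or_pos i with h | h
  · subst h; exact h0 x hx
  · obtain ⟨k, rfl⟩ : ∃ k, i = k + 1 := ⟨i - 1, by omega⟩
    rw [h1 k x hx]; exact hu.1 k (by omega) x hx

/-- Recursion for the jet of `exp (c w)`. -/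
theorem exp_jet_succ {c : ℝ} {w E : ℕ → ℝ → ℝ} (hw : Jet w) (hE : Jet E)
    (hE0 : ∀ x ∈ II, E 0 x = Real.exp (c * w 0 x)) (j : ℕ) :
    ∀ x ∈ II, E (j + 1) x = jmul (fun i x => c * w (i + 1) x) E j x := by
  have h1 : Jet (fun i => E (i + 1)) := hE.shift 1
  have h2 : Jet (jmul (fun i x => c * w (i + 1) x) E) := ((hw.shift 1).smul c).mul hE
  refine h1.unique h2 (fun x hx => ?_) j
  rw [jmul_zero]
  have h3 : HasDerivWithinAt (fun y => Real.exp (c * w 0 y)) (E 1 x) II x :=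
    (hE 0 x hx).congr (fun y hy => (hE0 y hy).symm) (hE0 x hx).symm
  have h4 := ((hw 0 x hx).const_mul c).exp
  have := (uniqueDiffOn_II x hx).eq_deriv _ h3 h4
  rw [hE0 x hx]
  show E 1 x = _
  rw [this]; ring

theorem exp_ub (c A : ℝ) (hA : 0 ≤ A) (m : ℕ) : ∃ B : ℝ, 0 ≤ B ∧ ∀ w E : ℕ → ℝ → ℝ, Jet w → Jet E →
    (∀ x ∈ II, E 0 x = Real.exp (c * w 0 x)) → Ub m A w → Ub m B E := by
  induction m with
  | zero =>
    refine ⟨Real.exp (|c| * A), (Real.exp_pos _).le, ?_⟩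
    intro w E hw hE hE0 hub i hi x hx
    obtain rfl : i = 0 := by omega
    rw [hE0 x hx, abs_of_pos (Real.exp_pos _)]
    refine Real.exp_le_exp.2 ((le_abs_self _).trans ?_)
    rw [abs_mul]
    exact mul_le_mul_of_nonneg_left (hub 0 le_rfl x hx) (abs_nonneg _)
  | succ m ih =>
    obtain ⟨B, hB0, hB⟩ := ih
    refine ⟨max B (2 ^ m * (|c| * A * B)), le_max_of_le_left hB0, ?_⟩
    intro w E hw hE hE0 hub i hi x hx
    have hm := hB w E hw hE hE0 (hub.mono (Nat.le_succ m) le_rfl)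
    rcases Nat.lt_or_ge i (m + 1) with h | h
    · exact (hm i (by omega) x hx).trans (le_max_left _ _)
    · obtain rfl : i = m + 1 := by omega
      refine le_trans ?_ (le_max_right _ _)
      rw [exp_jet_succ hw hE hE0 m x hx]
      refine abs_jmul_le m (by positivity) (fun k hk => ?_) (fun k hk => hm k hk x hx)
      rw [abs_mul]
      exact mul_le_mul_of_nonneg_left (hub (k + 1) (by omega) x hx) (abs_nonneg _)

theorem exp_lev (c A : ℝ) (hA : 0 ≤ A) {j : ℕ} (hj : 1 ≤ j) : ∃ B : ℝ, 0 ≤ B ∧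
    ∀ w E : ℕ → ℝ → ℝ, Jet w → Jet E → (∀ x ∈ II, E 0 x = Real.exp (c * w 0 x)) →
    ∀ th, 0 ≤ th → Lev j th A w → Lev j th B E := by
  obtain ⟨m, rfl⟩ : ∃ m, j = m + 1 := ⟨j - 1, by omega⟩
  obtain ⟨B, hB0, hB⟩ := exp_ub c A hA m
  refine ⟨max B (2 ^ m * (|c| * A * B)), le_max_of_le_left hB0, ?_⟩
  intro w E hw hE hE0 th hth hlev
  have hm : Ub m B E := hB w E hw hE hE0 (fun i hi x hx => hlev.1 i (by omega) x hx)
  refine ⟨fun i hi x hx => (hm i (by omega) x hx).trans (le_max_left _ _), fun x hx => ?_⟩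
  refine le_trans ?_ (mul_le_mul_of_nonneg_right (le_max_right _ _) (by linarith only [hth]))
  rw [exp_jet_succ hw hE hE0 m x hx]
  have := abs_jmul_le (u := fun i x => c * w (i + 1) x) (v := E) (x := x)
    (A := |c| * A * (1 + th)) (B := B) m (by positivity) (fun k hk => by
      rw [abs_mul, mul_assoc]
      exact mul_le_mul_of_nonneg_left (hlev.le hA hth (i := k + 1) (by omega) hx) (abs_nonneg _))
    (fun k hk => hm k hk x hx)
  refine this.trans (le_of_eq ?_)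
  ring

/-- The nonlocal term, in terms of jets. -/
noncomputable def Jint (p : ℕ) (w f : ℕ → ℝ → ℝ) (x : ℝ) : ℝ :=
  ∫ y in (0 : ℝ)..x, Real.exp (-2 * w 0 y) * (((p : ℝ) - 1) * (w 1 y) ^ 2 + (p : ℝ) * (f 1 y) ^ 2)

/-- jet of the density of `Jint`, with `a` a jet of `exp (-2w)` -/
noncomputable def Jdj (p : ℕ) (a w f : ℕ → ℝ → ℝ) : ℕ → ℝ → ℝ :=
  jmul a (fun j x => ((p : ℝ) - 1) * jmul (fun i => w (i + 1)) (fun i => w (i + 1)) j x
    + (p : ℝ) * jmul (fun i => f (i + 1)) (fun i => f (i + 1)) j x)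

theorem jet_Jdj {p : ℕ} {a w f : ℕ → ℝ → ℝ} (ha : Jet a) (hw : Jet w) (hf : Jet f) :
    Jet (Jdj p a w f) :=
  ha.mul ((((hw.shift 1).mul (hw.shift 1)).smul _).add (((hf.shift 1).mul (hf.shift 1)).smul _))

theorem prim_Jdj_zero {p : ℕ} {a w f : ℕ → ℝ → ℝ} (ha0 : ∀ x ∈ II, a 0 x = Real.exp (-2 * w 0 x))
    {x : ℝ} (hx : x ∈ II) : prim (Jdj p a w f) 0 x = Jint p w f x := by
  unfold prim Jint
  refine intervalIntegral.integral_congr fun y hy => ?_
  have hyI : y ∈ II := by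
    have h1 : uIcc (0 : ℝ) x ⊆ II := convex_II.ordConnected.uIcc_subset zero_mem_II hx
    exact h1 hy
  show Jdj p a w f 0 (max (-1) (min 1 y)) = _
  rw [clamp_eq hyI]
  unfold Jdj
  simp only [jmul_zero]
  rw [ha0 y hyI]
  ring

theorem abs_Jint_le {p : ℕ} {a w f : ℕ → ℝ → ℝ}
    {A : ℝ} (hA0 : 0 ≤ A) (hA : ∀ x ∈ II, |Jdj p a w f 0 x| ≤ A) {x : ℝ} (hx : x ∈ II) :
    |prim (Jdj p a w f) 0 x| ≤ A := by
  have h1 : ∀ y ∈ uIoc (0 : ℝ) x, ‖Jdj p a w f 0 (max (-1) (min 1 y))‖ ≤ A := fun y _ =>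
    hA _ (clamp_mem y)
  have h2 := intervalIntegral.norm_integral_le_of_norm_le_const h1
  rw [Real.norm_eq_abs, sub_zero] at h2
  refine h2.trans ?_
  have : |x| ≤ 1 := abs_le.2 hx
  nlinarith only [hA0, this]

/-- Coefficient estimate. -/
theorem coef_lev (p : ℕ) {j : ℕ} (hj : 2 ≤ j) {A : ℝ} (hA : 1 ≤ A) : ∃ B : ℝ, 1 ≤ B ∧
    ∀ w f a e : ℕ → ℝ → ℝ, Jet w → Jet f → Jet a → Jet e →
    (∀ x ∈ II, a 0 x = Real.exp (-2 * w 0 x)) → (∀ x ∈ II, e 0 x = Real.exp (-2 * f 0 x)) →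
    ∀ th, 0 ≤ th → Lev j th A w → Lev j th A f →
    Lev j th B a ∧ Lev j th B e ∧ Lev j th B (prim (Jdj p a w f)) ∧
      ∀ x ∈ II, B⁻¹ ≤ a 0 x := by
  obtain ⟨B1, hB10, hB1⟩ := exp_lev (-2) A (by linarith only [hA]) (show 1 ≤ j by omega)
  obtain ⟨m, rfl⟩ : ∃ m, j = m + 1 := ⟨j - 1, by omega⟩
  have hm : 1 ≤ m := by omega
  set B2 : ℝ := |(p : ℝ) - 1| * (2 ^ m * (A * A)) + |(p : ℝ)| * (2 ^ m * (A * A)) with hB2
  have hB20 : 0 ≤ B2 := by positivity
  set B3 : ℝ := 2 ^ m * (B1 * B2) with hB3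
  have hB30 : 0 ≤ B3 := by positivity
  refine ⟨max (max B1 B3) (Real.exp (2 * A)), le_max_of_le_right (Real.one_le_exp (by linarith only [hA])), ?_⟩
  intro w f a e hw hf ha he ha0 he0 th hth hlw hlf
  have h1 := hB1 w a hw ha ha0 th hth hlw
  have h2 := hB1 f e hf he he0 th hth hlf
  have ha' : Lev m th B1 a := ⟨fun i hi x hx => h1.1 i (by omega) x hx, fun x hx =>
    (h1.1 m (by omega) x hx).trans (by nlinarith only [hB10, hth])⟩
  have h3 : Lev m th B3 (Jdj p a w f) := by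
    refine Lev.mul hm hB10 hB20 hth ha' ?_
    exact ((Lev.mul hm (by linarith only [hA]) (by linarith only [hA]) hth hlw.shift hlw.shift).smul _).add
      ((Lev.mul hm (by linarith only [hA]) (by linarith only [hA]) hth hlf.shift hlf.shift).smul _)
  have h4 : Lev (m + 1) th B3 (prim (Jdj p a w f)) := by
    refine Lev.of_prim h3 (fun x hx => ?_) (fun i x _ => rfl)
    exact abs_Jint_le hB30 (fun y hy => h3.1 0 (by omega) y hy) hx
  refine ⟨h1.mono hth ((le_max_left _ _).trans (le_max_left _ _)),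
    h2.mono hth ((le_max_left _ _).trans (le_max_left _ _)),
    h4.mono hth ((le_max_right _ _).trans (le_max_left _ _)), fun x hx => ?_⟩
  rw [ha0 x hx]
  have h5 : (max (max B1 B3) (Real.exp (2 * A)))⁻¹ ≤ (Real.exp (2 * A))⁻¹ :=
    inv_anti₀ (Real.exp_pos _) (le_max_right _ _)
  refine h5.trans ?_
  rw [← Real.exp_neg]
  refine Real.exp_le_exp.2 ?_
  have := (abs_le.1 (hlw.1 0 (by omega) x hx)).2
  linarith only [this]

end Vale.Agent.P244.ST.L
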