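import Vale.Agent.P244.ST.L.Poly

/-!
# P244-ST block L : the equation `u - h a Lap_d u = g` on jets
-/

open Set Filter Topology
open scoped ContDiff

namespace Vale.Agent.P244.ST.L

/-- The jet of `1/a`. -/
theorem exists_jet_inv {a : ℕ → ℝ → ℝ} (ha : Jet a) (hpos : ∀ x ∈ II, a 0 x ≠ 0) :
    ∃ A, Jet A ∧ ∀ x ∈ II, A 0 x = (a 0 x)⁻¹ := by
  refine ⟨_, jet_iteratedDerivWithin (ha.contDiffOn.inv hpos), fun x _ => by simp⟩

theorem exists_jet_of_contDiffOn {f : ℝ → ℝ} (hf : ContDiffOn ℝ ∞ f II) :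
    ∃ u, Jet u ∧ ∀ x ∈ II, u 0 x = f x :=
  ⟨_, jet_iteratedDerivWithin hf, fun x _ => by simp⟩

/-- Product bound with the top order term of the second factor isolated. -/
theorem abs_jmul_le' {u v : ℕ → ℝ → ℝ} {x A B M : ℝ} {a0 : ℝ} (j : ℕ) (hA : 0 ≤ A) (hB : 0 ≤ B)
    (hu : ∀ i ≤ j, |u i x| ≤ A) (hv : ∀ i < j, |v i x| ≤ B) (h0 : |u 0 x| ≤ a0)
    (hj : |v j x| ≤ M) : |jmul u v j x| ≤ a0 * M + 2 ^ j * (A * B) := by
  unfold jmul
  rw [Finset.sum_range_succ']
  have h1 : |∑ k ∈ Finset.range j, (j.choose (k + 1) : ℝ) * u (k + 1) x * v (j - (k + 1)) x|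
      ≤ 2 ^ j * (A * B) := by
    refine (Finset.abs_sum_le_sum_abs _ _).trans ?_
    calc ∑ k ∈ Finset.range j, |(j.choose (k + 1) : ℝ) * u (k + 1) x * v (j - (k + 1)) x|
        ≤ ∑ k ∈ Finset.range j, (j.choose (k + 1) : ℝ) * (A * B) := by
          refine Finset.sum_le_sum fun k hk => ?_
          have hk' : k < j := Finset.mem_range.1 hk
          rw [abs_mul, abs_mul, mul_assoc, Nat.abs_cast]
          exact mul_le_mul_of_nonneg_left (mul_le_mul (hu _ (by omega)) (hv _ (by omega))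
            (abs_nonneg _) hA) (Nat.cast_nonneg _)
      _ ≤ 2 ^ j * (A * B) := by
          rw [← Finset.sum_mul]
          refine mul_le_mul_of_nonneg_right ?_ (mul_nonneg hA hB)
          have h2 := Nat.sum_range_choose j
          rw [Finset.sum_range_succ'] at h2
          have h3 : (∑ k ∈ Finset.range j, j.choose (k + 1)) ≤ 2 ^ j := by omega
          exact_mod_cast h3
  refine (abs_add_le _ _).trans ?_
  rw [add_comm]
  refine add_le_add ?_ h1
  simp only [Nat.choose_zero_right, Nat.cast_one, one_mul, Nat.sub_zero]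
  rw [abs_mul]
  exact mul_le_mul h0 hj (abs_nonneg _) ((abs_nonneg _).trans h0)

theorem lapJ_sub (d : ℝ) (u v : ℕ → ℝ → ℝ) (j : ℕ) (x : ℝ) :
    lapJ d (fun j x => u j x - v j x) j x = lapJ d u j x - lapJ d v j x := by
  unfold lapJ; ring

/-- The elliptic equation with a variable coefficient. -/
theorem ell {d h : ℝ} (hd : 0 ≤ d) (hh : 0 ≤ h) {a g : ℕ → ℝ → ℝ} (ha : Jet a)
    (hpos : ∀ x ∈ II, 0 < a 0 x) (hg : Jet g) :
    ∃ u, Jet u ∧ ∀ x ∈ II, u 0 x - h * a 0 x * lapJ d u 0 x = g 0 x := by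
  obtain ⟨A, hA, hA0⟩ := exists_jet_inv ha (fun x hx => (hpos x hx).ne')
  have hApos : ∀ x ∈ II, 0 < A 0 x := fun x hx => by rw [hA0 x hx]; exact inv_pos.2 (hpos x hx)
  obtain ⟨mu, hmu0, hmu⟩ := hA.bdd 0
  obtain ⟨Ka, hKa0, hKa⟩ := ha.bdd 0
  have hmuA : ∀ x ∈ II, A 0 x ≤ mu := fun x hx => (abs_le.1 (hmu x hx)).2
  have hmupos : 0 < mu := lt_of_lt_of_le (hApos 0 zero_mem_II) (hmuA 0 zero_mem_II)
  have hKapos : 0 < Ka := lt_of_lt_of_le (hpos 0 zero_mem_II) (abs_le.1 (hKa 0 zero_mem_II)).2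
  have hAlow : ∀ x ∈ II, Ka⁻¹ ≤ A 0 x := fun x hx => by
    rw [hA0 x hx]
    exact inv_anti₀ (hpos x hx) (abs_le.1 (hKa x hx)).2
  -- theta
  set th : ℝ := 1 - Ka⁻¹ / mu with hth
  have hth1 : th < 1 := by
    have : 0 < Ka⁻¹ / mu := by positivity
    linarith only [this]
  have hth0 : 0 ≤ th := by
    have : Ka⁻¹ / mu ≤ 1 := by
      rw [div_le_one hmupos]
      exact (hAlow 0 zero_mem_II).trans (hmuA 0 zero_mem_II)
    linarith only [this]
  set rho : ℝ := (1 + th) / 2 with hrho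
  have hr1 : rho < 1 := by linarith only [hth1, hrho]
  have hr0 : th < rho := by linarith only [hrho, hr1]
  have hrpos : 0 < rho := by linarith only [hth0, hrho, hr1]
  -- b = mu - A
  set b : ℕ → ℝ → ℝ := fun j x => cst mu j x - A j x with hb
  have hbj : Jet b := (jet_cst mu).sub hA
  have hb0 : ∀ x ∈ II, |b 0 x| ≤ th * mu := by
    intro x hx
    have e1 := hmuA x hx
    have e2 := hAlow x hx
    have e3 : th * mu = mu - Ka⁻¹ := by
      rw [hth, sub_mul, one_mul, div_mul_cancel₀ _ hmupos.ne']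
    have e4 : b 0 x = mu - A 0 x := rfl
    rw [e3, e4, abs_of_nonneg (by linarith only [e1])]
    linarith only [e2]
  -- the sequence
  have hstep : ∀ v : ℕ → ℝ → ℝ, ∃ w : ℕ → ℝ → ℝ, Jet v → (Jet w ∧ ∀ x ∈ II,
      mu * w 0 x - h * lapJ d w 0 x = b 0 x * v 0 x + A 0 x * g 0 x) := by
    intro v
    by_cases hv : Jet v
    · obtain ⟨w, hw, hw2⟩ := resolv (mu := mu) (h := h) hd hmupos hh ((hbj.mul hv).add (hA.mul hg))
      refine ⟨w, fun _ => ⟨hw, fun x hx => ?_⟩⟩
      rw [hw2 x hx, jmul_zero, jmul_zero]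
    · exact ⟨v, fun h => absurd h hv⟩
  choose S hS using hstep
  set U : ℕ → ℕ → ℝ → ℝ := fun m => S^[m] (cst 0) with hU
  have hU0 : U 0 = cst 0 := rfl
  have hUs : ∀ m, U (m + 1) = S (U m) := fun m => Function.iterate_succ_apply' S m _
  have hUj : ∀ m, Jet (U m) := by
    intro m
    induction m with
    | zero => rw [hU0]; exact jet_cst 0
    | succ m ih => rw [hUs]; exact (hS _ ih).1
  have hUe : ∀ m, ∀ x ∈ II, mu * U (m + 1) 0 x - h * lapJ d (U (m + 1)) 0 x
      = b 0 x * U m 0 x + A 0 x * g 0 x := by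
    intro m x hx
    rw [hUs]
    exact (hS _ (hUj m)).2 x hx
  set De : ℕ → ℕ → ℝ → ℝ := fun m j x => U (m + 1) j x - U m j x with hDe
  have hDj : ∀ m, Jet (De m) := fun m => (hUj (m + 1)).sub (hUj m)
  have hDe_eq : ∀ m, ∀ x ∈ II, mu * De (m + 1) 0 x - h * lapJ d (De (m + 1)) 0 x
      = jmul b (De m) 0 x := by
    intro m x hx
    have e1 := hUe (m + 1) x hx
    have e2 := hUe m x hx
    rw [jmul_zero]
    have e3 : lapJ d (De (m + 1)) 0 x = lapJ d (U (m + 1 + 1)) 0 x - lapJ d (U (m + 1)) 0 x :=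
      lapJ_sub d _ _ 0 x
    rw [e3]
    simp only [hDe]
    linarith only [e1, e2]
  have hbound : ∀ j, ∃ K : ℝ, 0 ≤ K ∧ ∀ m, ∀ x ∈ II, |De m j x| ≤ K * rho ^ m := by
    intro j
    induction j using Nat.strong_induction_on with
    | _ j ih =>
      -- common constant for lower orders
      have hlow : ∃ K' : ℝ, 0 ≤ K' ∧ ∀ i < j, ∀ m, ∀ x ∈ II, |De m i x| ≤ K' * rho ^ m := by
        choose! K hK using ih
        refine ⟨∑ i ∈ Finset.range j, |K i|, Finset.sum_nonneg fun _ _ => abs_nonneg _,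
          fun i hi m x hx => ?_⟩
        refine ((hK i hi).2 m x hx).trans (mul_le_mul_of_nonneg_right ?_ (by positivity))
        refine (le_abs_self _).trans
          (Finset.single_le_sum (f := fun i => |K i|) (fun _ _ => abs_nonneg _)
            (Finset.mem_range.2 hi))
      obtain ⟨K', hK'0, hK'⟩ := hlow
      obtain ⟨B, hB0, hB⟩ := hbj.bdd_le j
      obtain ⟨M, hM0, hM⟩ := (hDj 0).bdd j
      set K := max M (2 ^ j * (B * K') / (mu * (rho - th))) with hK
      have hden : 0 < mu * (rho - th) := mul_pos hmupos (by linarith only [hrho, hr1])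
      have hKge : 2 ^ j * (B * K') ≤ K * (mu * (rho - th)) := by
        rw [← div_le_iff₀ hden]; exact le_max_right _ _
      have hK0 : 0 ≤ K := le_max_of_le_left hM0
      refine ⟨K, hK0, fun m => ?_⟩
      induction m with
      | zero =>
        intro x hx
        rw [pow_zero, mul_one]
        exact (hM x hx).trans (le_max_left _ _)
      | succ m ihm =>
        have hle : ∀ x ∈ II, |jmul b (De m) j x|
            ≤ th * mu * (K * rho ^ m) + 2 ^ j * (B * (K' * rho ^ m)) := by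
          intro x hx
          exact abs_jmul_le' j hB0 (by positivity) (fun i hi => hB i hi x hx)
            (fun i hi => hK' i hi m x hx) (hb0 x hx) (ihm x hx)
        have hres := resolv_bound hd hmupos hh (hDj (m + 1)) (hbj.mul (hDj m)) (hDe_eq m) j hle
        intro x hx
        refine (hres x hx).trans ?_
        rw [div_le_iff₀ hmupos, pow_succ]
        have hpm : 0 ≤ rho ^ m := by positivity
        nlinarith only [hKge, hpm, mul_le_mul_of_nonneg_right hKge hpm]
  -- uniform convergence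
  have hsum : ∀ m j x, U m j x = U 0 j x + ∑ i ∈ Finset.range m, De i j x := by
    intro m j x
    induction m with
    | zero => simp
    | succ m ih => rw [Finset.sum_range_succ, ← add_assoc, ← ih]; simp only [hDe]; ring
  have hU0' : ∀ j x, U 0 j x = 0 := by
    intro j x
    rw [hU0]
    cases j <;> rfl
  set V : ℕ → ℝ → ℝ := fun j x => ∑' m, De m j x with hV
  have hunif : ∀ j, TendstoUniformlyOn (fun m => U m j) (V j) atTop II := by
    intro j
    obtain ⟨K, hK0, hK⟩ := hbound j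
    have hs : Summable fun m : ℕ => K * rho ^ m :=
      (summable_geometric_of_lt_one hrpos.le hr1).mul_left K
    have := tendstoUniformlyOn_tsum_nat (f := fun m x => De m j x) hs (s := II)
      (fun m x hx => by rw [Real.norm_eq_abs]; exact hK m x hx)
    refine this.congr (Eventually.of_forall fun m x _ => ?_)
    show ∑ i ∈ Finset.range m, De i j x = U m j x
    rw [hsum m j x, hU0', zero_add]
  refine ⟨V, Jet.of_unif hUj hunif, fun x hx => ?_⟩
  have t0 : ∀ j, Tendsto (fun m => U m j x) atTop (𝓝 (V j x)) := fun j => (hunif j).tendsto_at hx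
  have t1 : ∀ j, Tendsto (fun m => U (m + 1) j x) atTop (𝓝 (V j x)) := fun j =>
    (t0 j).comp (tendsto_add_atTop_nat 1)
  have L1 : Tendsto (fun m => mu * U (m + 1) 0 x - h * lapJ d (U (m + 1)) 0 x) atTop
      (𝓝 (mu * V 0 x - h * lapJ d V 0 x)) := by
    unfold lapJ
    exact ((t1 0).const_mul mu).sub (((((t1 2).const_mul _).sub
      ((t1 1).const_mul _)).sub ((t1 0).const_mul _)).const_mul h)
  have L2 : Tendsto (fun m => b 0 x * U m 0 x + A 0 x * g 0 x) atTop
      (𝓝 (b 0 x * V 0 x + A 0 x * g 0 x)) := ((t0 0).const_mul _).add tendsto_const_nhds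
  have heq := tendsto_nhds_unique (L1.congr fun m => hUe m x hx) L2
  have hbx : b 0 x = mu - A 0 x := rfl
  rw [hbx] at heq
  have h3 : A 0 x * (V 0 x - g 0 x) = h * lapJ d V 0 x := by linarith only [heq]
  have h4 : a 0 x * (A 0 x * (V 0 x - g 0 x)) = V 0 x - g 0 x := by
    rw [hA0 x hx, ← mul_assoc, mul_inv_cancel₀ (hpos x hx).ne', one_mul]
  rw [h3] at h4
  linarith only [h4]

end Vale.Agent.P244.ST.L
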