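import Mathlib

/-!
# P244-ST block L : jets on `[-1,1]`

A smooth function on `I = [-1,1]` is represented by the sequence of its derivatives.
-/

open Set Filter Topology
open scoped ContDiff

namespace Vale.Agent.P244.ST.L

/-- The interval `[-1,1]`. -/
abbrev II : Set ℝ := Icc (-1 : ℝ) 1

/-- `u j` is the `j`-th derivative of `u 0` on `[-1,1]` (one sided at the end points). -/
def Jet (u : ℕ → ℝ → ℝ) : Prop :=
  ∀ j, ∀ x ∈ II, HasDerivWithinAt (u j) (u (j + 1) x) II x

theorem zero_mem_II : (0 : ℝ) ∈ II := ⟨by norm_num, by norm_num⟩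

theorem one_mem_II : (1 : ℝ) ∈ II := ⟨by norm_num, by norm_num⟩

theorem neg_one_mem_II : (-1 : ℝ) ∈ II := ⟨by norm_num, by norm_num⟩

theorem convex_II : Convex ℝ II := convex_Icc _ _

theorem uniqueDiffOn_II : UniqueDiffOn ℝ II := uniqueDiffOn_Icc (by norm_num)

theorem isCompact_II : IsCompact II := isCompact_Icc

theorem Jet.continuousOn {u : ℕ → ℝ → ℝ} (hu : Jet u) (j : ℕ) : ContinuousOn (u j) II :=
  fun x hx => (hu j x hx).continuousWithinAt

theorem Jet.shift {u : ℕ → ℝ → ℝ} (hu : Jet u) (k : ℕ) : Jet (fun j => u (j + k)) := by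
  intro j x hx
  have := hu (j + k) x hx
  rwa [show j + k + 1 = j + 1 + k by ring] at this

theorem Jet.bdd {u : ℕ → ℝ → ℝ} (hu : Jet u) (j : ℕ) : ∃ K : ℝ, 0 ≤ K ∧ ∀ x ∈ II, |u j x| ≤ K := by
  obtain ⟨K, hK⟩ := isCompact_II.exists_bound_of_continuousOn (hu.continuousOn j)
  refine ⟨K, le_trans (norm_nonneg _) (hK 0 zero_mem_II), fun x hx => hK x hx⟩

theorem Jet.bdd_le {u : ℕ → ℝ → ℝ} (hu : Jet u) (j : ℕ) :
    ∃ K : ℝ, 0 ≤ K ∧ ∀ i ≤ j, ∀ x ∈ II, |u i x| ≤ K := by
  induction j with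
  | zero =>
    obtain ⟨K, h0, hK⟩ := hu.bdd 0
    exact ⟨K, h0, fun i hi x hx => by
      obtain rfl : i = 0 := by omega
      exact hK x hx⟩
  | succ j ih =>
    obtain ⟨K, h0, hK⟩ := ih
    obtain ⟨K', h0', hK'⟩ := hu.bdd (j + 1)
    refine ⟨max K K', le_max_of_le_left h0, fun i hi x hx => ?_⟩
    rcases Nat.lt_or_ge i (j + 1) with h | h
    · exact (hK i (by omega) x hx).trans (le_max_left _ _)
    · obtain rfl : i = j + 1 := by omega
      exact (hK' x hx).trans (le_max_right _ _)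

/-- Derivative of a limit of functions on `[-1,1]`. -/
theorem hasDerivWithinAt_of_unif {F F' : ℕ → ℝ → ℝ} {f g : ℝ → ℝ}
    (hF : ∀ n, ∀ x ∈ II, HasDerivWithinAt (F n) (F' n x) II x)
    (h1 : ∀ x ∈ II, Tendsto (fun n => F n x) atTop (𝓝 (f x)))
    (h2 : TendstoUniformlyOn F' g atTop II) :
    ∀ x ∈ II, HasDerivWithinAt f (g x) II x := by
  intro x hx
  rw [hasDerivWithinAt_iff_isLittleO, Asymptotics.isLittleO_iff]
  intro c hc
  rw [Metric.tendstoUniformlyOn_iff] at h2
  obtain ⟨N, hN⟩ := eventually_atTop.1 (h2 (c / 6) (by positivity))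
  have key : ∀ y ∈ II, |(f y - F N y) - (f x - F N x)| ≤ (c / 3) * |y - x| := by
    intro y hy
    have hm : ∀ m ≥ N, |(F m y - F N y) - (F m x - F N x)| ≤ (c / 3) * |y - x| := by
      intro m hm
      have hd : ∀ z ∈ II, HasDerivWithinAt (fun z => F m z - F N z) (F' m z - F' N z) II z :=
        fun z hz => (hF m z hz).sub (hF N z hz)
      have hb : ∀ z ∈ II, ‖F' m z - F' N z‖ ≤ c / 3 := by
        intro z hz
        have a1 := hN m hm z hz
        have a2 := hN N le_rfl z hz
        rw [Real.dist_eq] at a1 a2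
        rw [Real.norm_eq_abs]
        calc |F' m z - F' N z| = |(g z - F' N z) - (g z - F' m z)| := by congr 1; ring
          _ ≤ |g z - F' N z| + |g z - F' m z| := abs_sub _ _
          _ ≤ c / 6 + c / 6 := add_le_add a2.le a1.le
          _ = c / 3 := by ring
      have := convex_II.norm_image_sub_le_of_norm_hasDerivWithin_le hd hb hx hy
      simpa [Real.norm_eq_abs] using this
    have ht : Tendsto (fun m => |(F m y - F N y) - (F m x - F N x)|) atTop
        (𝓝 |(f y - F N y) - (f x - F N x)|) :=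
      (((h1 y hy).sub tendsto_const_nhds).sub ((h1 x hx).sub tendsto_const_nhds)).abs
    exact le_of_tendsto ht (eventually_atTop.2 ⟨N, hm⟩)
  have h3 := (hasDerivWithinAt_iff_isLittleO.1 (hF N x hx))
  rw [Asymptotics.isLittleO_iff] at h3
  have h4 := h3 (show (0 : ℝ) < c / 3 by positivity)
  filter_upwards [h4, self_mem_nhdsWithin] with y h5 hy
  have h6 := key y hy
  have h7 := hN N le_rfl x hx
  rw [Real.dist_eq] at h7
  simp only [Real.norm_eq_abs, smul_eq_mul] at h5 ⊢
  have h8 : |(y - x) * (F' N x - g x)| ≤ (c / 3) * |y - x| := by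
    rw [abs_mul, mul_comm]
    refine mul_le_mul_of_nonneg_right ?_ (abs_nonneg _)
    rw [abs_sub_comm]
    linarith only [hc, h7]
  calc |f y - f x - (y - x) * g x|
      = |((f y - F N y) - (f x - F N x)) + ((F N y - F N x - (y - x) * F' N x)
          + (y - x) * (F' N x - g x))| := by congr 1; ring
    _ ≤ |(f y - F N y) - (f x - F N x)| + (|F N y - F N x - (y - x) * F' N x|
          + |(y - x) * (F' N x - g x)|) :=
        (abs_add_le _ _).trans (add_le_add le_rfl (abs_add_le _ _))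
    _ ≤ (c / 3) * |y - x| + ((c / 3) * |y - x| + (c / 3) * |y - x|) :=
        add_le_add h6 (add_le_add h5 h8)
    _ = c * |y - x| := by ring

/-- Uniform limits of jets are jets. -/
theorem Jet.of_unif {u : ℕ → ℕ → ℝ → ℝ} {U : ℕ → ℝ → ℝ} (hu : ∀ n, Jet (u n))
    (h : ∀ j, TendstoUniformlyOn (fun n => u n j) (U j) atTop II) : Jet U := by
  intro j
  refine hasDerivWithinAt_of_unif (F := fun n => u n j) (F' := fun n => u n (j + 1))
    (fun n x hx => hu n j x hx) (fun x hx => (h j).tendsto_at hx) (h (j + 1))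

/-! ### Bridge to `ContDiffOn` -/

theorem jet_iteratedDerivWithin {f : ℝ → ℝ} (hf : ContDiffOn ℝ ∞ f II) :
    Jet (fun j => iteratedDerivWithin j f II) := by
  intro j x hx
  have h1 := hf.differentiableOn_iteratedDerivWithin (m := j)
    (by exact_mod_cast ENat.natCast_lt_top j) uniqueDiffOn_II x hx
  have h2 := h1.hasDerivWithinAt
  rwa [← iteratedDerivWithin_succ] at h2

theorem Jet.iteratedDerivWithin_eq {u : ℕ → ℝ → ℝ} (hu : Jet u) (j : ℕ) :
    ∀ x ∈ II, iteratedDerivWithin j (u 0) II x = u j x := by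
  induction j with
  | zero => intro x _; simp
  | succ j ih =>
    intro x hx
    rw [iteratedDerivWithin_succ]
    rw [derivWithin_congr (fun y hy => ih y hy) (ih x hx)]
    exact (hu j x hx).derivWithin (uniqueDiffOn_II x hx)

theorem Jet.contDiffOn {u : ℕ → ℝ → ℝ} (hu : Jet u) : ContDiffOn ℝ ∞ (u 0) II := by
  refine contDiffOn_of_differentiableOn_deriv (n := ⊤) fun m _ => ?_
  intro x hx
  have h1 : DifferentiableWithinAt ℝ (u m) II x := (hu m x hx).differentiableWithinAt
  exact h1.congr (fun y hy => hu.iteratedDerivWithin_eq m y hy) (hu.iteratedDerivWithin_eq m x hx)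

theorem Jet.unique {u v : ℕ → ℝ → ℝ} (hu : Jet u) (hv : Jet v) (h : ∀ x ∈ II, u 0 x = v 0 x) :
    ∀ j, ∀ x ∈ II, u j x = v j x := by
  intro j
  induction j with
  | zero => exact h
  | succ j ih =>
    intro x hx
    have h1 := hu j x hx
    have h2 : HasDerivWithinAt (u j) (v (j + 1) x) II x :=
      (hv j x hx).congr (fun y hy => ih y hy) (ih x hx)
    exact (uniqueDiffOn_II x hx).eq_deriv _ h1 h2

theorem Jet.congr {u v : ℕ → ℝ → ℝ} (hu : Jet u) (h : ∀ j, ∀ x ∈ II, v j x = u j x) : Jet v :=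
  fun j x hx => by
    rw [h (j + 1) x hx]
    exact (hu j x hx).congr (fun y hy => h j y hy) (h j x hx)

/-! ### Algebra of jets -/

theorem Jet.add {u v : ℕ → ℝ → ℝ} (hu : Jet u) (hv : Jet v) : Jet (fun j x => u j x + v j x) :=
  fun j x hx => (hu j x hx).add (hv j x hx)

theorem Jet.sub {u v : ℕ → ℝ → ℝ} (hu : Jet u) (hv : Jet v) : Jet (fun j x => u j x - v j x) :=
  fun j x hx => (hu j x hx).sub (hv j x hx)

theorem Jet.neg {u : ℕ → ℝ → ℝ} (hu : Jet u) : Jet (fun j x => - u j x) :=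
  fun j x hx => (hu j x hx).neg

theorem Jet.smul {u : ℕ → ℝ → ℝ} (c : ℝ) (hu : Jet u) : Jet (fun j x => c * u j x) :=
  fun j x hx => (hu j x hx).const_mul c

/-- The jet of a constant. -/
def cst (c : ℝ) : ℕ → ℝ → ℝ
  | 0 => fun _ => c
  | _ + 1 => fun _ => 0

theorem jet_cst (c : ℝ) : Jet (cst c) := by
  intro j x _
  cases j with
  | zero => exact hasDerivWithinAt_const _ _ _
  | succ j => exact hasDerivWithinAt_const _ _ _

/-- The jet of the identity. -/
def idj : ℕ → ℝ → ℝ
  | 0 => fun x => x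
  | 1 => fun _ => 1
  | _ + 2 => fun _ => 0

theorem jet_idj : Jet idj := by
  intro j x _
  match j with
  | 0 => exact hasDerivWithinAt_id _ _
  | 1 => exact hasDerivWithinAt_const _ _ _
  | _ + 2 => exact hasDerivWithinAt_const _ _ _

/-- Leibniz product of two jets. -/
def jmul (u v : ℕ → ℝ → ℝ) (j : ℕ) (x : ℝ) : ℝ :=
  ∑ i ∈ Finset.range (j + 1), (j.choose i : ℝ) * u i x * v (j - i) x

theorem jmul_succ (u v : ℕ → ℝ → ℝ) (j : ℕ) (x : ℝ) :
    jmul u v (j + 1) x =
      ∑ i ∈ Finset.range (j + 1), (j.choose i : ℝ) * (u (i + 1) x * v (j - i) x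
        + u i x * v (j - i + 1) x) := by
  unfold jmul
  rw [Finset.sum_range_succ']
  simp only [Nat.choose_succ_succ, Nat.cast_add, add_mul, Nat.choose_zero_right, Nat.cast_one,
    one_mul, Nat.sub_zero]
  rw [Finset.sum_add_distrib]
  have e1 : ∑ i ∈ Finset.range (j + 1), (j.choose (i + 1) : ℝ) * u (i + 1) x * v (j + 1 - (i + 1)) x
      + u 0 x * v (j + 1) x
      = ∑ i ∈ Finset.range (j + 1), (j.choose i : ℝ) * (u i x * v (j - i + 1) x) := by
    rw [Finset.sum_range_succ, Finset.sum_range_succ' (fun i => (j.choose i : ℝ) * (u i x * v (j - i + 1) x))]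
    simp only [Nat.choose_succ_self, Nat.cast_zero, zero_mul, add_zero, Nat.choose_zero_right,
      Nat.cast_one, one_mul, Nat.sub_zero]
    congr 1
    refine Finset.sum_congr rfl fun i hi => ?_
    have hi' : i < j := Finset.mem_range.1 hi
    rw [show j + 1 - (i + 1) = j - (i + 1) + 1 by omega]
    ring
  rw [add_assoc, e1]
  rw [← Finset.sum_add_distrib]
  refine Finset.sum_congr rfl fun i hi => ?_
  rw [show j + 1 - (i + 1) = j - i by omega]
  ring

theorem Jet.mul {u v : ℕ → ℝ → ℝ} (hu : Jet u) (hv : Jet v) : Jet (jmul u v) := by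
  intro j x hx
  rw [jmul_succ]
  have : (jmul u v j) = fun y => ∑ i ∈ Finset.range (j + 1), (j.choose i : ℝ) * (u i y * v (j - i) y) := by
    funext y
    unfold jmul
    refine Finset.sum_congr rfl fun i _ => by ring
  rw [this]
  refine HasDerivWithinAt.fun_sum fun i _ => ?_
  exact ((hu i x hx).mul (hv (j - i) x hx)).const_mul _

@[simp] theorem jmul_zero (u v : ℕ → ℝ → ℝ) (x : ℝ) : jmul u v 0 x = u 0 x * v 0 x := by
  simp [jmul]

/-- Product bound. -/
theorem abs_jmul_le {u v : ℕ → ℝ → ℝ} {x A B : ℝ} (j : ℕ) (hA : 0 ≤ A) (hu : ∀ i ≤ j, |u i x| ≤ A)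
    (hv : ∀ i ≤ j, |v i x| ≤ B) : |jmul u v j x| ≤ 2 ^ j * (A * B) := by
  unfold jmul
  refine (Finset.abs_sum_le_sum_abs _ _).trans ?_
  calc ∑ i ∈ Finset.range (j + 1), |(j.choose i : ℝ) * u i x * v (j - i) x|
      ≤ ∑ i ∈ Finset.range (j + 1), (j.choose i : ℝ) * (A * B) := by
        refine Finset.sum_le_sum fun i hi => ?_
        have hi' : i ≤ j := by
          have := Finset.mem_range.1 hi
          omega
        rw [abs_mul, abs_mul, mul_assoc, Nat.abs_cast]
        exact mul_le_mul_of_nonneg_left (mul_le_mul (hu i hi') (hv (j - i) (Nat.sub_le _ _))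
          (abs_nonneg _) hA) (Nat.cast_nonneg _)
    _ = 2 ^ j * (A * B) := by
        rw [← Finset.sum_mul]
        congr 1
        have := Nat.sum_range_choose j
        exact_mod_cast this

end Vale.Agent.P244.ST.L
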