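import Vale.Agent.P244.ST.L.Strip
import Vale.Agent.P244.ST.Conf

/-!
# P244-ST block L (E) : the right-hand sides as jets, and joint smoothness of the limit
-/

open Set Filter Topology MeasureTheory
open scoped ContDiff

namespace Vale.Agent.P244.ST.L

/-! ### Exponential of a jet -/

/-- Leibniz rule at one level. -/
theorem jmul_hasDeriv {u v : ℕ → ℝ → ℝ} {j : ℕ} {x : ℝ}
    (hu : ∀ i ≤ j, HasDerivWithinAt (u i) (u (i + 1) x) II x)
    (hv : ∀ i ≤ j, HasDerivWithinAt (v i) (v (i + 1) x) II x) :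
    HasDerivWithinAt (jmul u v j) (jmul u v (j + 1) x) II x := by
  rw [jmul_succ]
  have : (jmul u v j) = fun y => ∑ i ∈ Finset.range (j + 1), (j.choose i : ℝ) * (u i y * v (j - i) y) := by
    funext y
    unfold jmul
    refine Finset.sum_congr rfl fun i _ => by ring
  rw [this]
  refine HasDerivWithinAt.fun_sum fun i hi => ?_
  have hi' : i ≤ j := by
    have := Finset.mem_range.1 hi
    omega
  exact ((hu i hi').mul (hv (j - i) (Nat.sub_le _ _))).const_mul _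

/-- The jet of `exp u`. -/
noncomputable def jexp (u : ℕ → ℝ → ℝ) : ℕ → ℝ → ℝ
  | 0 => fun x => Real.exp (u 0 x)
  | j + 1 => fun x => ∑ i : Fin (j + 1), (j.choose i : ℝ) * u (i + 1) x * jexp u (j - i) x
termination_by j => j
decreasing_by omega

@[simp] theorem jexp_zero (u : ℕ → ℝ → ℝ) (x : ℝ) : jexp u 0 x = Real.exp (u 0 x) := by
  rw [jexp]

theorem jexp_succ (u : ℕ → ℝ → ℝ) (j : ℕ) (x : ℝ) :
    jexp u (j + 1) x = jmul (fun i => u (i + 1)) (jexp u) j x := by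
  rw [jexp]
  unfold jmul
  rw [Finset.sum_range (fun i => (j.choose i : ℝ) * u (i + 1) x * jexp u (j - i) x)]

theorem Jet.exp {u : ℕ → ℝ → ℝ} (hu : Jet u) : Jet (jexp u) := by
  intro j
  induction j using Nat.strong_induction_on with
  | _ j ih =>
    intro x hx
    cases j with
    | zero =>
      have h1 : jexp u 0 = fun x => Real.exp (u 0 x) := by funext x; simp
      rw [h1, jexp_succ]
      have := (hu 0 x hx).exp
      refine this.congr_deriv ?_
      simp [mul_comm]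
    | succ j =>
      have h1 : jexp u (j + 1) = jmul (fun i => u (i + 1)) (jexp u) j := by
        funext x; exact jexp_succ u j x
      rw [h1, jexp_succ]
      exact jmul_hasDeriv (fun i _ => hu (i + 1) x hx) (fun i hi => ih i (by omega) x hx)

/-! ### Right-hand sides -/

theorem jnt_cst_zero (c x : ℝ) : cst c 0 x = c := rfl

theorem jnt_idj_zero (x : ℝ) : idj 0 x = x := rfl

/-- The jet of `1 - x^2`. -/
noncomputable def omx : ℕ → ℝ → ℝ := fun j x => cst 1 j x - jmul idj idj j x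

theorem jet_omx : Jet omx := (jet_cst 1).sub (jet_idj.mul jet_idj)

@[simp] theorem omx_zero (x : ℝ) : omx 0 x = 1 - x ^ 2 := by
  unfold omx
  rw [jmul_zero]
  simp only [jnt_cst_zero, jnt_idj_zero]
  ring

/-- jet of `e^{-2u}` -/
noncomputable def ex2 (u : ℕ → ℝ → ℝ) : ℕ → ℝ → ℝ := jexp (fun j x => -2 * u j x)

theorem Jet.ex2 {u : ℕ → ℝ → ℝ} (hu : Jet u) : Jet (ex2 u) := (hu.smul (-2)).exp

/-- jet of the integrand of `J` -/
noncomputable def jJd (p : ℕ) (W F : ℕ → ℝ → ℝ) : ℕ → ℝ → ℝ :=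
  jmul (ex2 W) (fun j x => ((p : ℝ) - 1) * jmul (fun i => W (i + 1)) (fun i => W (i + 1)) j x
    + (p : ℝ) * jmul (fun i => F (i + 1)) (fun i => F (i + 1)) j x)

theorem jet_jJd (p : ℕ) {W F : ℕ → ℝ → ℝ} (hW : Jet W) (hF : Jet F) : Jet (jJd p W F) :=
  hW.ex2.mul ((((hW.shift 1).mul (hW.shift 1)).smul _).add
    (((hF.shift 1).mul (hF.shift 1)).smul _))

/-- jet of `J` -/
noncomputable def jJ (p : ℕ) (W F : ℕ → ℝ → ℝ) : ℕ → ℝ → ℝ := prim (jJd p W F)

theorem jet_jJ (p : ℕ) {W F : ℕ → ℝ → ℝ} (hW : Jet W) (hF : Jet F) : Jet (jJ p W F) :=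
  jet_prim (jet_jJd p hW hF)

/-- jet of the right-hand side of the `w` equation -/
noncomputable def jRW (p : ℕ) (W F : ℕ → ℝ → ℝ) : ℕ → ℝ → ℝ := fun j x =>
  jmul (ex2 W) (fun j x => lapJ ((p : ℝ) + 1) W j x - cst p j x) j x
    + jmul (fun j x => idj j x - jmul omx (fun i => W (i + 1)) j x) (jJ p W F) j x

/-- jet of the right-hand side of the `F` equation -/
noncomputable def jRF (p : ℕ) (W F : ℕ → ℝ → ℝ) : ℕ → ℝ → ℝ := fun j x =>
  jmul (ex2 W) (lapJ ((p : ℝ) + 1) F) j x - ((p : ℝ) - 1) * ex2 F j x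
    - jmul (jmul omx (fun i => F (i + 1))) (jJ p W F) j x

theorem jet_jRW (p : ℕ) {W F : ℕ → ℝ → ℝ} (hW : Jet W) (hF : Jet F) : Jet (jRW p W F) :=
  (hW.ex2.mul ((hW.lap _).sub (jet_cst _))).add
    ((jet_idj.sub (jet_omx.mul (hW.shift 1))).mul (jet_jJ p hW hF))

theorem jet_jRF (p : ℕ) {W F : ℕ → ℝ → ℝ} (hW : Jet W) (hF : Jet F) : Jet (jRF p W F) :=
  ((hW.ex2.mul (hF.lap _)).sub (hF.ex2.smul _)).sub
    ((jet_omx.mul (hF.shift 1)).mul (jet_jJ p hW hF))

theorem dx_of_jet {W : ℕ → ℝ → ℝ} (hW : Jet W) (j : ℕ) {x : ℝ} (hx : x ∈ II) :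
    dx (W j) x = W (j + 1) x := (hW j x hx).derivWithin (uniqueDiffOn_II x hx)

theorem dx_congr' {f g : ℝ → ℝ} (h : ∀ x ∈ II, f x = g x) {x : ℝ} (hx : x ∈ II) :
    dx f x = dx g x := derivWithin_congr h (h x hx)

theorem lap_of_jet {W : ℕ → ℝ → ℝ} (hW : Jet W) (p : ℕ) {x : ℝ} (hx : x ∈ II) :
    lap p (W 0) x = lapJ ((p : ℝ) + 1) W 0 x := by
  unfold lap lapJ
  rw [dx_congr' (f := dx (W 0)) (g := W 1) (fun y hy => dx_of_jet hW 0 hy) hx, dx_of_jet hW 1 hx,
    dx_of_jet hW 0 hx]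
  simp

theorem ex2_zero (W : ℕ → ℝ → ℝ) (x : ℝ) : ex2 W 0 x = Real.exp (-2 * W 0 x) := by
  unfold ex2; simp

theorem Jf_of_jet {W F : ℕ → ℝ → ℝ} (hW : Jet W) (hF : Jet F) (p : ℕ) {x : ℝ} (hx : x ∈ II) :
    Jf p (W 0) (F 0) x = jJ p W F 0 x := by
  unfold Jf jJ prim
  refine intervalIntegral.integral_congr fun y hy => ?_
  have hy' := uIcc_zero_subset hx hy
  show Jd p (W 0) (F 0) y = jJd p W F 0 (max (-1) (min 1 y))
  rw [clamp_eq hy']
  unfold Jd jJd
  rw [jmul_zero, jmul_zero, jmul_zero, ex2_zero, dx_of_jet hW 0 hy', dx_of_jet hF 0 hy']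
  simp only [zero_add]
  ring

theorem rhsW_of_jet {W F : ℕ → ℝ → ℝ} (hW : Jet W) (hF : Jet F) (p : ℕ) {x : ℝ} (hx : x ∈ II) :
    rhsW p (W 0) (F 0) x = jRW p W F 0 x := by
  unfold rhsW jRW
  rw [lap_of_jet hW p hx, Jf_of_jet hW hF p hx, dx_of_jet hW 0 hx]
  simp only [jmul_zero, omx_zero, ex2_zero, jnt_idj_zero, jnt_cst_zero, zero_add]

theorem rhsF_of_jet {W F : ℕ → ℝ → ℝ} (hW : Jet W) (hF : Jet F) (p : ℕ) {x : ℝ} (hx : x ∈ II) :
    rhsF p (W 0) (F 0) x = jRF p W F 0 x := by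
  unfold rhsF jRF
  rw [lap_of_jet hF p hx, Jf_of_jet hW hF p hx, dx_of_jet hF 0 hx]
  simp only [jmul_zero, omx_zero, ex2_zero, zero_add]

/-! ### Families of jets, jointly of class `C^n` -/

/-- All levels of the family `u t j x` are of class `C^n` on the strip. -/
def JC (n : ℕ) (T : ℝ) (u : ℝ → ℕ → ℝ → ℝ) : Prop :=
  ∀ j, ContDiffOn ℝ n (fun z : ℝ × ℝ => u z.1 j z.2) (SS T)

section
variable {n : ℕ} {T : ℝ} {u v : ℝ → ℕ → ℝ → ℝ}

theorem JC.add (hu : JC n T u) (hv : JC n T v) : JC n T (fun t j x => u t j x + v t j x) :=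
  fun j => (hu j).add (hv j)

theorem JC.sub (hu : JC n T u) (hv : JC n T v) : JC n T (fun t j x => u t j x - v t j x) :=
  fun j => (hu j).sub (hv j)

theorem JC.smul (c : ℝ) (hu : JC n T u) : JC n T (fun t j x => c * u t j x) :=
  fun j => contDiffOn_const.mul (hu j)

theorem JC.shift (hu : JC n T u) (k : ℕ) : JC n T (fun t j => u t (j + k)) :=
  fun j => hu (j + k)

theorem JC.mul (hu : JC n T u) (hv : JC n T v) : JC n T (fun t => jmul (u t) (v t)) := by
  intro j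
  unfold jmul
  exact ContDiffOn.sum fun i _ => (contDiffOn_const.mul (hu i)).mul (hv (j - i))

theorem JC.cst (c : ℝ) : JC n T (fun _ => cst c) := by
  intro j
  cases j with
  | zero => exact contDiffOn_const
  | succ j => exact contDiffOn_const

theorem contDiffOn_x : ContDiffOn ℝ n (fun z : ℝ × ℝ => z.2) (SS T) := contDiff_snd.contDiffOn

theorem JC.idj : JC n T (fun _ => idj) := by
  intro j
  match j with
  | 0 => exact contDiffOn_x
  | 1 => exact contDiffOn_const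
  | _ + 2 => exact contDiffOn_const

theorem JC.omx : JC n T (fun _ => omx) := (JC.cst 1).sub (JC.idj.mul JC.idj)

theorem JC.exp (hu : JC n T u) : JC n T (fun t => jexp (u t)) := by
  intro j
  induction j using Nat.strong_induction_on with
  | _ j ih =>
    cases j with
    | zero =>
      have h1 : (fun z : ℝ × ℝ => jexp (u z.1) 0 z.2) = fun z : ℝ × ℝ => Real.exp (u z.1 0 z.2) := by
        funext z; simp
      rw [h1]
      exact (hu 0).exp
    | succ j =>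
      have h1 : (fun z : ℝ × ℝ => jexp (u z.1) (j + 1) z.2)
          = fun z : ℝ × ℝ => jmul (fun i => u z.1 (i + 1)) (jexp (u z.1)) j z.2 := by
        funext z; exact jexp_succ _ _ _
      rw [h1]
      unfold jmul
      exact ContDiffOn.sum fun i _ =>
        (contDiffOn_const.mul (hu (i + 1))).mul (ih (j - i) (by omega))

theorem JC.ex2 (hu : JC n T u) : JC n T (fun t => ex2 (u t)) := (hu.smul (-2)).exp

theorem JC.lap (d : ℝ) (hu : JC n T u) : JC n T (fun t => lapJ d (u t)) := by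
  intro j
  unfold lapJ
  exact (((contDiffOn_const.sub (contDiffOn_x.pow 2)).mul (hu (j + 2))).sub
    ((contDiffOn_const.mul contDiffOn_x).mul (hu (j + 1)))).sub (contDiffOn_const.mul (hu j))

theorem JC.prim (hu : JC n T u) : JC n T (fun t => prim (u t)) := by
  intro j
  cases j with
  | succ j => exact hu j
  | zero =>
    refine (contDiffOn_primx n (g := fun t x => u t 0 x) (hu 0)).congr ?_
    rintro ⟨t, x⟩ ⟨ht, hx⟩
    show ∫ y in (0 : ℝ)..x, u t 0 (max (-1) (min 1 y)) = ∫ y in (0 : ℝ)..x, u t 0 y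
    refine intervalIntegral.integral_congr fun y hy => ?_
    rw [clamp_eq (uIcc_zero_subset hx hy)]

theorem JC.jJ (p : ℕ) (hu : JC n T u) (hv : JC n T v) : JC n T (fun t => jJ p (u t) (v t)) :=
  (hu.ex2.mul ((((hu.shift 1).mul (hu.shift 1)).smul _).add
    (((hv.shift 1).mul (hv.shift 1)).smul _))).prim

theorem JC.jRW (p : ℕ) (hu : JC n T u) (hv : JC n T v) : JC n T (fun t => jRW p (u t) (v t)) :=
  (hu.ex2.mul ((hu.lap _).sub (JC.cst _))).add
    ((JC.idj.sub (JC.omx.mul (hu.shift 1))).mul (hu.jJ p hv))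

theorem JC.jRF (p : ℕ) (hu : JC n T u) (hv : JC n T v) : JC n T (fun t => jRF p (u t) (v t)) :=
  ((hu.ex2.mul (hv.lap _)).sub (hv.ex2.smul _)).sub
    ((JC.omx.mul (hv.shift 1)).mul (hu.jJ p hv))

end

/-! ### Time derivatives of all levels -/

theorem ftc_Ico {T : ℝ} {r : ℝ → ℝ} (hr : ContinuousOn r (Ico 0 T)) {t : ℝ} (ht : t ∈ Ico 0 T) :
    HasDerivWithinAt (fun t => ∫ s in (0 : ℝ)..t, r s) (r t) (Ico 0 T) t := by
  obtain ⟨T1, h1, h2⟩ := exists_between ht.2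
  have hT1 : 0 ≤ T1 := ht.1.trans h1.le
  have hcl : ∀ s : ℝ, max 0 (min T1 s) ∈ Ico 0 T := fun s =>
    ⟨le_max_left _ _, max_lt (lt_of_le_of_lt ht.1 ht.2) (lt_of_le_of_lt (min_le_left _ _) h2)⟩
  have hc : Continuous fun s : ℝ => r (max 0 (min T1 s)) := hr.comp_continuous (by fun_prop) hcl
  have h3 : HasDerivAt (fun x => ∫ y in (0 : ℝ)..x, r (max 0 (min T1 y)))
      (r (max 0 (min T1 t))) t :=
    intervalIntegral.integral_hasDerivAt_right (hc.intervalIntegrable _ _)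
      (hc.stronglyMeasurableAtFilter _ _) hc.continuousAt
  rw [min_eq_right h1.le, max_eq_right ht.1] at h3
  have heq : ∀ x ∈ Ico 0 T1, (∫ y in (0 : ℝ)..x, r y) = ∫ y in (0 : ℝ)..x, r (max 0 (min T1 y)) := by
    intro x hx
    refine intervalIntegral.integral_congr fun y hy => ?_
    rw [uIcc_of_le hx.1] at hy
    rw [min_eq_right (hy.2.trans hx.2.le), max_eq_right hy.1]
  refine (h3.hasDerivWithinAt (s := Ico 0 T)).congr_of_eventuallyEq ?_ (heq t ⟨ht.1, h1⟩)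
  have hn : Iio T1 ∈ 𝓝[Ico 0 T] t := mem_nhdsWithin_of_mem_nhds (Iio_mem_nhds h1)
  filter_upwards [hn, self_mem_nhdsWithin] with x hx hx2
  exact heq x ⟨hx2.1, hx⟩

/-- If the level `0` satisfies `u_t = R`, so do all levels. -/
theorem levels {T : ℝ} {u R : ℝ → ℕ → ℝ → ℝ} (hu : ∀ t ∈ Ico 0 T, Jet (u t))
    (hR : ∀ t ∈ Ico 0 T, Jet (R t)) (hRc : JC 0 T R) (huc : JC 0 T u)
    (h0 : ∀ t ∈ Ico 0 T, ∀ x ∈ II, HasDerivWithinAt (fun s => u s 0 x) (R t 0 x) (Ico 0 T) t) :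
    ∀ j, ∀ t ∈ Ico 0 T, ∀ x ∈ II, HasDerivWithinAt (fun s => u s j x) (R t j x) (Ico 0 T) t := by
  have hRcc : ∀ j, ContinuousOn (fun z : ℝ × ℝ => R z.1 j z.2) (SS T) := fun j => (hRc j).continuousOn
  have hucc : ∀ j, ContinuousOn (fun z : ℝ × ℝ => u z.1 j z.2) (SS T) := fun j => (huc j).continuousOn
  have hRt : ∀ j, ∀ x ∈ II, ContinuousOn (fun s => R s j x) (Ico 0 T) := fun j x hx =>
    (hRcc j).comp (f := fun s : ℝ => ((s, x) : ℝ × ℝ)) (by fun_prop) (fun _ hs => ⟨hs, hx⟩)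
  have hut : ∀ j, ∀ x ∈ II, ContinuousOn (fun s => u s j x) (Ico 0 T) := fun j x hx =>
    (hucc j).comp (f := fun s : ℝ => ((s, x) : ℝ × ℝ)) (by fun_prop) (fun _ hs => ⟨hs, hx⟩)
  intro j
  induction j with
  | zero => exact h0
  | succ j ih =>
    have hint : ∀ t ∈ Ico 0 T, ∀ x ∈ II, u t j x - u 0 j x = ∫ s in (0 : ℝ)..t, R s j x := by
      intro t ht x hx
      have hsub : Icc 0 t ⊆ Ico 0 T := fun s hs => ⟨hs.1, lt_of_le_of_lt hs.2 ht.2⟩
      symm
      refine intervalIntegral.integral_eq_sub_of_hasDerivAt_of_le ht.1 ((hut j x hx).mono hsub)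
        (fun s hs => ?_) (((hRt j x hx).mono ?_).intervalIntegrable)
      · exact (ih s (hsub ⟨hs.1.le, hs.2.le⟩) x hx).hasDerivAt
          (Ico_mem_nhds hs.1 (lt_trans hs.2 ht.2))
      · rw [uIcc_of_le ht.1]; exact hsub
    have hint2 : ∀ t ∈ Ico 0 T, ∀ x ∈ II,
        u t (j + 1) x - u 0 (j + 1) x = ∫ s in (0 : ℝ)..t, R s (j + 1) x := by
      intro t ht x hx
      have h0T : (0 : ℝ) ∈ Ico 0 T := ⟨le_rfl, lt_of_le_of_lt ht.1 ht.2⟩
      have hsub : uIcc 0 t ⊆ Ico 0 T := by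
        rw [uIcc_of_le ht.1]
        exact fun s hs => ⟨hs.1, lt_of_le_of_lt hs.2 ht.2⟩
      have e1 : HasDerivWithinAt (fun x => u t j x - u 0 j x)
          (u t (j + 1) x - u 0 (j + 1) x) II x := (hu t ht j x hx).sub (hu 0 h0T j x hx)
      have e2 : HasDerivWithinAt (fun x => ∫ s in (0 : ℝ)..t, R s j x)
          (∫ s in (0 : ℝ)..t, R s (j + 1) x) II x := by
        refine hasDerivWithinAt_integral (φ := fun x s => R s j x)
          (φ' := fun x s => R s (j + 1) x) convex_II (fun y hy => (hRt j y hy).mono hsub)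
          (fun y hy s hs => hR s (hsub hs) j y hy) ?_ hx
        have := (hRcc (j + 1)).comp (f := fun z : ℝ × ℝ => ((z.2, z.1) : ℝ × ℝ))
          (s := II ×ˢ uIcc 0 t) (by fun_prop) (fun z hz => ⟨hsub hz.2, hz.1⟩)
        exact this
      have e3 : HasDerivWithinAt (fun x => u t j x - u 0 j x)
          (∫ s in (0 : ℝ)..t, R s (j + 1) x) II x :=
        e2.congr (fun y hy => hint t ht y hy) (hint t ht x hx)
      exact (uniqueDiffOn_II x hx).eq_deriv _ e1 e3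
    intro t ht x hx
    have f1 := ftc_Ico (hRt (j + 1) x hx) ht
    have f2 := f1.const_add (u 0 (j + 1) x)
    refine f2.congr (fun s hs => ?_) ?_
    · have := hint2 s hs x hx; linarith only [this]
    · have := hint2 t ht x hx; linarith only [this]

/-- Joint smoothness of a solution all of whose `x`-derivatives are continuous. -/
theorem joint_smooth {p : ℕ} {T : ℝ} {W F : ℝ → ℕ → ℝ → ℝ} (hW : ∀ t ∈ Ico 0 T, Jet (W t))
    (hF : ∀ t ∈ Ico 0 T, Jet (F t))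
    (cW : ∀ j, ContinuousOn (fun z : ℝ × ℝ => W z.1 j z.2) (SS T))
    (cF : ∀ j, ContinuousOn (fun z : ℝ × ℝ => F z.1 j z.2) (SS T))
    (eW : ∀ t ∈ Ico 0 T, ∀ x ∈ II,
      HasDerivWithinAt (fun s => W s 0 x) (rhsW p (W t 0) (F t 0) x) (Ico 0 T) t)
    (eF : ∀ t ∈ Ico 0 T, ∀ x ∈ II,
      HasDerivWithinAt (fun s => F s 0 x) (rhsF p (W t 0) (F t 0) x) (Ico 0 T) t) :
    ContDiffOn ℝ ∞ (fun z : ℝ × ℝ => W z.1 0 z.2) (SS T) ∧
      ContDiffOn ℝ ∞ (fun z : ℝ × ℝ => F z.1 0 z.2) (SS T) := by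
  have W0 : JC 0 T W := fun j => by rw [Nat.cast_zero, contDiffOn_zero]; exact cW j
  have F0 : JC 0 T F := fun j => by rw [Nat.cast_zero, contDiffOn_zero]; exact cF j
  have dW := levels hW (fun t ht => jet_jRW p (hW t ht) (hF t ht)) (W0.jRW p F0) W0
    (fun t ht x hx => by rw [← rhsW_of_jet (hW t ht) (hF t ht) p hx]; exact eW t ht x hx)
  have dF := levels hF (fun t ht => jet_jRF p (hW t ht) (hF t ht)) (W0.jRF p F0) F0
    (fun t ht x hx => by rw [← rhsF_of_jet (hW t ht) (hF t ht) p hx]; exact eF t ht x hx)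
  have key : ∀ n : ℕ, JC n T W ∧ JC n T F := by
    intro n
    induction n with
    | zero => exact ⟨W0, F0⟩
    | succ n ih =>
      obtain ⟨hWn, hFn⟩ := ih
      refine ⟨fun j => ?_, fun j => ?_⟩
      · exact contDiffOn_succ_of_partials (G := fun t x => W t j x)
          (Gt := fun t x => jRW p (W t) (F t) j x) (Gx := fun t x => W t (j + 1) x) n
          (dW j) (fun t ht x hx => hW t ht j x hx) (hWn.jRW p hFn j) (hWn (j + 1))
      · exact contDiffOn_succ_of_partials (G := fun t x => F t j x)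
          (Gt := fun t x => jRF p (W t) (F t) j x) (Gx := fun t x => F t (j + 1) x) n
          (dF j) (fun t ht x hx => hF t ht j x hx) (hWn.jRF p hFn j) (hFn (j + 1))
  exact ⟨contDiffOn_infty.2 fun n => (key n).1 0, contDiffOn_infty.2 fun n => (key n).2 0⟩

/-- Assembly into a `ConfSol`. -/
theorem confSol_of_levels {p : ℕ} {T : ℝ} {W F : ℝ → ℕ → ℝ → ℝ} (hW : ∀ t ∈ Ico 0 T, Jet (W t))
    (hF : ∀ t ∈ Ico 0 T, Jet (F t))
    (cW : ∀ j, ContinuousOn (fun z : ℝ × ℝ => W z.1 j z.2) (SS T))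
    (cF : ∀ j, ContinuousOn (fun z : ℝ × ℝ => F z.1 j z.2) (SS T))
    (eW : ∀ t ∈ Ico 0 T, ∀ x ∈ II,
      HasDerivWithinAt (fun s => W s 0 x) (rhsW p (W t 0) (F t 0) x) (Ico 0 T) t)
    (eF : ∀ t ∈ Ico 0 T, ∀ x ∈ II,
      HasDerivWithinAt (fun s => F s 0 x) (rhsF p (W t 0) (F t 0) x) (Ico 0 T) t)
    (vW : ∀ t ∈ Ico 0 T, ∀ x ∈ II, W t 0 (-x) = W t 0 x)
    (vF : ∀ t ∈ Ico 0 T, ∀ x ∈ II, F t 0 (-x) = F t 0 x) :
    ConfSol p (fun t => W t 0) (fun t => F t 0) T where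
  smooth_w := (joint_smooth hW hF cW cF eW eF).1
  smooth_f := (joint_smooth hW hF cW cF eW eF).2
  even_w := vW
  even_f := vF
  eq_w := eW
  eq_f := eF

end Vale.Agent.P244.ST.L
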