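import Vale.Agent.P244.ST.L.Jet

/-!
# P244-ST block L : the operator `Lap_d`, maximum principle and resolvent on jets
-/

open Set Filter Topology

namespace Vale.Agent.P244.ST.L

/-- `j`-th derivative of `Lap_d u = (1-x^2) u'' - d x u'` in terms of the jet of `u`. -/
def lapJ (d : ℝ) (u : ℕ → ℝ → ℝ) (j : ℕ) (x : ℝ) : ℝ :=
  (1 - x ^ 2) * u (j + 2) x - (d + 2 * j) * x * u (j + 1) x
    - ((j : ℝ) * d + (j : ℝ) * ((j : ℝ) - 1)) * u j x

theorem Jet.lap {u : ℕ → ℝ → ℝ} (d : ℝ) (hu : Jet u) : Jet (lapJ d u) := by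
  intro j x hx
  have h0 := hu j x hx
  have h1 := hu (j + 1) x hx
  have h2 := hu (j + 2) x hx
  have hid : HasDerivWithinAt (fun y : ℝ => y) 1 II x := hasDerivWithinAt_id _ _
  have hq : HasDerivWithinAt (fun y : ℝ => 1 - y ^ 2) (-(2 * x)) II x := by
    have := (hid.pow 2).const_sub 1
    simpa using this
  have hl : HasDerivWithinAt (fun y : ℝ => (d + 2 * j) * y) (d + 2 * j) II x := by
    simpa using hid.const_mul (d + 2 * (j : ℝ))
  have := ((hq.mul h2).sub (hl.mul h1)).sub (h0.const_mul ((j : ℝ) * d + (j : ℝ) * ((j : ℝ) - 1)))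
  refine (this.congr_deriv ?_)
  unfold lapJ
  push_cast
  ring

theorem sign_at_max {f : ℝ → ℝ} {f' x0 : ℝ} (h1 : HasDerivWithinAt f f' II x0)
    (hx0 : x0 ∈ II) (hm : ∀ x ∈ II, f x ≤ f x0) {y : ℝ} (hy : y ∈ II) : (y - x0) * f' ≤ 0 := by
  have hloc : IsLocalMaxOn f II x0 := by
    filter_upwards [self_mem_nhdsWithin] with x hx using hm x hx
  have hseg : segment ℝ x0 y ⊆ II := convex_II.segment_subset hx0 hy
  have := hloc.hasFDerivWithinAt_nonpos h1.hasFDerivWithinAt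
    (y := y - x0) (mem_posTangentConeAt_of_segment_subset (by simpa using hseg))
  simpa using this

/-- Values of the derivatives at a maximum point on `[-1,1]`. -/
theorem max_point {f f' f'' : ℝ → ℝ} (h1 : ∀ x ∈ II, HasDerivWithinAt f (f' x) II x)
    (h2 : ∀ x ∈ II, HasDerivWithinAt f' (f'' x) II x) {x0 : ℝ} (hx0 : x0 ∈ II)
    (hm : ∀ x ∈ II, f x ≤ f x0) :
    (1 - x0 ^ 2) * f' x0 = 0 ∧ ∀ e : ℝ, 0 ≤ e → (1 - x0 ^ 2) * f'' x0 - e * x0 * f' x0 ≤ 0 := by
  have hs1 := sign_at_max (h1 x0 hx0) hx0 hm one_mem_II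
  have hs2 := sign_at_max (h1 x0 hx0) hx0 hm neg_one_mem_II
  rcases eq_or_lt_of_le hx0.1 with h | hl
  · -- x0 = -1
    subst h
    refine ⟨by norm_num, fun e he => ?_⟩
    have : 0 ≤ e * (-f' (-1)) := mul_nonneg he (by linarith only [hs1])
    nlinarith only [this]
  rcases eq_or_lt_of_le hx0.2 with h | hr
  · subst h
    refine ⟨by norm_num, fun e he => ?_⟩
    have : 0 ≤ e * (f' 1) := mul_nonneg he (by linarith only [hs2])
    nlinarith only [this]
  · have hd : f' x0 = 0 := by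
      have a1 : f' x0 ≤ 0 := by
        by_contra hcon
        push Not at hcon
        have : 0 < (1 - x0) * f' x0 := mul_pos (by linarith only [hr]) hcon
        linarith only [hs1, this]
      have a2 : 0 ≤ f' x0 := by
        by_contra hcon
        push Not at hcon
        have : 0 < (-1 - x0) * f' x0 := mul_pos_of_neg_of_neg (by linarith only [hl]) hcon
        linarith only [hs2, this]
      linarith only [a1, a2]
    refine ⟨by rw [hd]; ring, fun e _ => ?_⟩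
    rw [hd]
    have hq : 0 < 1 - x0 ^ 2 := by nlinarith only [hl, hr]
    suffices hf'' : f'' x0 ≤ 0 by nlinarith only [hq, hf'']
    by_contra hcon
    push Not at hcon
    have hnhds : II ∈ 𝓝 x0 := Icc_mem_nhds hl hr
    have hda : HasDerivAt f' (f'' x0) x0 := (h2 x0 hx0).hasDerivAt hnhds
    have hsl := hda.tendsto_slope
    have hev : ∀ᶠ y in 𝓝[≠] x0, 0 < slope f' x0 y := hsl.eventually (lt_mem_nhds hcon)
    have hev2 : ∀ᶠ y in 𝓝[>] x0, 0 < slope f' x0 y :=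
      hev.filter_mono (nhdsWithin_mono _ (fun y hy => ne_of_gt hy))
    have hev3 : ∀ᶠ y in 𝓝[>] x0, 0 < f' y := by
      filter_upwards [hev2, self_mem_nhdsWithin] with y hy hy2
      rw [slope_def_field, hd, sub_zero] at hy
      have : (0 : ℝ) < y - x0 := sub_pos.2 hy2
      exact (div_pos_iff_of_pos_right this).1 hy
    obtain ⟨b, hb, hb2⟩ := (mem_nhdsGT_iff_exists_Ioo_subset.1 hev3)
    set c := min b 1 with hc
    have hcx : x0 < c := lt_min hb hr
    have hcI : ∀ y ∈ Icc x0 c, y ∈ II := fun y hy =>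
      ⟨by linarith only [hl, hy, hy.1], hy.2.trans (min_le_right _ _)⟩
    obtain ⟨z, hz, hz2⟩ := exists_hasDerivAt_eq_slope f f' hcx
      (fun y hy => ((h1 y (hcI y hy)).continuousWithinAt).mono hcI)
      (fun y hy => (h1 y (hcI y ⟨hy.1.le, hy.2.le⟩)).hasDerivAt
        (Icc_mem_nhds (by linarith only [hl, hy, hy.1]) (lt_of_lt_of_le hy.2 (min_le_right _ _))))
    have hpos : 0 < f' z := hb2 ⟨hz.1, lt_of_lt_of_le hz.2 (min_le_left _ _)⟩
    rw [hz2] at hpos
    have := (div_pos_iff_of_pos_right (sub_pos.2 hcx)).1 hpos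
    have h5 := hm c (hcI c ⟨hcx.le, le_rfl⟩)
    linarith only [this, h5]

/-- Upper bound through the maximum point. -/
theorem le_of_max {f f' f'' : ℝ → ℝ} (h1 : ∀ x ∈ II, HasDerivWithinAt f (f' x) II x)
    (h2 : ∀ x ∈ II, HasDerivWithinAt f' (f'' x) II x) {K : ℝ}
    (h : ∀ x0 ∈ II, (∀ x ∈ II, f x ≤ f x0) → (1 - x0 ^ 2) * f' x0 = 0 →
      (∀ e : ℝ, 0 ≤ e → (1 - x0 ^ 2) * f'' x0 - e * x0 * f' x0 ≤ 0) → f x0 ≤ K) :
    ∀ x ∈ II, f x ≤ K := by
  obtain ⟨x0, hx0, hmax⟩ := isCompact_II.exists_isMaxOn ⟨0, zero_mem_II⟩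
    (fun x hx => (h1 x hx).continuousWithinAt)
  have hm : ∀ x ∈ II, f x ≤ f x0 := fun x hx => hmax hx
  have := max_point h1 h2 hx0 hm
  intro x hx
  exact (hm x hx).trans (h x0 hx0 hm this.1 this.2)

/-- Bound of `|f|` through the extremum points. -/
theorem abs_le_of_max {f f' f'' : ℝ → ℝ} (h1 : ∀ x ∈ II, HasDerivWithinAt f (f' x) II x)
    (h2 : ∀ x ∈ II, HasDerivWithinAt f' (f'' x) II x) {K : ℝ}
    (hp : ∀ x0 ∈ II, (∀ x ∈ II, f x ≤ f x0) → (1 - x0 ^ 2) * f' x0 = 0 →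
      (∀ e : ℝ, 0 ≤ e → (1 - x0 ^ 2) * f'' x0 - e * x0 * f' x0 ≤ 0) → f x0 ≤ K)
    (hn : ∀ x0 ∈ II, (∀ x ∈ II, f x0 ≤ f x) → (1 - x0 ^ 2) * f' x0 = 0 →
      (∀ e : ℝ, 0 ≤ e → 0 ≤ (1 - x0 ^ 2) * f'' x0 - e * x0 * f' x0) → -K ≤ f x0) :
    ∀ x ∈ II, |f x| ≤ K := by
  have hA := le_of_max h1 h2 hp
  have hB := le_of_max (f := fun x => - f x) (f' := fun x => - f' x) (f'' := fun x => - f'' x)
    (K := K) (fun x hx => (h1 x hx).neg) (fun x hx => (h2 x hx).neg)
    (by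
      intro x0 hx0 hm e1 e2
      have := hn x0 hx0 (fun x hx => by have := hm x hx; linarith only [this]) (by linarith only [e1])
        (fun e he => by have := e2 e he; linarith only [this])
      linarith only [this])
  intro x hx
  rw [abs_le]
  exact ⟨by have := hB x hx; linarith only [this], hA x hx⟩

/-- Differentiated equation. -/
theorem eq_all {d mu h : ℝ} {u g : ℕ → ℝ → ℝ} (hu : Jet u) (hg : Jet g)
    (he : ∀ x ∈ II, mu * u 0 x - h * lapJ d u 0 x = g 0 x) (j : ℕ) :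
    ∀ x ∈ II, mu * u j x - h * lapJ d u j x = g j x := by
  have h1 : Jet (fun j x => mu * u j x - h * lapJ d u j x) :=
    (hu.smul mu).sub ((hu.lap d).smul h)
  exact h1.unique hg he j

/-- Bound of the solution of the constant coefficient equation, at every level. -/
theorem resolv_bound {d mu h : ℝ} (hd : 0 ≤ d) (hmu : 0 < mu) (hh : 0 ≤ h)
    {u g : ℕ → ℝ → ℝ} (hu : Jet u) (hg : Jet g)
    (he : ∀ x ∈ II, mu * u 0 x - h * lapJ d u 0 x = g 0 x) (j : ℕ) {K : ℝ}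
    (hK : ∀ x ∈ II, |g j x| ≤ K) : ∀ x ∈ II, |u j x| ≤ K / mu := by
  have he' := eq_all hu hg he j
  have hc : 0 ≤ (j : ℝ) * d + (j : ℝ) * ((j : ℝ) - 1) := by
    rcases Nat.eq_zero_or_pos j with h0 | h0
    · subst h0; simp
    · have : (1 : ℝ) ≤ j := by exact_mod_cast h0
      have h1 : 0 ≤ (j : ℝ) * d := by positivity
      have h2 : 0 ≤ (j : ℝ) * ((j : ℝ) - 1) := mul_nonneg (by positivity) (by linarith only [this])
      linarith only [h1, h2]
  have hj : 0 ≤ d + 2 * (j : ℝ) := by positivity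
  have hK0 : 0 ≤ K := le_trans (abs_nonneg _) (hK 0 zero_mem_II)
  refine abs_le_of_max (fun x hx => hu j x hx) (fun x hx => hu (j + 1) x hx) ?_ ?_
  · intro x0 hx0 _ _ h2
    have e1 := he' x0 hx0
    have e2 := h2 _ hj
    have e3 := (abs_le.1 (hK x0 hx0)).2
    unfold lapJ at e1
    rw [le_div_iff₀ hmu]
    by_contra hcon
    push Not at hcon
    have hpos : 0 < u j x0 := by
      by_contra hc2
      push Not at hc2
      have : u j x0 * mu ≤ 0 := mul_nonpos_of_nonpos_of_nonneg hc2 hmu.le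
      linarith only [hK0, hcon, this]
    have h3 : 0 ≤ h * (((j : ℝ) * d + (j : ℝ) * ((j : ℝ) - 1)) * u j x0) := by positivity
    have h4 : h * ((1 - x0 ^ 2) * u (j + 2) x0 - (d + 2 * (j : ℝ)) * x0 * u (j + 1) x0) ≤ 0 :=
      mul_nonpos_of_nonneg_of_nonpos hh e2
    nlinarith only [e1, e3, hcon, h3, h4]
  · intro x0 hx0 _ _ h2
    have e1 := he' x0 hx0
    have e2 := h2 _ hj
    have e3 := (abs_le.1 (hK x0 hx0)).1
    unfold lapJ at e1
    rw [← neg_div, div_le_iff₀ hmu]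
    by_contra hcon
    push Not at hcon
    have hneg : u j x0 < 0 := by
      by_contra hc2
      push Not at hc2
      have : 0 ≤ u j x0 * mu := mul_nonneg hc2 hmu.le
      linarith only [hK0, hcon, this]
    have h3 : h * (((j : ℝ) * d + (j : ℝ) * ((j : ℝ) - 1)) * u j x0) ≤ 0 :=
      mul_nonpos_of_nonneg_of_nonpos hh (mul_nonpos_of_nonneg_of_nonpos hc hneg.le)
    have h4 : 0 ≤ h * ((1 - x0 ^ 2) * u (j + 2) x0 - (d + 2 * (j : ℝ)) * x0 * u (j + 1) x0) :=
      mul_nonneg hh e2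
    nlinarith only [e1, e3, hcon, h3, h4]

end Vale.Agent.P244.ST.L
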