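import Vale.Agent.P244.ST.L.Lap

/-!
# P244-ST block L : polynomial jets, density, resolvent of `Lap_d` on jets
-/

open Set Filter Topology Polynomial

namespace Vale.Agent.P244.ST.L

/-- Jet of a polynomial. -/
noncomputable def pj (P : ℝ[X]) (j : ℕ) (x : ℝ) : ℝ := (derivative^[j] P).eval x

theorem jet_pj (P : ℝ[X]) : Jet (pj P) := by
  intro j x _
  unfold pj
  rw [Function.iterate_succ_apply']
  exact ((derivative^[j] P).hasDerivAt x).hasDerivWithinAt

theorem pj_zero (P : ℝ[X]) (x : ℝ) : pj P 0 x = P.eval x := rfl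

theorem exists_antideriv (P : ℝ[X]) : ∃ Q : ℝ[X], derivative Q = P := by
  induction P using Polynomial.induction_on' with
  | add p q hp hq =>
    obtain ⟨a, ha⟩ := hp
    obtain ⟨b, hb⟩ := hq
    exact ⟨a + b, by rw [derivative_add, ha, hb]⟩
  | monomial n a =>
    refine ⟨monomial (n + 1) (a / (n + 1)), ?_⟩
    rw [derivative_monomial]
    congr 1
    push_cast
    field_simp

/-- Density of polynomials in every `C^n([-1,1])`. -/
theorem dense_pj (n : ℕ) : ∀ {g : ℕ → ℝ → ℝ}, Jet g → ∀ {ε : ℝ}, 0 < ε →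
    ∃ P : ℝ[X], ∀ i ≤ n, ∀ x ∈ II, |pj P i x - g i x| ≤ ε := by
  induction n with
  | zero =>
    intro g hg ε hε
    obtain ⟨P, hP⟩ := exists_polynomial_near_of_continuousOn (-1) 1 (g 0) (hg.continuousOn 0) ε hε
    refine ⟨P, fun i hi x hx => ?_⟩
    obtain rfl : i = 0 := by omega
    exact (hP x hx).le
  | succ n ih =>
    intro g hg ε hε
    obtain ⟨P1, hP1⟩ := ih (hg.shift 1) hε
    obtain ⟨Q, hQ⟩ := exists_antideriv P1
    have hder : ∀ i, derivative^[i + 1] (Q + C (g 0 0 - Q.eval 0)) = derivative^[i] P1 := by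
      intro i
      rw [Function.iterate_succ_apply, derivative_add, derivative_C, add_zero, hQ]
    refine ⟨Q + C (g 0 0 - Q.eval 0), fun i hi x hx => ?_⟩
    cases i with
    | succ i =>
      have := hP1 i (by omega) x hx
      unfold pj at this ⊢
      rw [hder]
      exact this
    | zero =>
      set R := Q + C (g 0 0 - Q.eval 0) with hR
      have hd : ∀ z ∈ II, HasDerivWithinAt (fun z => pj R 0 z - g 0 z) (pj R 1 z - g 1 z) II z :=
        fun z hz => (jet_pj R 0 z hz).sub (hg 0 z hz)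
      have hb : ∀ z ∈ II, ‖pj R 1 z - g 1 z‖ ≤ ε := by
        intro z hz
        have := hP1 0 (Nat.zero_le _) z hz
        unfold pj at this ⊢
        have h2 := hder 0
        simp only [Function.iterate_zero, id_eq, zero_add] at this h2 ⊢
        rw [h2]
        exact this
      have h3 := convex_II.norm_image_sub_le_of_norm_hasDerivWithin_le hd hb zero_mem_II hx
      have h4 : pj R 0 0 - g 0 0 = 0 := by
        simp [pj, hR]
      rw [h4, sub_zero, Real.norm_eq_abs, Real.norm_eq_abs, sub_zero] at h3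
      refine h3.trans ?_
      have : |x| ≤ 1 := abs_le.2 ⟨hx.1, hx.2⟩
      nlinarith only [hε, this]

/-- The operator `mu - h Lap_d` on polynomials. -/
noncomputable def Tpol (d mu h : ℝ) : ℝ[X] →ₗ[ℝ] ℝ[X] :=
  mu • LinearMap.id - h • ((LinearMap.mulLeft ℝ (1 - X ^ 2 : ℝ[X])) ∘ₗ derivative ∘ₗ derivative
    - d • ((LinearMap.mulLeft ℝ (X : ℝ[X])) ∘ₗ derivative))

theorem Tpol_apply (d mu h : ℝ) (P : ℝ[X]) :
    Tpol d mu h P = mu • P - h • ((1 - X ^ 2) * derivative (derivative P)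
      - d • (X * derivative P)) := by
  simp [Tpol]

theorem Tpol_X_pow (d mu h : ℝ) (n : ℕ) :
    Tpol d mu h (X ^ n) = (mu + h * (n * (n - 1 + d))) • (X ^ n : ℝ[X])
      - (h * (n * (n - 1))) • (X ^ (n - 2) : ℝ[X]) := by
  rw [Tpol_apply]
  match n with
  | 0 => simp
  | 1 => 
    simp only [pow_one, derivative_X, derivative_one, mul_zero, mul_one, Nat.cast_one]
    simp only [smul_eq_C_mul]
    simp only [map_add, map_mul, map_sub, map_one]
    simp
    ring
  | n + 2 =>
    simp only [derivative_X_pow, derivative_mul, derivative_C, zero_mul, zero_add,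
      Nat.add_sub_cancel, smul_eq_C_mul]
    rw [show n + 2 - 1 = n + 1 by omega, show n + 1 - 1 = n by omega]
    push_cast
    simp only [map_add, map_mul, map_sub, map_one, map_natCast]
    simp only [map_ofNat]
    ring

theorem Tpol_surj {d mu h : ℝ} (hd : 0 ≤ d) (hmu : 0 < mu) (hh : 0 ≤ h) (Q : ℝ[X]) :
    ∃ P, Tpol d mu h P = Q := by
  have key : ∀ n : ℕ, ∃ P, Tpol d mu h P = (X ^ n : ℝ[X]) := by
    intro n
    induction n using Nat.strong_induction_on with
    | _ n ih =>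
      have hpos : 0 < mu + h * ((n : ℝ) * ((n : ℝ) - 1 + d)) := by
        rcases Nat.eq_zero_or_pos n with h0 | h0
        · subst h0; simpa using hmu
        · have : (1 : ℝ) ≤ n := by exact_mod_cast h0
          have h1 : 0 ≤ (n : ℝ) - 1 + d := by linarith only [hd, this]
          positivity
      rcases Nat.lt_or_ge n 2 with h2 | h2
      · have hz : h * ((n : ℝ) * ((n : ℝ) - 1)) = 0 := by
          interval_cases n <;> simp
        refine ⟨(mu + h * ((n : ℝ) * ((n : ℝ) - 1 + d)))⁻¹ • X ^ n, ?_⟩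
        rw [map_smul, Tpol_X_pow, hz, zero_smul, sub_zero, smul_smul,
          inv_mul_cancel₀ hpos.ne', one_smul]
      · obtain ⟨P, hP⟩ := ih (n - 2) (by omega)
        refine ⟨(mu + h * ((n : ℝ) * ((n : ℝ) - 1 + d)))⁻¹ •
          (X ^ n + (h * ((n : ℝ) * ((n : ℝ) - 1))) • P), ?_⟩
        rw [map_smul, map_add, map_smul, hP, Tpol_X_pow, sub_add_cancel, smul_smul,
          inv_mul_cancel₀ hpos.ne', one_smul]
  induction Q using Polynomial.induction_on' with
  | add p q hp hq =>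
    obtain ⟨a, ha⟩ := hp
    obtain ⟨b, hb⟩ := hq
    exact ⟨a + b, by rw [map_add, ha, hb]⟩
  | monomial n a =>
    obtain ⟨P, hP⟩ := key n
    refine ⟨a • P, ?_⟩
    rw [map_smul, hP, smul_eq_C_mul, C_mul_X_pow_eq_monomial]

theorem pj_resolv {d mu h : ℝ} (hd : 0 ≤ d) (hmu : 0 < mu) (hh : 0 ≤ h) (Q : ℝ[X]) :
    ∃ P : ℝ[X], ∀ x, mu * pj P 0 x - h * lapJ d (pj P) 0 x = pj Q 0 x := by
  obtain ⟨P, hP⟩ := Tpol_surj hd hmu hh Q
  refine ⟨P, fun x => ?_⟩
  have := congrArg (fun R : ℝ[X] => R.eval x) hP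
  simp only [Tpol_apply, eval_sub, eval_smul, eval_mul, eval_one, eval_pow, eval_X,
    smul_eq_mul] at this
  unfold lapJ pj
  simp only [Function.iterate_succ, Function.iterate_zero, Function.comp_apply, id_eq,
    Nat.cast_zero]
  linarith only [this]

/-- Resolvent on jets. -/
theorem resolv {d mu h : ℝ} (hd : 0 ≤ d) (hmu : 0 < mu) (hh : 0 ≤ h) {g : ℕ → ℝ → ℝ}
    (hg : Jet g) : ∃ u, Jet u ∧ (∀ x ∈ II, mu * u 0 x - h * lapJ d u 0 x = g 0 x) := by
  have h1 : ∀ n : ℕ, ∃ P Q : ℝ[X], (∀ i ≤ n, ∀ x ∈ II, |pj Q i x - g i x| ≤ 1 / ((n : ℝ) + 1)) ∧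
      ∀ x, mu * pj P 0 x - h * lapJ d (pj P) 0 x = pj Q 0 x := by
    intro n
    obtain ⟨Q, hQ⟩ := dense_pj n hg (ε := 1 / ((n : ℝ) + 1)) (by positivity)
    obtain ⟨P, hP⟩ := pj_resolv hd hmu hh Q
    exact ⟨P, Q, hQ, hP⟩
  choose P Q hQ hP using h1
  -- Cauchy estimate
  have hC : ∀ j, ∀ n m, j ≤ n → n ≤ m → ∀ x ∈ II,
      |pj (P m) j x - pj (P n) j x| ≤ (2 / ((n : ℝ) + 1)) / mu := by
    intro j n m hjn hnm
    refine resolv_bound (u := fun j x => pj (P m) j x - pj (P n) j x)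
      (g := fun j x => pj (Q m) j x - pj (Q n) j x) hd hmu hh
      ((jet_pj _).sub (jet_pj _)) ((jet_pj _).sub (jet_pj _)) ?_ j ?_
    · intro x _
      have e1 := hP m x
      have e2 := hP n x
      unfold lapJ at e1 e2 ⊢
      linarith only [e1, e2]
    · intro x hx
      have e1 := hQ m j (hjn.trans hnm) x hx
      have e2 := hQ n j hjn x hx
      have e3 : 1 / ((m : ℝ) + 1) ≤ 1 / ((n : ℝ) + 1) :=
        one_div_le_one_div_of_le (by positivity) (by
          have : (n : ℝ) ≤ m := by exact_mod_cast hnm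
          linarith only [this])
      calc |pj (Q m) j x - pj (Q n) j x|
          = |(pj (Q m) j x - g j x) - (pj (Q n) j x - g j x)| := by congr 1; ring
        _ ≤ |pj (Q m) j x - g j x| + |pj (Q n) j x - g j x| := abs_sub _ _
        _ ≤ 1 / ((n : ℝ) + 1) + 1 / ((n : ℝ) + 1) := add_le_add (e1.trans e3) e2
        _ = 2 / ((n : ℝ) + 1) := by ring
  have ht0 : Tendsto (fun n : ℕ => (2 / ((n : ℝ) + 1)) / mu) atTop (𝓝 0) := by
    have := (tendsto_one_div_add_atTop_nhds_zero_nat (𝕜 := ℝ)).const_mul (2 / mu)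
    rw [mul_zero] at this
    refine this.congr fun n => by ring
  have hcau : ∀ j, UniformCauchySeqOn (fun n => pj (P n) j) atTop II := by
    intro j
    rw [Metric.uniformCauchySeqOn_iff]
    intro ε hε
    obtain ⟨N, hN⟩ := eventually_atTop.1 (ht0.eventually (gt_mem_nhds (half_pos hε)))
    refine ⟨max N j, fun m hm n hn x hx => ?_⟩
    have e1 := hC j (max N j) m (le_max_right _ _) hm x hx
    have e2 := hC j (max N j) n (le_max_right _ _) hn x hx
    have e3 := hN (max N j) (le_max_left _ _)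
    rw [Real.dist_eq]
    calc |pj (P m) j x - pj (P n) j x|
        = |(pj (P m) j x - pj (P (max N j)) j x) - (pj (P n) j x - pj (P (max N j)) j x)| := by
          congr 1; ring
      _ ≤ |pj (P m) j x - pj (P (max N j)) j x| + |pj (P n) j x - pj (P (max N j)) j x| :=
          abs_sub _ _
      _ < ε := by
          have := add_le_add e1 e2
          linarith only [e1, e2, e3]
  have hlim : ∀ j, ∃ U : ℝ → ℝ, ∀ x ∈ II, Tendsto (fun n => pj (P n) j x) atTop (𝓝 (U x)) := by
    intro j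
    have : ∀ x : ℝ, ∃ y : ℝ, x ∈ II → Tendsto (fun n => pj (P n) j x) atTop (𝓝 y) := by
      intro x
      by_cases hx : x ∈ II
      · obtain ⟨y, hy⟩ := cauchySeq_tendsto_of_complete ((hcau j).cauchySeq hx)
        exact ⟨y, fun _ => hy⟩
      · exact ⟨0, fun h => absurd h hx⟩
    choose U hU using this
    exact ⟨U, fun x hx => hU x hx⟩
  choose U hU using hlim
  have hunif : ∀ j, TendstoUniformlyOn (fun n => pj (P n) j) (U j) atTop II := fun j =>
    (hcau j).tendstoUniformlyOn_of_tendsto (fun x hx => hU j x hx)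
  refine ⟨U, Jet.of_unif (fun n => jet_pj (P n)) hunif, fun x hx => ?_⟩
  have hQt : Tendsto (fun n => pj (Q n) 0 x) atTop (𝓝 (g 0 x)) := by
    rw [tendsto_iff_dist_tendsto_zero]
    refine squeeze_zero (fun n => dist_nonneg) (fun n => ?_) tendsto_one_div_add_atTop_nhds_zero_nat
    rw [Real.dist_eq]
    exact hQ n 0 (Nat.zero_le _) x hx
  have hL : Tendsto (fun n => mu * pj (P n) 0 x - h * lapJ d (pj (P n)) 0 x) atTop
      (𝓝 (mu * U 0 x - h * lapJ d U 0 x)) := by
    unfold lapJ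
    exact ((hU 0 x hx).const_mul mu).sub (((((hU 2 x hx).const_mul _).sub
      ((hU 1 x hx).const_mul _)).sub ((hU 0 x hx).const_mul _)).const_mul h)
  exact tendsto_nhds_unique (hL.congr fun n => hP n x) hQt

end Vale.Agent.P244.ST.L
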