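import Vale.Agent.P244.ST.L.Drift

/-!
# P244-ST block L (E) : joint smoothness on `[0,T) × [-1,1]`
-/

open Set Filter Topology MeasureTheory
open scoped ContDiff

namespace Vale.Agent.P244.ST.L

/-- Uniformity over a compact set of the continuity in the first variable. -/
theorem tube {A K : Set ℝ} (hK : IsCompact K) {g : ℝ → ℝ → ℝ}
    (hg : ContinuousOn (fun z : ℝ × ℝ => g z.1 z.2) (A ×ˢ K)) {t0 : ℝ} (ht0 : t0 ∈ A) {ε : ℝ}
    (hε : 0 < ε) : ∀ᶠ t in 𝓝[A] t0, ∀ y ∈ K, |g t y - g t0 y| ≤ ε := by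
  rw [eventually_nhdsWithin_iff]
  have h1 : ∀ᶠ t in 𝓝 t0, ∀ y ∈ K, t ∈ A → y ∈ K → |g t y - g t0 y| ≤ ε := by
    refine hK.eventually_forall_of_forall_eventually (P := fun t y => t ∈ A → y ∈ K →
      |g t y - g t0 y| ≤ ε) fun y0 hy0 => ?_
    have hc := hg (t0, y0) ⟨ht0, hy0⟩
    have hc1 : ∀ᶠ z in 𝓝[A ×ˢ K] (t0, y0), |g z.1 z.2 - g t0 y0| < ε / 2 := by
      have := (Metric.continuousWithinAt_iff'.1 hc) (ε / 2) (half_pos hε)
      simpa [Real.dist_eq] using this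
    rw [eventually_nhdsWithin_iff] at hc1
    have hc2 : ∀ᶠ z : ℝ × ℝ in 𝓝 (t0, y0), ((t0, z.2) : ℝ × ℝ) ∈ A ×ˢ K →
        |g t0 z.2 - g t0 y0| < ε / 2 := by
      have ht : Tendsto (fun z : ℝ × ℝ => ((t0, z.2) : ℝ × ℝ)) (𝓝 (t0, y0)) (𝓝 (t0, y0)) := by
        have : Continuous (fun z : ℝ × ℝ => ((t0, z.2) : ℝ × ℝ)) := by fun_prop
        exact this.tendsto (t0, y0)
      exact ht.eventually hc1
    filter_upwards [hc1, hc2] with z h1 h2 hz1 hz2
    have e1 := h1 ⟨hz1, hz2⟩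
    have e2 := h2 ⟨ht0, hz2⟩
    calc |g z.1 z.2 - g t0 z.2| = |(g z.1 z.2 - g t0 y0) - (g t0 z.2 - g t0 y0)| := by
          congr 1; ring
      _ ≤ |g z.1 z.2 - g t0 y0| + |g t0 z.2 - g t0 y0| := abs_sub _ _
      _ ≤ ε := by linarith only [e1, e2]
  filter_upwards [h1] with t ht hA y hy using ht y hy hA hy

/-- Mean value estimate on a convex set. -/
theorem mvt_within {A : Set ℝ} (hA : Convex ℝ A) {f f' : ℝ → ℝ} {c ε s0 s : ℝ}
    (hf : ∀ x ∈ A, HasDerivWithinAt f (f' x) A x) (hb : ∀ x ∈ A, |f' x - c| ≤ ε)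
    (hs0 : s0 ∈ A) (hs : s ∈ A) : |f s - f s0 - (s - s0) * c| ≤ ε * |s - s0| := by
  have hd : ∀ x ∈ A, HasDerivWithinAt (fun x => f x - x * c) (f' x - c) A x := by
    intro x hx
    have h1 : HasDerivWithinAt (fun y : ℝ => y * c) (1 * c) A x :=
      (hasDerivWithinAt_id x A).mul_const c
    rw [one_mul] at h1
    exact (hf x hx).sub h1
  have := hA.norm_image_sub_le_of_norm_hasDerivWithin_le hd
    (fun x hx => by rw [Real.norm_eq_abs]; exact hb x hx) hs0 hs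
  rw [Real.norm_eq_abs, Real.norm_eq_abs] at this
  convert this using 2
  ring

/-- Differentiability from continuous partial derivatives on a product of convex sets. -/
theorem hasFDerivWithinAt_prod {A B : Set ℝ} (hA : Convex ℝ A) (hB : Convex ℝ B)
    {G Gt Gx : ℝ → ℝ → ℝ}
    (ht : ∀ t ∈ A, ∀ x ∈ B, HasDerivWithinAt (fun s => G s x) (Gt t x) A t)
    (hx : ∀ t ∈ A, ∀ x ∈ B, HasDerivWithinAt (G t) (Gx t x) B x)
    (hGt : ContinuousOn (fun z : ℝ × ℝ => Gt z.1 z.2) (A ×ˢ B))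
    (hGx : ContinuousOn (fun z : ℝ × ℝ => Gx z.1 z.2) (A ×ˢ B)) :
    ∀ z ∈ A ×ˢ B, HasFDerivWithinAt (fun z : ℝ × ℝ => G z.1 z.2)
      (Gt z.1 z.2 • ContinuousLinearMap.fst ℝ ℝ ℝ + Gx z.1 z.2 • ContinuousLinearMap.snd ℝ ℝ ℝ)
      (A ×ˢ B) z := by
  rintro ⟨t0, x0⟩ ⟨ht0, hx0⟩
  rw [hasFDerivWithinAt_iff_isLittleO, Asymptotics.isLittleO_iff]
  intro c hc
  have h1 := (Metric.continuousWithinAt_iff.1 (hGt (t0, x0) ⟨ht0, hx0⟩)) (c / 2) (half_pos hc)
  have h2 := (Metric.continuousWithinAt_iff.1 (hGx (t0, x0) ⟨ht0, hx0⟩)) (c / 2) (half_pos hc)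
  obtain ⟨d1, hd1, h1⟩ := h1
  obtain ⟨d2, hd2, h2⟩ := h2
  set d := min d1 d2 with hd
  have hdpos : 0 < d := lt_min hd1 hd2
  have hev : ∀ᶠ z in 𝓝[A ×ˢ B] ((t0, x0) : ℝ × ℝ), z ∈ Metric.ball ((t0, x0) : ℝ × ℝ) d :=
    mem_nhdsWithin_of_mem_nhds (Metric.ball_mem_nhds _ hdpos)
  filter_upwards [hev, self_mem_nhdsWithin] with z hz hzS
  obtain ⟨t, x⟩ := z
  obtain ⟨htA, hxB⟩ := hzS
  rw [Metric.mem_ball, Prod.dist_eq, max_lt_iff] at hz
  obtain ⟨hzt, hzx⟩ := hz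
  simp only at htA hxB hzt hzx
  have hcA : Convex ℝ (A ∩ Metric.ball t0 d) := hA.inter (convex_ball _ _)
  have hcB : Convex ℝ (B ∩ Metric.ball x0 d) := hB.inter (convex_ball _ _)
  have e1 : |G t x - G t0 x - (t - t0) * Gt t0 x0| ≤ (c / 2) * |t - t0| := by
    refine mvt_within (f := fun s => G s x) (f' := fun s => Gt s x) hcA
      (fun s hs => (ht s hs.1 x hxB).mono inter_subset_left) (fun s hs => ?_)
      ⟨ht0, Metric.mem_ball_self hdpos⟩ ⟨htA, hzt⟩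
    have := @h1 (s, x) ⟨hs.1, hxB⟩ (by
      rw [Prod.dist_eq, max_lt_iff]
      exact ⟨lt_of_lt_of_le hs.2 (min_le_left _ _), lt_of_lt_of_le hzx (min_le_left _ _)⟩)
    rw [Real.dist_eq] at this
    exact this.le
  have e2 : |G t0 x - G t0 x0 - (x - x0) * Gx t0 x0| ≤ (c / 2) * |x - x0| := by
    refine mvt_within (f := fun y => G t0 y) (f' := fun y => Gx t0 y) hcB
      (fun s hs => (hx t0 ht0 s hs.1).mono inter_subset_left) (fun s hs => ?_)
      ⟨hx0, Metric.mem_ball_self hdpos⟩ ⟨hxB, hzx⟩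
    have := @h2 (t0, s) ⟨ht0, hs.1⟩ (by
      rw [Prod.dist_eq, max_lt_iff]
      exact ⟨by simpa using hd2, lt_of_lt_of_le hs.2 (min_le_right _ _)⟩)
    rw [Real.dist_eq] at this
    exact this.le
  have n1 : |t - t0| ≤ ‖((t, x) : ℝ × ℝ) - (t0, x0)‖ := by
    simp
  have n2 : |x - x0| ≤ ‖((t, x) : ℝ × ℝ) - (t0, x0)‖ := by
    simp
  have heq : G t x - G t0 x0 - ((Gt t0 x0 • ContinuousLinearMap.fst ℝ ℝ ℝ
      + Gx t0 x0 • ContinuousLinearMap.snd ℝ ℝ ℝ) (((t, x) : ℝ × ℝ) - (t0, x0)))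
      = (G t x - G t0 x - (t - t0) * Gt t0 x0) + (G t0 x - G t0 x0 - (x - x0) * Gx t0 x0) := by
    simp
    ring
  rw [heq, Real.norm_eq_abs]
  refine (abs_add_le _ _).trans ?_
  have c0 : 0 ≤ c / 2 := by positivity
  have m1 := mul_le_mul_of_nonneg_left n1 c0
  have m2 := mul_le_mul_of_nonneg_left n2 c0
  linarith only [e1, e2, m1, m2]

/-- The strip. -/
abbrev SS (T : ℝ) : Set (ℝ × ℝ) := Ico 0 T ×ˢ II

/-- (D) partial derivatives of class `C^n` give class `C^(n+1)`. -/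
theorem contDiffOn_succ_of_partials {T : ℝ} {G Gt Gx : ℝ → ℝ → ℝ} (n : ℕ)
    (ht : ∀ t ∈ Ico 0 T, ∀ x ∈ II, HasDerivWithinAt (fun s => G s x) (Gt t x) (Ico 0 T) t)
    (hx : ∀ t ∈ Ico 0 T, ∀ x ∈ II, HasDerivWithinAt (G t) (Gx t x) II x)
    (hGt : ContDiffOn ℝ n (fun z : ℝ × ℝ => Gt z.1 z.2) (SS T))
    (hGx : ContDiffOn ℝ n (fun z : ℝ × ℝ => Gx z.1 z.2) (SS T)) :
    ContDiffOn ℝ (n + 1 : ℕ) (fun z : ℝ × ℝ => G z.1 z.2) (SS T) := by
  have h1 := hasFDerivWithinAt_prod (convex_Ico 0 T) convex_II ht hx hGt.continuousOn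
    hGx.continuousOn
  have h2 : ContDiffOn ℝ ((n : ℕ∞ω) + 1) (fun z : ℝ × ℝ => G z.1 z.2) (SS T) := by
    rw [contDiffOn_succ_iff_hasFDerivWithinAt (by simp)]
    intro z hz
    refine ⟨SS T, ?_, by simp, _, h1, ?_⟩
    · rw [insert_eq_of_mem hz]; exact self_mem_nhdsWithin
    · exact (hGt.smul contDiffOn_const).add (hGx.smul contDiffOn_const)
  exact_mod_cast h2

/-- Differentiation under the integral sign, within a convex set of parameters. -/
theorem hasDerivWithinAt_integral {A : Set ℝ} (hA : Convex ℝ A) {a b : ℝ}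
    {φ φ' : ℝ → ℝ → ℝ} (hc : ∀ s ∈ A, ContinuousOn (φ s) (uIcc a b))
    (hφ : ∀ s ∈ A, ∀ y ∈ uIcc a b, HasDerivWithinAt (fun s => φ s y) (φ' s y) A s)
    (hφ' : ContinuousOn (fun z : ℝ × ℝ => φ' z.1 z.2) (A ×ˢ uIcc a b)) {s0 : ℝ} (hs0 : s0 ∈ A) :
    HasDerivWithinAt (fun s => ∫ y in a..b, φ s y) (∫ y in a..b, φ' s0 y) A s0 := by
  rw [hasDerivWithinAt_iff_isLittleO, Asymptotics.isLittleO_iff]
  intro c hc0
  set ε := c / (|b - a| + 1) with hε
  have hεpos : 0 < ε := by positivity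
  have h1 := tube isCompact_uIcc hφ' hs0 hεpos
  rw [eventually_nhdsWithin_iff, Metric.eventually_nhds_iff_ball] at h1
  obtain ⟨d, hd, h1⟩ := h1
  have hev : ∀ᶠ s in 𝓝[A] s0, s ∈ Metric.ball s0 d :=
    mem_nhdsWithin_of_mem_nhds (Metric.ball_mem_nhds _ hd)
  filter_upwards [hev, self_mem_nhdsWithin] with s hs hsA
  have hcA : Convex ℝ (A ∩ Metric.ball s0 d) := hA.inter (convex_ball _ _)
  have hpt : ∀ y ∈ uIcc a b, |φ s y - φ s0 y - (s - s0) * φ' s0 y| ≤ ε * |s - s0| := by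
    intro y hy
    exact mvt_within (f := fun s => φ s y) (f' := fun s => φ' s y) hcA
      (fun r hr => (hφ r hr.1 y hy).mono inter_subset_left)
      (fun r hr => h1 r hr.2 hr.1 y hy)
      ⟨hs0, Metric.mem_ball_self hd⟩ ⟨hsA, hs⟩
  have hc' : ContinuousOn (φ' s0) (uIcc a b) :=
    hφ'.comp (f := fun y : ℝ => ((s0, y) : ℝ × ℝ)) (by fun_prop) (fun y hy => ⟨hs0, hy⟩)
  have i1 : IntervalIntegrable (φ s) volume a b := (hc s hsA).intervalIntegrable
  have i2 : IntervalIntegrable (φ s0) volume a b := (hc s0 hs0).intervalIntegrable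
  have i3 : IntervalIntegrable (φ' s0) volume a b := hc'.intervalIntegrable
  have heq : (∫ y in a..b, φ s y) - (∫ y in a..b, φ s0 y) - (s - s0) • (∫ y in a..b, φ' s0 y)
      = ∫ y in a..b, (φ s y - φ s0 y - (s - s0) * φ' s0 y) := by
    rw [intervalIntegral.integral_sub (i1.sub i2) (i3.const_mul _),
      intervalIntegral.integral_sub i1 i2, intervalIntegral.integral_const_mul, smul_eq_mul]
  rw [heq]
  have h3 : ‖∫ y in a..b, (φ s y - φ s0 y - (s - s0) * φ' s0 y)‖ ≤ (ε * |s - s0|) * |b - a| := by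
    refine intervalIntegral.norm_integral_le_of_norm_le_const fun y hy => ?_
    rw [Real.norm_eq_abs]
    exact hpt y (uIoc_subset_uIcc hy)
  refine h3.trans ?_
  rw [Real.norm_eq_abs]
  have h4 : ε * |b - a| ≤ c := by
    rw [hε, div_mul_eq_mul_div, div_le_iff₀ (by positivity)]
    nlinarith only [hc0, abs_nonneg (b - a)]
  calc (ε * |s - s0|) * |b - a| = (ε * |b - a|) * |s - s0| := by ring
    _ ≤ c * |s - s0| := mul_le_mul_of_nonneg_right h4 (abs_nonneg _)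

theorem slice_cont {T : ℝ} {g : ℝ → ℝ → ℝ}
    (hg : ContinuousOn (fun z : ℝ × ℝ => g z.1 z.2) (SS T)) {t : ℝ} (ht : t ∈ Ico 0 T) :
    ContinuousOn (g t) II :=
  hg.comp (f := fun y : ℝ => ((t, y) : ℝ × ℝ)) (by fun_prop) (fun _ hy => ⟨ht, hy⟩)

theorem uIcc_zero_subset {x : ℝ} (hx : x ∈ II) : uIcc 0 x ⊆ II := by
  intro y hy
  rw [mem_uIcc] at hy
  rcases hy with h | h
  · exact ⟨by linarith only [h], h.2.trans hx.2⟩
  · exact ⟨hx.1.trans h.1, by linarith only [h]⟩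

/-- Continuity of the primitive in `x`. -/
theorem continuousOn_primx {T : ℝ} {g : ℝ → ℝ → ℝ}
    (hg : ContinuousOn (fun z : ℝ × ℝ => g z.1 z.2) (SS T)) :
    ContinuousOn (fun z : ℝ × ℝ => ∫ y in (0 : ℝ)..z.2, g z.1 y) (SS T) := by
  rintro ⟨t0, x0⟩ ⟨ht0, hx0⟩
  simp only at ht0 hx0
  rw [Metric.continuousWithinAt_iff']
  intro ε hε
  have h1 := tube isCompact_II hg ht0 (half_pos hε)
  have hg0 := slice_cont hg ht0
  have h2 : ∀ᶠ z in 𝓝[SS T] ((t0, x0) : ℝ × ℝ), ∀ y ∈ II, |g z.1 y - g t0 y| ≤ ε / 2 := by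
    have ht : Tendsto (fun z : ℝ × ℝ => z.1) (𝓝[SS T] (t0, x0)) (𝓝[Ico 0 T] t0) := by
      refine tendsto_nhdsWithin_iff.2 ⟨?_, ?_⟩
      · exact (continuous_fst.tendsto (t0, x0)).mono_left nhdsWithin_le_nhds
      · filter_upwards [self_mem_nhdsWithin] with z hz using hz.1
    exact ht.eventually h1
  obtain ⟨K, hK⟩ := isCompact_II.exists_bound_of_continuousOn hg0
  have hKpos : 0 ≤ K := (norm_nonneg _).trans (hK 0 zero_mem_II)
  have h3 : ∀ᶠ z in 𝓝[SS T] ((t0, x0) : ℝ × ℝ), |z.2 - x0| < ε / (2 * (K + 1)) := by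
    have : Metric.ball ((t0, x0) : ℝ × ℝ) (ε / (2 * (K + 1))) ∈ 𝓝[SS T] ((t0, x0) : ℝ × ℝ) :=
      mem_nhdsWithin_of_mem_nhds (Metric.ball_mem_nhds _ (by positivity))
    filter_upwards [this] with z hz
    rw [Metric.mem_ball, Prod.dist_eq, max_lt_iff, Real.dist_eq, Real.dist_eq] at hz
    exact hz.2
  filter_upwards [h2, h3, self_mem_nhdsWithin] with z hz2 hz3 hzS
  obtain ⟨t, x⟩ := z
  obtain ⟨ht, hx⟩ := hzS
  simp only at ht hx hz2 hz3 ⊢
  have i1 : IntervalIntegrable (g t) volume 0 x :=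
    ((slice_cont hg ht).mono (uIcc_zero_subset hx)).intervalIntegrable
  have i2 : IntervalIntegrable (g t0) volume 0 x :=
    (hg0.mono (uIcc_zero_subset hx)).intervalIntegrable
  have i3 : IntervalIntegrable (g t0) volume 0 x0 :=
    (hg0.mono (uIcc_zero_subset hx0)).intervalIntegrable
  have heq : (∫ y in (0 : ℝ)..x, g t y) - (∫ y in (0 : ℝ)..x0, g t0 y)
      = (∫ y in (0 : ℝ)..x, (g t y - g t0 y)) + ∫ y in x0..x, g t0 y := by
    rw [intervalIntegral.integral_sub i1 i2, ← intervalIntegral.integral_interval_sub_left i2 i3]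
    ring
  rw [Real.dist_eq, heq]
  have b1 : |∫ y in (0 : ℝ)..x, (g t y - g t0 y)| ≤ (ε / 2) * |x - 0| := by
    have := intervalIntegral.norm_integral_le_of_norm_le_const (a := 0) (b := x)
      (f := fun y => g t y - g t0 y) (C := ε / 2) (fun y hy => by
        rw [Real.norm_eq_abs]
        exact hz2 y (uIcc_zero_subset hx (uIoc_subset_uIcc hy)))
    rwa [Real.norm_eq_abs] at this
  have hsub : uIcc x0 x ⊆ II := by
    intro y hy
    rw [mem_uIcc] at hy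
    rcases hy with h | h
    · exact ⟨hx0.1.trans h.1, h.2.trans hx.2⟩
    · exact ⟨hx.1.trans h.1, h.2.trans hx0.2⟩
  have b2 : |∫ y in x0..x, g t0 y| ≤ K * |x - x0| := by
    have := intervalIntegral.norm_integral_le_of_norm_le_const (a := x0) (b := x)
      (f := fun y => g t0 y) (C := K) (fun y hy => hK y (hsub (uIoc_subset_uIcc hy)))
    rwa [Real.norm_eq_abs] at this
  have hx1 : |x - 0| ≤ 1 := by rw [sub_zero]; exact abs_le.2 ⟨hx.1, hx.2⟩
  have b3 : K * |x - x0| < ε / 2 := by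
    rw [lt_div_iff₀ (by positivity)] at hz3
    nlinarith only [hz3, abs_nonneg (x - x0)]
  calc |(∫ y in (0 : ℝ)..x, (g t y - g t0 y)) + ∫ y in x0..x, g t0 y|
      ≤ |∫ y in (0 : ℝ)..x, (g t y - g t0 y)| + |∫ y in x0..x, g t0 y| := abs_add_le _ _
    _ < ε := by nlinarith only [hε, b1, b2, hx1, b3]

theorem primx_deriv {g : ℝ → ℝ} (hg : ContinuousOn g II) {x : ℝ} (hx : x ∈ II) :
    HasDerivWithinAt (fun x => ∫ y in (0 : ℝ)..x, g y) (g x) II x := by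
  have hc : Continuous fun y : ℝ => g (max (-1) (min 1 y)) :=
    hg.comp_continuous (by fun_prop) clamp_mem
  have h1 : HasDerivAt (fun x => ∫ y in (0 : ℝ)..x, g (max (-1) (min 1 y)))
      (g (max (-1) (min 1 x))) x :=
    intervalIntegral.integral_hasDerivAt_right (hc.intervalIntegrable _ _)
      (hc.stronglyMeasurableAtFilter _ _) hc.continuousAt
  rw [clamp_eq hx] at h1
  have heq : ∀ x ∈ II, (∫ y in (0 : ℝ)..x, g y) = ∫ y in (0 : ℝ)..x, g (max (-1) (min 1 y)) := by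
    intro x hx
    refine intervalIntegral.integral_congr fun y hy => ?_
    rw [clamp_eq (uIcc_zero_subset hx hy)]
  exact h1.hasDerivWithinAt.congr heq (heq x hx)

/-- Partial derivative in time of a `C^(n+1)` function on the strip. -/
theorem exists_partial_t {T : ℝ} (n : ℕ) {g : ℝ → ℝ → ℝ}
    (hg : ContDiffOn ℝ (n + 1 : ℕ) (fun z : ℝ × ℝ => g z.1 z.2) (SS T)) :
    ∃ gt : ℝ → ℝ → ℝ, ContDiffOn ℝ n (fun z : ℝ × ℝ => gt z.1 z.2) (SS T) ∧
      ∀ t ∈ Ico 0 T, ∀ x ∈ II, HasDerivWithinAt (fun s => g s x) (gt t x) (Ico 0 T) t := by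
  have hu : UniqueDiffOn ℝ (SS T) := (uniqueDiffOn_Ico 0 T).prod uniqueDiffOn_II
  have h1 : ContDiffOn ℝ n (fderivWithin ℝ (fun z : ℝ × ℝ => g z.1 z.2) (SS T)) (SS T) :=
    hg.fderivWithin hu (by exact_mod_cast le_rfl)
  refine ⟨fun t x => fderivWithin ℝ (fun z : ℝ × ℝ => g z.1 z.2) (SS T) (t, x) (1, 0), ?_, ?_⟩
  · exact h1.clm_apply (contDiffOn_const (c := ((1, 0) : ℝ × ℝ)))
  · intro t ht x hx
    have hd := (hg.differentiableOn (by simp)) (t, x) ⟨ht, hx⟩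
    have h2 : HasDerivWithinAt (fun s : ℝ => ((s, x) : ℝ × ℝ)) ((1, 0) : ℝ × ℝ) (Ico 0 T) t :=
      (hasDerivWithinAt_id t _).prodMk (hasDerivWithinAt_const t _ x)
    exact hd.hasFDerivWithinAt.comp_hasDerivWithinAt t h2
      (fun s hs => (⟨hs, hx⟩ : ((s, x) : ℝ × ℝ) ∈ SS T))

/-- The primitive in `x` of a `C^n` function is `C^n`. -/
theorem contDiffOn_primx {T : ℝ} (n : ℕ) : ∀ {g : ℝ → ℝ → ℝ},
    ContDiffOn ℝ n (fun z : ℝ × ℝ => g z.1 z.2) (SS T) →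
    ContDiffOn ℝ n (fun z : ℝ × ℝ => ∫ y in (0 : ℝ)..z.2, g z.1 y) (SS T) := by
  induction n with
  | zero =>
    intro g hg
    rw [Nat.cast_zero, contDiffOn_zero] at hg ⊢
    exact continuousOn_primx hg
  | succ n ih =>
    intro g hg
    obtain ⟨gt, hgt, hgt2⟩ := exists_partial_t n hg
    have hgn : ContDiffOn ℝ n (fun z : ℝ × ℝ => g z.1 z.2) (SS T) :=
      hg.of_le (by exact_mod_cast Nat.le_succ n)
    refine contDiffOn_succ_of_partials (G := fun t x => ∫ y in (0 : ℝ)..x, g t y)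
      (Gt := fun t x => ∫ y in (0 : ℝ)..x, gt t y) (Gx := g) n ?_ ?_ (ih hgt) hgn
    · intro t ht x hx
      refine hasDerivWithinAt_integral (convex_Ico 0 T) (fun s hs =>
        (slice_cont hg.continuousOn hs).mono (uIcc_zero_subset hx))
        (fun s hs y hy => hgt2 s hs y (uIcc_zero_subset hx hy))
        (hgt.continuousOn.mono (prod_mono_right (uIcc_zero_subset hx))) ht
    · intro t ht x hx
      exact primx_deriv (slice_cont hg.continuousOn ht) hx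

end Vale.Agent.P244.ST.L
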